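import Vale.Agent.P199.LiftSeries

/-!
P199: the rows of a base change, and the first two orders of a lift on them: every linked value at a monomial other
than `1` is reached, so at most the identities at `1` survive.
-/

namespace Vale.Agent.P199.LiftSeries

open Module

noncomputable section

variable {P P₁ : Pt} (E : Ext P P₁) {L : Listing} {n : ℕ} (r : Rows L n P)

/-- The linked projection at every monomial. -/
def PJ (j : Fin n) : P₁.D →ₗ[P₁.K] P₁.D :=
  (basis E).constr P₁.K fun z => E.iD (r.proj j (oldBasis P z.1)) * E.mon z.2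

/-- The partner projection, at the monomial `1` only. -/
def PP (j : Fin n) : P₁.D →ₗ[P₁.K] P₁.D := PF E r j - PJ E r j

theorem PJ_iD_mon (j : Fin n) (a : P.D) (k : Fin E.m) :
    PJ E r j (E.iD a * E.mon k) = E.iD (r.proj j a) * E.mon k := by
  rw [PJ, constr_iD_mul]
  conv_rhs => rw [← (oldBasis P).sum_repr a]
  rw [map_sum, map_sum, Finset.sum_mul]
  exact Finset.sum_congr rfl fun i _ => by rw [map_smul, iD_smul, smul_mul_assoc]

theorem PJ_iD_mul (j : Fin n) (a : P.D) {x : P₁.D} (hx : x ∈ monSpan E) :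
    PJ E r j (E.iD a * x) = E.iD (r.proj j a) * x := by
  induction hx using Submodule.span_induction with
  | mem x h => obtain ⟨k, rfl⟩ := h; exact PJ_iD_mon E r j a k
  | zero => simp
  | add x y _ _ hx hy => rw [mul_add, mul_add, map_add, hx, hy]
  | smul c x _ hx => rw [mul_smul_comm, mul_smul_comm, map_smul, hx]

theorem PJ_basis (j : Fin n) (z : Fin (finrank P.K P.D) × Fin E.m) :
    PJ E r j (basis E z) = E.iD (r.proj j (oldBasis P z.1)) * E.mon z.2 := by
  rw [basis_apply, PJ_iD_mon]

theorem PF_basis (j : Fin n) (z : Fin (finrank P.K P.D) × Fin E.m) :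
    PF E r j (basis E z) = E.iD (projAt E r z.2 j (oldBasis P z.1)) * E.mon z.2 := by
  rw [basis_apply, PF_iD_mon]

theorem PJ_PJ (j : Fin n) (a : P₁.D) : PJ E r j (PJ E r j a) = PJ E r j a := by
  refine LinearMap.congr_fun (f := (PJ E r j).comp (PJ E r j)) ((basis E).ext fun z => ?_) a
  rw [LinearMap.comp_apply, PJ_basis, PJ_iD_mon, r.proj_self j _ (r.proj_mem j _)]

theorem PJ_PF (j : Fin n) (a : P₁.D) : PJ E r j (PF E r j a) = PJ E r j a := by
  refine LinearMap.congr_fun (f := (PJ E r j).comp (PF E r j)) ((basis E).ext fun z => ?_) a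
  rw [LinearMap.comp_apply, PF_basis, PJ_basis, PJ_iD_mon]
  unfold projAt
  split
  · rw [r.proj_projF]
  · rw [r.proj_self j _ (r.proj_mem j _)]

theorem PF_PJ (j : Fin n) (a : P₁.D) : PF E r j (PJ E r j a) = PJ E r j a := by
  refine LinearMap.congr_fun (f := (PF E r j).comp (PJ E r j)) ((basis E).ext fun z => ?_) a
  rw [LinearMap.comp_apply, PJ_basis, PF_iD_mon]
  unfold projAt
  split
  · rw [r.projF_self j _ (Submodule.mem_sup_left (r.proj_mem j _))]
  · rw [r.proj_self j _ (r.proj_mem j _)]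

theorem PF_PF (j : Fin n) (a : P₁.D) : PF E r j (PF E r j a) = PF E r j a := by
  refine LinearMap.congr_fun (f := (PF E r j).comp (PF E r j)) ((basis E).ext fun z => ?_) a
  rw [LinearMap.comp_apply, PF_basis, PF_iD_mon]
  unfold projAt
  split
  · rw [r.projF_self j _ (r.projF_mem j _)]
  · rw [r.proj_self j _ (r.proj_mem j _)]

theorem iD_scalars {j : ℕ} {a : P.D} (ha : a ∈ P.scalars L j) :
    E.iD a ∈ P₁.scalars L j := by
  have hq : E.iD (P.q L j) = P₁.q L j := by
    rw [Pt.q, Pt.q, Poly.ev_map E.iD, ← val_eq E]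
  induction ha using Submodule.span_induction with
  | mem x h =>
    obtain ⟨i, rfl⟩ := h
    exact Submodule.subset_span ⟨i, by rw [map_pow, hq]⟩
  | zero => rw [map_zero]; exact zero_mem _
  | add x y _ _ hx hy => rw [map_add]; exact add_mem hx hy
  | smul c x _ hx => rw [iD_smul]; exact Submodule.smul_mem _ _ hx

theorem projF_sub_proj_mem (j : Fin n) (a : P.D) : r.projF j a - r.proj j a ∈ r.Pp j := by
  obtain ⟨w, hw, p, hp, he⟩ := Submodule.mem_sup.1 (r.projF_mem j a)
  have h : r.proj j a = w := by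
    rw [← r.proj_projF, ← he, map_add, r.proj_self j w hw, r.proj_Pp j p hp, add_zero]
  rw [h, ← he, add_sub_cancel_left]
  exact hp

/-- **The rows of the base change.** -/
def baseRows : Rows L n P₁ where
  W j := LinearMap.range (PJ E r j)
  Pp j := LinearMap.range (PP E r j)
  proj := PJ E r
  projF := PF E r
  proj_mem j a := ⟨a, rfl⟩
  proj_self j := by
    rintro _ ⟨a, rfl⟩
    exact PJ_PJ E r j a
  proj_Pp j := by
    rintro _ ⟨a, rfl⟩
    rw [PP, LinearMap.sub_apply, map_sub, PJ_PF, PJ_PJ, sub_self]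
  projF_mem j a := by
    rw [show PF E r j a = PJ E r j a + PP E r j a by rw [PP, LinearMap.sub_apply]; abel]
    exact Submodule.add_mem_sup ⟨a, rfl⟩ ⟨a, rfl⟩
  projF_self j a ha := by
    obtain ⟨_, ⟨x, rfl⟩, _, ⟨y, rfl⟩, rfl⟩ := Submodule.mem_sup.1 ha
    rw [map_add, PF_PJ, PP, LinearMap.sub_apply, map_sub, PF_PF, PF_PJ]
  proj_projF := PJ_PF E r
  Pp_le j := by
    suffices h : ∀ z, PP E r j (basis E z) ∈ P₁.scalars L j by
      rintro _ ⟨a, rfl⟩
      rw [← (basis E).sum_repr a, map_sum]
      exact sum_mem fun z _ => by rw [map_smul]; exact Submodule.smul_mem _ _ (h z)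
    intro z
    rw [PP, LinearMap.sub_apply, PF_basis, PJ_basis, ← sub_mul, ← map_sub]
    unfold projAt
    split
    · rename_i hz
      rw [hz, mon_one_eq, mul_one]
      exact iD_scalars E (r.Pp_le j (projF_sub_proj_mem r j _))
    · rw [sub_self, map_zero, zero_mul]
      exact zero_mem _
  scalars_le j := by
    refine Submodule.span_le.2 ?_
    rintro _ ⟨i, rfl⟩
    have hq : P₁.q L j ^ i = PF E r j (E.iD (P.q L j ^ i) * E.mon (one E)) := by
      have hmem : P.q L j ^ i ∈ r.W j ⊔ r.Pp j :=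
        r.scalars_le j (Submodule.subset_span ⟨i, rfl⟩)
      rw [PF_iD_mon, projAt, if_pos rfl, r.projF_self j _ hmem, mon_one_eq, mul_one, map_pow, Pt.q,
        Pt.q, Poly.ev_map E.iD, ← val_eq E]
    show P₁.q L j ^ i ∈ LinearMap.range (PJ E r j) ⊔ LinearMap.range (PP E r j)
    rw [hq, show ∀ x, PF E r j x = PJ E r j x + PP E r j x from fun x => by
      rw [PP, LinearMap.sub_apply]; abel]
    exact Submodule.add_mem_sup ⟨_, rfl⟩ ⟨_, rfl⟩

/-- The linked part of a tuple. -/
def GW (d : Fin n → P.D) : (j : Fin n) → r.W j := fun j => ⟨r.proj j (d j), r.proj_mem j _⟩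

/-- The linked part of a new tuple. -/
def GW₁ (Z : Fin n → P₁.D) : (j : Fin n) → (baseRows E r).W j := fun j =>
  ⟨PJ E r j (Z j), _, rfl⟩

theorem mem_range_of_killed {w : (j : Fin n) → r.W j} (h : ∀ y ∈ r.Y, y w = 0) :
    w ∈ LinearMap.range r.J := by
  rw [← Subspace.dualAnnihilator_dualCoannihilator_eq (W := LinearMap.range r.J),
    Submodule.mem_dualCoannihilator]
  exact h

/-- An unobstructed tuple times an element of the monomial span is in the range. -/
theorem GW₁_mem_range {d : Fin n → P.D} (hd : ∀ y ∈ r.Y, yv r y d = 0) {x : P₁.D}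
    (hx : x ∈ monSpan E) :
    GW₁ E r (fun j => E.iD (d j) * x) ∈ LinearMap.range (baseRows E r).J := by
  obtain ⟨s, hs⟩ := mem_range_of_killed r (w := GW r d) hd
  refine ⟨fun c => E.iD (s c) * x, funext fun j => Subtype.ext ?_⟩
  show PJ E r j (P₁.dEq L (L.b n) j (fun c => E.iD (s c) * x, 0)) = PJ E r j (E.iD (d j) * x)
  rw [dEq_mul E s hx, PJ_iD_mul E r j _ hx, PJ_iD_mul E r j _ hx]
  exact congrArg (fun z => E.iD z * x) (congrArg Subtype.val (congrFun hs j))

/-- A tangent times an element of the monomial span is a tangent, killed exactly. -/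
theorem dEq_tangent_mul (hfix : ∀ u ∈ r.T, ∀ j : Fin n, P.dEq L (L.b n) j (u, 0) = 0)
    {s : Rows.Amb P} (hs : s ∈ r.T) {x : P₁.D} (hx : x ∈ monSpan E) (j : Fin n) :
    P₁.dEq L (L.b n) j (fun c => E.iD (s c) * x, 0) = 0 := by
  rw [dEq_mul E s hx, hfix s hs, map_zero, zero_mul]

/-- The ambient direction given by an old one and a monomial. -/
def ambVec (s : Rows.Amb P) (k : Fin E.m) : Rows.Amb P₁ := fun c => E.iD (s c) * E.mon k

theorem amb_eq_sum (u : Rows.Amb P₁) : u = ∑ c : Bool, ∑ z : Fin (finrank P.K P.D) × Fin E.m,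
    (basis E).repr (u c) z • ambVec E (Pi.single c (oldBasis P z.1)) z.2 := by
  funext c'
  rw [Finset.sum_apply, Finset.sum_eq_single c', Finset.sum_apply]
  · conv_lhs => rw [← (basis E).sum_repr (u c')]
    exact Finset.sum_congr rfl fun z _ => by
      rw [Pi.smul_apply, ambVec, Pi.single_eq_same, basis_apply]
  · intro c _ hc
    rw [Finset.sum_apply]
    exact Finset.sum_eq_zero fun z _ => by
      rw [Pi.smul_apply, ambVec, Pi.single_eq_of_ne hc.symm, map_zero, zero_mul, smul_zero]
  · exact fun h => absurd (Finset.mem_univ c') h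

/-- Tangents of the base change are killed exactly. -/
theorem baseRows_fixed (hfix : ∀ u ∈ r.T, ∀ j : Fin n, P.dEq L (L.b n) j (u, 0) = 0) :
    ∀ u ∈ (baseRows E r).T, ∀ j : Fin n, P₁.dEq L (L.b n) j (u, 0) = 0 := by
  intro u hu j
  obtain ⟨φ, hφ⟩ := exists_factor r.J ((P.dEq L (L.b n) j).comp (LinearMap.inl P.K _ _))
    (fun s hs => hfix s hs j)
  let Φ : (Fin n → P₁.D) →ₗ[P₁.K] P₁.D := ∑ i : Fin n, ((basis E).constr P₁.K fun z =>
    E.iD (φ (GW r (Pi.single i (oldBasis P z.1)))) * E.mon z.2) ∘ₗ LinearMap.proj i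
  have hΦ : ∀ (d : Fin n → P.D) k, Φ (fun i => E.iD (d i) * E.mon k) =
      E.iD (φ (GW r d)) * E.mon k := by
    intro d k
    simp only [Φ, LinearMap.sum_apply, LinearMap.comp_apply, LinearMap.proj_apply, constr_iD_mul]
    let G : (Fin n → P.D) →ₗ[P.K] ((i : Fin n) → r.W i) := LinearMap.pi fun i =>
      ((r.proj i).codRestrict (r.W i) fun a => r.proj_mem i a) ∘ₗ LinearMap.proj i
    have hd : E.iD (φ (GW r d)) * E.mon k =
        ∑ i, ∑ t, E.iK ((oldBasis P).repr (d i) t) •
          (E.iD (φ (G (Pi.single i (oldBasis P t)))) * E.mon k) := by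
      have hd0 : d = ∑ i, ∑ t, (oldBasis P).repr (d i) t •
          (Pi.single i (oldBasis P t) : Fin n → P.D) := by
        conv_lhs => rw [← Finset.univ_sum_single d]
        refine Finset.sum_congr rfl fun i _ => ?_
        simp only [← Pi.single_smul]
        rw [← single_sum, (oldBasis P).sum_repr]
      show E.iD (φ (G d)) * E.mon k = _
      conv_lhs => rw [hd0]
      simp only [map_sum, map_smul, Finset.sum_mul, iD_smul, smul_mul_assoc]
    rw [hd]
    rfl
  have key : ((P₁.dEq L (L.b n) j).comp (LinearMap.inl P₁.K _ _)) =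
      Φ.comp (LinearMap.pi fun i : Fin n => (PJ E r i).comp
        ((P₁.dEq L (L.b n) i).comp (LinearMap.inl P₁.K _ _))) := by
    refine LinearMap.ext fun v => ?_
    rw [amb_eq_sum E v]
    simp only [map_sum, map_smul]
    refine Finset.sum_congr rfl fun c _ => Finset.sum_congr rfl fun z _ => congrArg _ ?_
    show P₁.dEq L (L.b n) j (ambVec E _ z.2, 0) = Φ fun i => PJ E r i
      (P₁.dEq L (L.b n) i (ambVec E _ z.2, 0))
    have e : ∀ i : Fin n, PJ E r i (P₁.dEq L (L.b n) i (ambVec E (Pi.single c (oldBasis P z.1)) z.2, 0)) =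
        E.iD (r.proj i (P.dEq L (L.b n) i (Pi.single c (oldBasis P z.1), 0))) * E.mon z.2 := fun i => by
      show PJ E r i (P₁.dEq L (L.b n) i (fun c' => _ * E.mon z.2, 0)) = _
      rw [dEq_mul E _ (mon_mem E z.2), PJ_iD_mon]
    rw [funext e, hΦ]
    show P₁.dEq L (L.b n) j (fun c' => _ * E.mon z.2, 0) = _
    rw [dEq_mul E _ (mon_mem E z.2)]
    refine congrArg (fun w => E.iD w * E.mon z.2) ?_
    refine (LinearMap.congr_fun hφ _).symm.trans (congrArg φ (funext fun i => Subtype.ext ?_))
    exact (r.proj_self i _ (r.proj_mem i _)).symm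
  have h := LinearMap.congr_fun key u
  refine h.trans ?_
  have hz : (fun i : Fin n => PJ E r i (P₁.dEq L (L.b n) i (u, 0))) = 0 := funext fun i =>
    congrArg Subtype.val (congrFun (LinearMap.mem_ker.1 hu) i)
  exact (congrArg Φ hz).trans (map_zero Φ)

/-- The first order of a lift on linked values. -/
def LinA (a b : Rows.Amb P) (U V : P₁.D) :
    Rows.Amb P₁ →ₗ[P₁.K] ((j : Fin n) → (baseRows E r).W j) :=
  LinearMap.pi fun j => ((PJ E r j).codRestrict (LinearMap.range (PJ E r j)) fun x => ⟨x, rfl⟩) ∘ₗ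
    (Lin (L := L) (n := n) E a b U V j) ∘ₗ LinearMap.inl P₁.K _ _

/-- The first order of a lift on all values. -/
def LinF (a b : Rows.Amb P) (U V : P₁.D) :
    P₁.Dir (L.b n) →ₗ[P₁.K] ((j : Fin n) → ↥((baseRows E r).W j ⊔ (baseRows E r).Pp j)) :=
  LinearMap.pi fun j => ((PF E r j).codRestrict _ fun x => (baseRows E r).projF_mem j x) ∘ₗ
    (Lin (L := L) (n := n) E a b U V j)

variable {a b : Rows.Amb P} {U V : P₁.D}

/-- A tangent times an element of the span, to first order. -/
theorem LinA_mul (h : LiftData E r a b U V) {s : Rows.Amb P} (hs : s ∈ r.T) {ν : P₁.D}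
    (hν : ν ∈ monSpan E) :
    LinA E r a b U V (fun c => E.iD (s c) * ν) -
      (GW₁ E r (fun j => E.iD (D2 r a s j) * (U * ν - ν * U)) +
        GW₁ E r (fun j => E.iD (D2 r b s j) * (V * ν - ν * V))) ∈
      LinearMap.range (baseRows E r).J := by
  have hz : ∀ u : Rows.Amb P, u ∈ r.T → ∀ y ∈ r.Y, yv r y (D2 r u s + D2 r s u) = 0 :=
    fun u hu y hy => by
      rw [map_add, yv_D2, yv_D2, form_swap r h.alt hy hu hs, neg_add_cancel]
  have e : LinA E r a b U V (fun c => E.iD (s c) * ν) =
      (GW₁ E r (fun j => E.iD (D2 r a s j) * (U * ν - ν * U)) +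
        GW₁ E r (fun j => E.iD (D2 r b s j) * (V * ν - ν * V))) +
      (GW₁ E r (fun j => E.iD ((D2 r a s + D2 r s a) j) * (ν * U)) +
        GW₁ E r (fun j => E.iD ((D2 r b s + D2 r s b) j) * (ν * V))) := by
    funext j
    refine Subtype.ext ?_
    show PJ E r j (Lin (L := L) (n := n) E a b U V j (fun c => E.iD (s c) * ν, 0)) =
      PJ E r j _ + PJ E r j _ + (PJ E r j _ + PJ E r j _)
    rw [Lin_mul E r s h.memU h.memV hν j, ← map_add, ← map_add, ← map_add]
    congr 1
    simp only [Pi.add_apply, map_add, mul_sub, add_mul]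
    abel
  rw [e, add_sub_cancel_left]
  exact add_mem (GW₁_mem_range E r (hz a h.memA) (mul_mem_monSpan E h.mul hν h.memU))
    (GW₁_mem_range E r (hz b h.memB) (mul_mem_monSpan E h.mul hν h.memV))

theorem tangent_mul_mem (h : LiftData E r a b U V) {s : Rows.Amb P} (hs : s ∈ r.T) {ν : P₁.D}
    (hν : ν ∈ monSpan E) : (fun c => E.iD (s c) * ν) ∈ (baseRows E r).T :=
  LinearMap.mem_ker.2 (funext fun j => Subtype.ext (by
    show PJ E r j (P₁.dEq L (L.b n) j (fun c => E.iD (s c) * ν, 0)) = 0
    rw [dEq_tangent_mul E r h.tight.fixed hs hν j, map_zero]))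

/-- Orders zero and one reach every linked value off the monomial `1`. -/
theorem mon_mem_reach (h : LiftData E r a b U V) {k : Fin E.m} (hk : k ≠ one E) (d : Fin n → P.D) :
    GW₁ E r (fun j => E.iD (d j) * E.mon k) ∈
      LinearMap.range (baseRows E r).J ⊔ (baseRows E r).T.map (LinA E r a b U V) := by
  obtain ⟨ν, hν, hbr⟩ := h.comm k hk
  let f : Dual P.K r.Y := (Dual.eval P.K _ (GW r d)).comp r.Y.subtype
  have hsub : ∀ Z Z' : Fin n → P₁.D, GW₁ E r (fun j => Z j - Z' j) = GW₁ E r Z - GW₁ E r Z' :=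
    fun Z Z' => funext fun j => Subtype.ext (map_sub (PJ E r j) _ _)
  have hrange : ∀ {d₁ : Fin n → P.D}, (∀ y ∈ r.Y, yv r y d₁ = yv r y d) →
      GW₁ E r (fun j => E.iD (d₁ j) * E.mon k) - GW₁ E r (fun j => E.iD (d j) * E.mon k) ∈
        LinearMap.range (baseRows E r).J := fun {d₁} hd₁ => by
    rw [← hsub]
    simp only [← sub_mul, ← map_sub]
    exact GW₁_mem_range E r (d := d₁ - d) (fun y hy => by rw [map_sub, hd₁ y hy, sub_self])
      (mon_mem E k)
  have hUV : U * ν - ν * U ∈ monSpan E ∧ V * ν - ν * V ∈ monSpan E :=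
    ⟨sub_mem (mul_mem_monSpan E h.mul h.memU hν) (mul_mem_monSpan E h.mul hν h.memU),
      sub_mem (mul_mem_monSpan E h.mul h.memV hν) (mul_mem_monSpan E h.mul hν h.memV)⟩
  rcases hbr with hbr | hbr
  · obtain ⟨s, hs, hs'⟩ := h.solA f
    have h1 := LinA_mul E r h hs hν
    rw [hbr] at h1
    have h2 := hrange (d₁ := D2 r a s) fun y hy => (hs' ⟨y, hy⟩).1
    have h3 := GW₁_mem_range E r (d := D2 r b s) (fun y hy => (hs' ⟨y, hy⟩).2) hUV.2
    have h4 : LinA E r a b U V (fun c => E.iD (s c) * ν) ∈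
        (baseRows E r).T.map (LinA E r a b U V) := ⟨_, tangent_mul_mem E r h hs hν, rfl⟩
    have h5 := Submodule.sub_mem _ (Submodule.mem_sup_right h4)
      (Submodule.mem_sup_left (add_mem (add_mem h1 h2) h3))
    convert h5 using 1
    abel
  · obtain ⟨s, hs, hs'⟩ := h.solB f
    have h1 := LinA_mul E r h hs hν
    rw [hbr] at h1
    have h2 := hrange (d₁ := D2 r b s) fun y hy => (hs' ⟨y, hy⟩).1
    have h3 := GW₁_mem_range E r (d := D2 r a s) (fun y hy => (hs' ⟨y, hy⟩).2) hUV.1
    have h4 : LinA E r a b U V (fun c => E.iD (s c) * ν) ∈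
        (baseRows E r).T.map (LinA E r a b U V) := ⟨_, tangent_mul_mem E r h hs hν, rfl⟩
    have h5 := Submodule.sub_mem _ (Submodule.mem_sup_right h4)
      (Submodule.mem_sup_left (add_mem (add_mem h1 h2) h3))
    convert h5 using 1
    abel

/-- **At most the identities at `1` survive.** -/
theorem finrank_le_reach (h : LiftData E r a b U V) :
    finrank P₁.K ((j : Fin n) → (baseRows E r).W j) ≤
      finrank P₁.K ↥(LinearMap.range (baseRows E r).J ⊔ (baseRows E r).T.map (LinA E r a b U V)) +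
        r.corank := by
  classical
  have : Module.Free P.K r.Y := Module.Free.of_divisionRing P.K r.Y
  let e := finBasis P.K r.Y
  let evY : ((j : Fin n) → r.W j) →ₗ[P.K] Dual P.K r.Y :=
    r.Y.subtype.dualMap ∘ₗ Dual.eval P.K _
  have hsurj : Function.Surjective evY := fun f => by
    obtain ⟨g, hg⟩ := LinearMap.exists_extend f
    obtain ⟨v, rfl⟩ := (Module.evalEquiv P.K ((j : Fin n) → r.W j)).surjective g
    exact ⟨v, hg⟩
  choose w hw using fun t => hsurj (e.dualBasis t)
  set G := LinearMap.range (baseRows E r).J ⊔ (baseRows E r).T.map (LinA E r a b U V)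
  let S := Submodule.span P₁.K
    (Set.range fun t => GW₁ E r fun j => E.iD (w t j : P.D) * E.mon (one E))
  have htop : G ⊔ S = ⊤ := by
    refine eq_top_iff.2 fun z _ => ?_
    have hz : z = ∑ i : Fin n, ∑ p, (basis E).repr (z i : P₁.D) p •
        GW₁ E r (fun j => E.iD ((Pi.single i (oldBasis P p.1) : Fin n → P.D) j) * E.mon p.2) := by
      funext j
      refine Subtype.ext ?_
      rw [Finset.sum_apply, Finset.sum_eq_single j]
      · simp only [Finset.sum_apply, Pi.smul_apply, Submodule.coe_sum, Submodule.coe_smul, GW₁,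
          Pi.single_eq_same, ← basis_apply E, ← map_smul, ← map_sum]
        rw [(basis E).sum_repr]
        exact ((baseRows E r).proj_self j _ (z j).2).symm
      · intro i _ hi
        refine Subtype.ext ?_
        simp [GW₁, Finset.sum_apply, Pi.single_eq_of_ne hi.symm]
      · exact fun h' => absurd (Finset.mem_univ j) h'
    rw [hz]
    refine sum_mem fun i _ => sum_mem fun p _ => Submodule.smul_mem _ _ ?_
    generalize (Pi.single i (oldBasis P p.1) : Fin n → P.D) = d
    by_cases hp : p.2 = one E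
    · rw [hp]
      let d' : Fin n → P.D := fun j => d j - ∑ t, evY (GW r d) (e t) • (w t j : P.D)
      have hd' : ∀ y ∈ r.Y, yv r y d' = 0 := fun y hy => by
        have he : GW r d' = GW r d - ∑ t, evY (GW r d) (e t) • w t := funext fun j => Subtype.ext (by
          simp only [GW, d', map_sub, map_sum, map_smul, Pi.sub_apply, Submodule.coe_sub,
            Finset.sum_apply, Submodule.coe_sum, Pi.smul_apply, Submodule.coe_smul,
            r.proj_self j _ (w _ j).2])
        have h0 : evY (GW r d') = 0 := by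
          rw [he, map_sub, map_sum, sub_eq_zero]
          simp only [map_smul, hw]
          rw [Basis.coe_dualBasis]
          exact (e.sum_dual_apply_smul_coord _).symm
        exact LinearMap.congr_fun h0 ⟨y, hy⟩
      have e' : GW₁ E r (fun j => E.iD (d j) * E.mon (one E)) =
          GW₁ E r (fun j => E.iD (d' j) * E.mon (one E)) +
            ∑ t, E.iK (evY (GW r d) (e t)) • GW₁ E r (fun j => E.iD (w t j : P.D) * E.mon (one E)) :=
        funext fun j => Subtype.ext (by
          simp only [GW₁, Pi.add_apply, Submodule.coe_add, Finset.sum_apply, Submodule.coe_sum,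
            Pi.smul_apply, Submodule.coe_smul, ← map_smul, ← map_sum, ← map_add]
          congr 1
          simp only [d', map_sub, map_sum, iD_smul, sub_mul, Finset.sum_mul, smul_mul_assoc]
          abel)
      rw [e']
      exact add_mem (Submodule.mem_sup_left (Submodule.mem_sup_left
        (GW₁_mem_range E r hd' (mon_mem E _)))) (Submodule.mem_sup_right
          (sum_mem fun t _ => Submodule.smul_mem _ _ (Submodule.subset_span ⟨t, rfl⟩)))
    · exact Submodule.mem_sup_left (mon_mem_reach E r h hp d)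
  have h1 := Submodule.finrank_add_le_finrank_add_finrank G S
  rw [htop, finrank_top] at h1
  have h2 : finrank P₁.K S ≤ r.corank := (finrank_range_le_card _).trans
    (le_of_eq (Fintype.card_fin _))
  omega

/-- Orders zero and one reach every value with symbols. -/
theorem reachF (h : LiftData E r a b U V) (Z : (j : Fin n) → ↥((baseRows E r).W j ⊔ (baseRows E r).Pp j)) :
    ∃ x u : P₁.Dir (L.b n), (∀ j : Fin n, P₁.dEq L (L.b n) j u = 0) ∧
      (baseRows E r).Jf x + LinF E r a b U V u = Z := by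
  obtain ⟨u, hu, hgood⟩ := exists_correction E r h fun j => -(Z j : P₁.D)
  obtain ⟨x, hx⟩ := exists_preimage E r h.tight hgood
  refine ⟨-x, u, hu, funext fun j => Subtype.ext ?_⟩
  show PF E r j (P₁.dEq L (L.b n) j (-x)) + PF E r j (Lin (L := L) (n := n) E a b U V j u) = Z j
  rw [map_neg, map_neg, hx j, map_add, map_neg, (baseRows E r).projF_self j _ (Z j).2 |>
    (show PF E r j (Z j : P₁.D) = Z j from ·)]
  abel

end

end Vale.Agent.P199.LiftSeries
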