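import Vale.Agent.P199.LiftSeries

/-!
P199: the first two coefficients of the derivatives at a point of series.
-/

namespace Vale.Agent.P199.Poly

variable {R : Type*} [Ring R]

section Series

open PowerSeries

variable (v u w : Var → PowerSeries R) (p : Poly)

theorem cf_zero_eq : cf 0 v = fun z => constantCoeff (v z) :=
  funext fun z => coeff_zero_eq_constantCoeff_apply (v z)

theorem coeff_zero_d1 : coeff 0 (d1 v u p) = d1 (cf 0 v) (cf 0 u) p := by
  rw [coeff_zero_eq_constantCoeff_apply]
  have h := map_d1 v u (constantCoeff (R := R)) 1 (fun a => by rw [mul_one, one_mul]) p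
  rw [mul_one] at h
  rw [h]
  simp only [mul_one, cf_zero_eq]

theorem coeff_zero_d2 : coeff 0 (d2 v u w p) = d2 (cf 0 v) (cf 0 u) (cf 0 w) p := by
  rw [coeff_zero_eq_constantCoeff_apply]
  have h := map_d2 v u w (constantCoeff (R := R)) 1 1 (fun a => by rw [mul_one, one_mul])
    (fun a => by rw [mul_one, one_mul]) p
  rw [mul_one, mul_one] at h
  rw [h]
  simp only [mul_one, cf_zero_eq]

/-- The order one coefficient of the differential at a series point. -/
theorem coeff_one_d1 :
    coeff 1 (d1 v u p) = d1 (cf 0 v) (cf 1 u) p +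
      (d2 (cf 0 v) (cf 1 v) (cf 0 u) p + d2 (cf 0 v) (cf 0 u) (cf 1 v) p) := by
  induction p using FreeAlgebra.induction with
  | grade0 n => simp only [d1_int, d2_int, map_zero, add_zero]
  | grade1 z => simp [show FreeAlgebra.ι ℤ z = X z from rfl, cf]
  | mul a b ha hb =>
    rw [d1_mul, map_add, PowerSeries.coeff_mul, PowerSeries.coeff_mul,
      Finset.Nat.sum_antidiagonal_eq_sum_range_succ
        (fun i j => coeff i (ev v a) * coeff j (d1 v u b)),
      Finset.Nat.sum_antidiagonal_eq_sum_range_succ
        (fun i j => coeff i (d1 v u a) * coeff j (ev v b)),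
      Finset.sum_range_succ, Finset.sum_range_succ, Finset.sum_range_zero,
      Finset.sum_range_succ, Finset.sum_range_succ, Finset.sum_range_zero]
    simp only [Nat.sub_self, zero_add, Nat.sub_zero, coeff_zero_ev, coeff_one_ev, coeff_zero_d1,
      ha, hb, d1_mul, d2_mul, mul_add, add_mul]
    abel
  | add a b ha hb => simp only [d1_add, d2_add, map_add, ha, hb]; abel

end Series

end Vale.Agent.P199.Poly
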