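import Vale.Agent.P199.Lift.Deform
import Vale.Agent.P199.Lift.Calculus

/-!
P199: the deformed rows of a Laurent point over rows of its residue.
-/

namespace Vale.Agent.P199

open Module SkewLaurent LaurentAlg

noncomputable section

namespace LaurData

variable {P₁ : Pt} (T : LaurData P₁) (L : Listing)

/-- The algebra of the Laurent point. -/
@[reducible] def alg (_T : LaurData P₁) : Algebra (LaurentSeries P₁.K) (SkewLaurent (1 : RingAut P₁.D)) :=
  laurentAlgebra

/-- An element of the Laurent point as a series. -/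
def toS (a : T.pt.D) : SkewLaurent (1 : RingAut P₁.D) := a

/-- A series as an element of the Laurent point. -/
def ofS (a : SkewLaurent (1 : RingAut P₁.D)) : T.pt.D := a

/-- The values as series points. -/
def ser (z : Var) : PowerSeries P₁.D := PowerSeries.mk fun n : ℕ => cf (T.toS (T.pt.val z)) n

theorem psE_ser (z : Var) : psE (T.ser z) = T.toS (T.pt.val z) := by
  refine exists_psE_of_neg _ fun n hn => ?_
  cases z with
  | inl a => exact T.x_neg a n hn
  | inr i =>
    show cf (laurentScalarHom (T.c i)) n = 0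
    rw [cf_laurentScalarHom, T.c_neg i n hn, map_zero]

theorem cf_zero_ser : Poly.cf 0 T.ser = P₁.val := by
  funext z
  rw [Poly.cf, ser, PowerSeries.coeff_mk]
  cases z with
  | inl a => exact T.x_zero a
  | inr i =>
    show cf (laurentScalarHom (T.c i)) 0 = _
    rw [cf_laurentScalarHom, T.c_zero]
    rfl

theorem ev_pt (p : Poly) : T.toS (Poly.ev T.pt.val p) = psE (Poly.ev T.ser p) := by
  rw [Poly.ev_map, funext T.psE_ser]
  rfl

/-- The series of the element of row `j`. -/
def qS (j : ℕ) : PowerSeries P₁.D := Poly.ev T.ser (L.p j)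

theorem constantCoeff_qS (j : ℕ) : PowerSeries.constantCoeff (T.qS L j) = P₁.q L j := by
  rw [← PowerSeries.coeff_zero_eq_constantCoeff_apply, qS, Poly.coeff_zero_ev, T.cf_zero_ser]
  rfl

theorem exists_poly (j : ℕ) :
    ∃ σ : P₁.scalars L j →ₗ[P₁.K] Polynomial P₁.K, ∀ x, Polynomial.aeval (P₁.q L j) (σ x) = x := by
  let b := Module.finBasis P₁.K (P₁.scalars L j)
  have h : ∀ i, ∃ p : Polynomial P₁.K, Polynomial.aeval (P₁.q L j) p = (b i : P₁.D) := fun i => by
    have hle : P₁.scalars L j ≤ LinearMap.range (Polynomial.aeval (P₁.q L j)).toLinearMap :=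
      Submodule.span_le.2 (by rintro _ ⟨k, rfl⟩; exact ⟨Polynomial.X ^ k, by simp⟩)
    exact hle (b i).2
  choose p hp using h
  refine ⟨b.constr P₁.K p, fun x => ?_⟩
  have h2 : ((Polynomial.aeval (P₁.q L j)).toLinearMap.comp (b.constr P₁.K p)) =
      (P₁.scalars L j).subtype := b.ext fun i => by
    rw [LinearMap.comp_apply, Basis.constr_basis]
    exact hp i
  exact LinearMap.congr_fun h2 x

theorem exists_proj (j : ℕ) :
    ∃ π : P₁.D →ₗ[P₁.K] P₁.scalars L j, ∀ x : P₁.scalars L j, π x = x := by
  obtain ⟨π, hπ⟩ := LinearMap.exists_leftInverse_of_injective (P₁.scalars L j).subtype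
    (Submodule.ker_subtype _)
  exact ⟨π, fun x => LinearMap.congr_fun hπ x⟩

/-- The deformation of the residue scalars of row `j` into the scalars of the new row. -/
def gen (j : ℕ) : P₁.D →ₗ[P₁.K] PowerSeries P₁.D :=
  { toFun := fun x => PowerSeries.C x
    map_add' := fun x y => map_add _ x y
    map_smul' := fun r x => by
      refine PowerSeries.ext fun m => ?_
      rw [RingHom.id_apply, PowerSeries.coeff_smul, PowerSeries.coeff_C, PowerSeries.coeff_C]
      split <;> simp } +
    (((Polynomial.aeval (T.qS L j)).toLinearMap -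
        (Polynomial.aeval (PowerSeries.C (P₁.q L j))).toLinearMap).comp
      (exists_poly L j).choose).comp (exists_proj L j).choose

theorem aeval_qS_const (j : ℕ) (p : Polynomial P₁.K) :
    PowerSeries.constantCoeff (Polynomial.aeval (T.qS L j) p) = Polynomial.aeval (P₁.q L j) p := by
  induction p using Polynomial.induction_on' with
  | add p q hp hq => simp only [map_add, hp, hq]
  | monomial i r =>
    rw [Polynomial.aeval_monomial, Polynomial.aeval_monomial, map_mul, map_pow, T.constantCoeff_qS,
      PowerSeries.algebraMap_apply, PowerSeries.constantCoeff_C]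

theorem aeval_C (j : ℕ) (p : Polynomial P₁.K) :
    Polynomial.aeval (PowerSeries.C (P₁.q L j)) p =
      PowerSeries.C (Polynomial.aeval (P₁.q L j) p) := by
  induction p using Polynomial.induction_on' with
  | add p q hp hq => simp only [map_add, hp, hq]
  | monomial i r =>
    rw [Polynomial.aeval_monomial, Polynomial.aeval_monomial, map_mul, map_pow,
      PowerSeries.algebraMap_apply]

theorem gen_const (j : ℕ) (x : P₁.D) : PowerSeries.constantCoeff (T.gen L j x) = x := by
  simp only [gen, LinearMap.add_apply, LinearMap.coe_mk, AddHom.coe_mk, LinearMap.comp_apply,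
    LinearMap.sub_apply, AlgHom.toLinearMap_apply, map_add, map_sub, T.aeval_qS_const L j, aeval_C L j,
    PowerSeries.constantCoeff_C, sub_self, add_zero]

theorem gen_of_mem (j : ℕ) (x : P₁.scalars L j) :
    T.gen L j x = Polynomial.aeval (T.qS L j) ((exists_poly L j).choose x) := by
  simp only [gen, LinearMap.add_apply, LinearMap.coe_mk, AddHom.coe_mk, LinearMap.comp_apply,
    LinearMap.sub_apply, AlgHom.toLinearMap_apply, (exists_proj L j).choose_spec x,
    aeval_C L j, (exists_poly L j).choose_spec x]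
  abel

/-- The row automorphism carries residue scalars into scalars. -/
theorem moved_scalars_le (j : ℕ) :
    letI := T.alg
    Conj.movedSpan (fun _ => rfl) (T.gen L j) (P₁.scalars L j) ≤ T.pt.scalars L j := by
  let _ := T.alg
  unfold Conj.movedSpan Conj.span
  refine Submodule.map_le_iff_le_comap.2 (Submodule.span_le.2 ?_)
  rintro _ ⟨x, hx, rfl⟩
  show Conj.move (fun _ => rfl) (T.gen L j) (C 1 x) ∈ T.pt.scalars L j
  rw [Conj.move_C, show x = ((⟨x, hx⟩ : P₁.scalars L j) : P₁.D) from rfl, T.gen_of_mem]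
  generalize (exists_poly L j).choose ⟨x, hx⟩ = p
  induction p using Polynomial.induction_on' with
  | add p q hp hq =>
    rw [map_add, (psE (D := P₁.D)).map_add]
    exact add_mem hp hq
  | monomial i r =>
    rw [Polynomial.aeval_monomial, PowerSeries.algebraMap_apply]
    have h : psE (PowerSeries.C (algebraMap P₁.K P₁.D r) * T.qS L j ^ i) =
        (HahnSeries.ofPowerSeries ℤ P₁.K (PowerSeries.C r)) • psE (T.qS L j) ^ i := by
      rw [← map_pow, LeadE.smul_psE (fun _ => rfl), PowerSeries.map_C]
    rw [h, qS, ← T.ev_pt]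
    let S : Submodule (LaurentSeries P₁.K) (SkewLaurent (1 : RingAut P₁.D)) := T.pt.scalars L j
    have hmem0 : T.pt.q L j ^ i ∈ T.pt.scalars L j := Submodule.subset_span ⟨i, rfl⟩
    have hmem : T.toS (Poly.ev T.pt.val (L.p j)) ^ i ∈ S := hmem0
    exact S.smul_mem _ hmem

variable {n : ℕ} (r₁ : Rows L n P₁)
  (hdeg : ∀ j < n, finrank T.pt.K (T.pt.scalars L j) ≤ finrank P₁.K (P₁.scalars L j))
include hdeg

theorem moved_scalars_eq (j : Fin n) :
    letI := T.alg
    Conj.movedSpan (fun _ => rfl) (T.gen L j) (P₁.scalars L j) = T.pt.scalars L j := by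
  let _ := T.alg
  have hf : FiniteDimensional (LaurentSeries P₁.K) (SkewLaurent (1 : RingAut P₁.D)) :=
    finiteDimensional_laurent fun _ => rfl
  let S : Submodule (LaurentSeries P₁.K) (SkewLaurent (1 : RingAut P₁.D)) := T.pt.scalars L j
  refine Submodule.eq_of_le_of_finrank_le (S₂ := S) (T.moved_scalars_le L j) ?_
  refine le_trans (hdeg j j.2) (le_of_eq ?_)
  exact (Conj.finrank_movedSpan (fun _ => rfl) _ (T.gen_const L j) _).symm

omit hdeg in
theorem deform_Pp_le (j : Fin n) :
    letI := T.alg
    Conj.movedSpan (fun _ => rfl) (T.gen L j) (r₁.Pp j) ≤ T.pt.scalars L j := by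
  let _ := T.alg
  exact le_trans (Submodule.map_mono (Conj.span_mono (r₁.Pp_le j))) (T.moved_scalars_le L j)

omit hdeg in
theorem moved_sup (j : Fin n) :
    letI := T.alg
    Conj.movedSpan (fun _ => rfl) (T.gen L j) (r₁.W j) ⊔
      Conj.movedSpan (fun _ => rfl) (T.gen L j) (r₁.Pp j) =
        Conj.movedSpan (fun _ => rfl) (T.gen L j) (r₁.W j ⊔ r₁.Pp j) := by
  let _ := T.alg
  refine le_antisymm (sup_le (Submodule.map_mono (Conj.span_mono le_sup_left))
    (Submodule.map_mono (Conj.span_mono le_sup_right))) ?_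
  rw [Conj.movedSpan, Conj.movedSpan, Conj.movedSpan, ← Submodule.map_sup]
  exact Submodule.map_mono (Conj.span_sup _ _)

theorem deform_scalars_le (j : Fin n) :
    letI := T.alg
    T.pt.scalars L j ≤ Conj.movedSpan (fun _ => rfl) (T.gen L j) (r₁.W j) ⊔
      Conj.movedSpan (fun _ => rfl) (T.gen L j) (r₁.Pp j) := by
  let _ := T.alg
  rw [T.moved_sup L r₁ j, ← T.moved_scalars_eq L hdeg j]
  exact Submodule.map_mono (Conj.span_mono (r₁.scalars_le j))

/-- **The deformed rows.** -/
def deform : Rows L n T.pt :=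
  letI := T.alg
  { W := fun j => Conj.movedSpan (fun _ => rfl) (T.gen L j) (r₁.W j)
    Pp := fun j => Conj.movedSpan (fun _ => rfl) (T.gen L j) (r₁.Pp j)
    proj := fun j => Conj.conj (fun _ => rfl) (T.gen L j) (T.gen_const L j) (r₁.proj j)
    projF := fun j => Conj.conj (fun _ => rfl) (T.gen L j) (T.gen_const L j) (r₁.projF j)
    proj_mem := fun j a => Conj.conj_mem _ _ _ (r₁.proj_mem j) a
    proj_self := fun j a ha =>
      (Conj.conj_eq_of_mem _ _ _ (f' := LinearMap.id) (r₁.proj_self j) ha).trans
        (Conj.conj_id _ _ _ a)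
    proj_Pp := fun j a ha =>
      (Conj.conj_eq_of_mem _ _ _ (f' := 0) (r₁.proj_Pp j) ha).trans (Conj.conj_zero _ _ _ a)
    projF_mem := fun j a =>
      (T.moved_sup L r₁ j).ge (Conj.conj_mem _ _ _ (r₁.projF_mem j) a)
    projF_self := fun j a ha =>
      (Conj.conj_eq_of_mem _ _ _ (f' := LinearMap.id) (r₁.projF_self j)
        ((T.moved_sup L r₁ j).le ha)).trans (Conj.conj_id _ _ _ a)
    proj_projF := fun j a => Conj.conj_comp _ _ _ (r₁.proj_projF j) a
    Pp_le := fun j => T.deform_Pp_le L r₁ j
    scalars_le := fun j => T.deform_scalars_le L r₁ hdeg j }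

end LaurData

end

end Vale.Agent.P199
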