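import Vale.Agent.P199.Lift.FitRank
import Vale.Agent.P199.Minimise.ArcRows

/-!
P199: rows fitting on an arc: the full differential stays onto, the identities do not grow, and as many only if order
one stays in the range; the rank of the forms transfers.
-/

namespace Vale.Agent.P199

open Module SkewLaurent LaurentAlg Minimise

noncomputable section

namespace Rows.FitOver

variable {L : Listing} {n : ℕ} {P : Pt} {T : LaurData P} {r : Rows L n P} {r' : Rows L n T.pt}
  (hF : Rows.FitOver T r r')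

include hF in
/-- Fitting rows on an arc keep surjectivity. -/
theorem surj_arc (hs : Function.Surjective r.Jf) : Function.Surjective r'.Jf := by
  let _ := T.alg
  have halg : ∀ z, algebraMap (LaurentSeries P.K) (SkewLaurent (1 : RingAut P.D)) z =
      laurentScalarHom z := fun _ => rfl
  have : FiniteDimensional (LaurentSeries P.K) (SkewLaurent (1 : RingAut P.D)) :=
    finiteDimensional_laurent halg
  let f : (Bool → SkewLaurent (1 : RingAut P.D)) × (Fin (L.b n) → LaurentSeries P.K) →ₗ[LaurentSeries P.K]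
      (Fin n → SkewLaurent (1 : RingAut P.D)) := r'.Jfv
  let S : Submodule (LaurentSeries P.K) (Fin n → SkewLaurent (1 : RingAut P.D)) := LinearMap.range f
  have hle : LinearMap.range r.Jfv ≤ LeadE.lead halg S := by
    rintro _ ⟨w, rfl⟩
    have hc := fun j : Fin n => hF.projF_int j (T.pt.dEq L (L.b n) j (T.cd w)) (T.cf_dEq_const w j).1
    exact ⟨fun j => T.toS (r'.Jfv (T.cd w) j), LinearMap.mem_range.2 ⟨T.cd w, rfl⟩,
      fun j m hm => (hc j).1 m hm, funext fun j => (hc j).2.trans
        (congrArg (r.projF j) (T.cf_dEq_const w j).2)⟩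
  have h1 := Submodule.finrank_mono hle
  rw [LeadE.finrank_lead halg S, r.finrank_range_Jfv, LinearMap.range_eq_top.2 hs, finrank_top,
    Module.finrank_pi_fintype] at h1
  have h2 : finrank (LaurentSeries P.K) S = finrank T.pt.K (LinearMap.range r'.Jf) :=
    Eq.trans (by rfl) r'.finrank_range_Jfv
  rw [h2] at h1
  refine LinearMap.range_eq_top.1 (Submodule.eq_top_of_finrank_eq (le_antisymm (Submodule.finrank_le _) ?_))
  rw [Module.finrank_pi_fintype]
  exact le_trans (le_of_eq (Finset.sum_congr rfl fun j _ => hF.finrank_WP j)) h1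

include hF in
/-- **Identities on an arc.** Fitting rows have no more identities, and as many only if order one stays in the range. -/
theorem corank_arc (hfix : ∀ u ∈ r.T, ∀ j : Fin n, P.dEq L (L.b n) j (u, 0) = 0) :
    r'.corank ≤ r.corank ∧ (r'.corank = r.corank → r.OrderOne T.ser) := by
  let _ := T.alg
  have halg : ∀ z, algebraMap (LaurentSeries P.K) (SkewLaurent (1 : RingAut P.D)) z =
      laurentScalarHom z := fun _ => rfl
  have : FiniteDimensional (LaurentSeries P.K) (SkewLaurent (1 : RingAut P.D)) :=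
    finiteDimensional_laurent halg
  let f : (Bool → SkewLaurent (1 : RingAut P.D)) →ₗ[LaurentSeries P.K]
      (Fin n → SkewLaurent (1 : RingAut P.D)) := r'.Jv
  let S : Submodule (LaurentSeries P.K) (Fin n → SkewLaurent (1 : RingAut P.D)) := LinearMap.range f
  have hS : finrank (LaurentSeries P.K) S = finrank T.pt.K (LinearMap.range r'.J) :=
    Eq.trans (by rfl) r'.finrank_range_Jv
  -- constant directions
  let cb : Rows.Amb P → Rows.Amb T.pt := fun b a => T.ofS (C 1 (b a))
  have hdir : ∀ (b : Rows.Amb P) z, T.pt.dirVal (N := L.b n) (cb b, 0) z =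
      T.ofS (psE (PowerSeries.C (P.dirVal (N := L.b n) (b, 0) z))) := by
    intro b z
    cases z with
    | inl a =>
      refine ext_cf (D := P.D) fun m => ?_
      show cf (C 1 (b a)) m = cf (psE (PowerSeries.C (b a))) m
      rcases lt_or_ge m 0 with hm | hm
      · rw [cf_C, if_neg hm.ne, Conj.cf_psE_neg _ hm]
      · obtain ⟨k, rfl⟩ := Int.eq_ofNat_of_zero_le hm
        rw [cf_C, cf_psE, PowerSeries.coeff_C]
        simp
    | inr i =>
      have h1 : T.pt.dirVal (N := L.b n) (cb b, 0) (Sum.inr i) = 0 := by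
        by_cases hi : i < L.b n <;> simp [Pt.dirVal, hi]
      have h2 : P.dirVal (N := L.b n) (b, 0) (Sum.inr i) = 0 := by
        by_cases hi : i < L.b n <;> simp [Pt.dirVal, hi]
      rw [h1, h2, map_zero, map_zero]
      rfl
  have hdEq : ∀ (b : Rows.Amb P) (j : Fin n), T.toS (T.pt.dEq L (L.b n) j (cb b, 0)) =
      psE (Poly.d1 T.ser (fun z => PowerSeries.C (P.dirVal (N := L.b n) (b, 0) z)) (L.eqn j)) := by
    intro b j
    have h := Poly.map_d1 T.ser (fun z => PowerSeries.C (P.dirVal (N := L.b n) (b, 0) z))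
      (psE (D := P.D)) 1 (fun a => by rw [mul_one, one_mul]) (L.eqn j)
    simp only [mul_one] at h
    rw [h]
    show T.toS (Poly.d1 T.pt.val (T.pt.dirVal (cb b, 0)) (L.eqn j)) = _
    rw [funext (hdir b), funext T.psE_ser]
    rfl
  have hint : ∀ b, LeadE.IntV (fun j => T.toS (r'.Jv (cb b) j)) ∧
      LeadE.res 0 (fun j => T.toS (r'.Jv (cb b) j)) = r.Jv b ∧
      (r.Jv b = 0 → (∀ j : Fin n, P.dEq L (L.b n) j (b, 0) = 0) →
        LeadE.res 1 (fun j => T.toS (r'.Jv (cb b) j)) = fun j => (r.Jser T.ser 1 b j : P.D)) := by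
    intro b
    have hc := fun j : Fin n => hF.proj_int j (T.pt.dEq L (L.b n) j (cb b, 0))
      (fun m hm => by rw [hdEq]; exact Conj.cf_psE_neg _ hm)
    have hj : ∀ j, T.toS (r'.Jv (cb b) j) = T.toS (r'.proj j (T.pt.dEq L (L.b n) j (cb b, 0))) :=
      fun j => rfl
    have h0 : ∀ j : Fin n, cf (psE (Poly.d1 T.ser
        (fun z => PowerSeries.C (P.dirVal (N := L.b n) (b, 0) z)) (L.eqn j))) 0 =
        P.dEq L (L.b n) j (b, 0) := fun j => by
      rw [show (0 : ℤ) = ((0 : ℕ) : ℤ) from rfl, cf_psE, (Poly.coeff_d1_ser T.ser _ _).1, T.cf_zero_ser]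
      rfl
    refine ⟨fun j m hm => ?_, funext fun j => ?_, fun _ hz => funext fun j => ?_⟩
    · show cf (T.toS (r'.Jv (cb b) j)) m = 0
      rw [hj]
      exact (hc j).1 m hm
    · show cf (T.toS (r'.Jv (cb b) j)) 0 = _
      rw [hj, (hc j).2, hdEq, h0]
      rfl
    · show cf (T.toS (r'.Jv (cb b) j)) 1 = _
      rw [hj, hF.proj_one j (fun m hm => by rw [hdEq]; exact Conj.cf_psE_neg _ hm)
        (by rw [hdEq, h0, hz]), hdEq, show (1 : ℤ) = ((1 : ℕ) : ℤ) from rfl, cf_psE]
      rfl
  have hmem : ∀ b, (fun j => T.toS (r'.Jv (cb b) j)) ∈ S := fun b => LinearMap.mem_range.2 ⟨cb b, rfl⟩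
  have hle : LinearMap.range r.Jv ≤ LeadE.lead halg S := by
    rintro _ ⟨b, rfl⟩
    exact ⟨_, hmem b, (hint b).1, (hint b).2.1⟩
  have hfin : finrank P.K (LeadE.lead halg S) = finrank T.pt.K (LinearMap.range r'.J) :=
    (LeadE.finrank_lead halg S).trans hS
  have hW : finrank T.pt.K ((j : Fin n) → r'.W j) = finrank P.K ((j : Fin n) → r.W j) := by
    rw [Module.finrank_pi_fintype, Module.finrank_pi_fintype]
    exact Finset.sum_congr rfl fun j _ =>
      hF.finrank_W j
  have h1 := r.corank_add_range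
  have h2 := r'.corank_add_range
  have h3 := Submodule.finrank_mono hle
  rw [hfin, r.finrank_range_Jv] at h3
  refine ⟨by omega, fun heq u hu => ?_⟩
  have hEq : LinearMap.range r.Jv = LeadE.lead halg S :=
    Submodule.eq_of_le_of_finrank_le hle (by rw [hfin, r.finrank_range_Jv]; omega)
  have hu0 : r.Jv u = 0 := funext fun j => congrArg Subtype.val (congrFun hu j)
  obtain ⟨hi, hres0, hres1⟩ := hint u
  have hl := LeadE.res_one_mem_lead halg (hmem u) hi (hres0.trans hu0)
  rw [hres1 hu0 (hfix u hu), ← hEq] at hl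
  obtain ⟨b, hb⟩ := hl
  exact ⟨b, funext fun j => Subtype.ext (congrFun hb j)⟩

include hF in
/-- The rank drops by at most twice the lost identities. -/
theorem rankGE_arc {R : ℕ} (hR : r.RankGE R) {δ : ℕ} (hδ : r.corank = r'.corank + δ) :
    r'.RankGE (R - 2 * δ) := by
  let _ := T.alg
  have halg : ∀ z, algebraMap (LaurentSeries P.K) (SkewLaurent (1 : RingAut P.D)) z =
      laurentScalarHom z := fun _ => rfl
  have : FiniteDimensional (LaurentSeries P.K) (SkewLaurent (1 : RingAut P.D)) :=
    finiteDimensional_laurent halg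
  intro y hy hy0 S hS hform
  obtain ⟨y₀, hy₀, hlead⟩ := hF.exists_lead_covector hy0
  let S' : Submodule (LaurentSeries P.K) (Bool → SkewLaurent (1 : RingAut P.D)) := S
  let T' : Submodule (LaurentSeries P.K) (Bool → SkewLaurent (1 : RingAut P.D)) := r'.T
  let S₀ : Submodule P.K (Rows.Amb P) := LeadE.lead halg S'
  let T₀ : Submodule P.K (Rows.Amb P) := LeadE.lead halg T'
  have hS₀ : finrank P.K S₀ = finrank T.pt.K S := LeadE.finrank_lead halg S'
  have hT₀ : finrank P.K T₀ = finrank T.pt.K r'.T := LeadE.finrank_lead halg T'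
  have hyY : y₀ ∈ r.Y := by
    refine (Submodule.mem_dualAnnihilator _).2 ?_
    rintro _ ⟨b, rfl⟩
    have hb : LeadE.IntV fun a => T.toS (T.ofS (C 1 (b a))) := fun a m hm => by
      show cf (C 1 (b a)) m = 0
      rw [cf_C, if_neg hm.ne]
    have h := hlead (fun j => T.pt.dEq L (L.b n) j (fun a => T.ofS (C 1 (b a)), 0))
      (fun j => (T.cf_dEq_int hb j).1) ((Submodule.mem_dualAnnihilator _).1 hy _ ⟨_, rfl⟩)
    refine Eq.trans (congrArg y₀ (funext fun j => Subtype.ext ?_)) h
    show r.proj j _ = r.proj j _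
    rw [(T.cf_dEq_int hb j).2, show LeadE.res 0 (fun a => T.toS (T.ofS (C 1 (b a)))) = b from
      funext fun a => (cf_C _ _ _).trans (if_pos rfl)]
    rfl
  have hTT : T₀ ≤ r.T := by
    rintro x ⟨u, hu, hint, rfl⟩
    let w : Rows.Amb T.pt := u
    refine LinearMap.mem_ker.2 (funext fun j => Subtype.ext ?_)
    have hc := hF.proj_int j (T.pt.dEq L (L.b n) j (w, 0)) (T.cf_dEq_int (u := w) hint j).1
    have h0 : r'.proj j (T.pt.dEq L (L.b n) j (w, 0)) = 0 :=
      congrArg Subtype.val (congrFun (LinearMap.mem_ker.1 (show w ∈ r'.T from hu)) j)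
    show r.proj j (P.dEq L (L.b n) j (LeadE.res 0 (fun a => T.toS (w a)), 0)) = 0
    rw [← (T.cf_dEq_int (u := w) hint j).2, ← hc.2]
    show cf (T.toS (r'.proj j (T.pt.dEq L (L.b n) j (w, 0)))) 0 = 0
    rw [h0]
    exact map_zero evalOne
  let B : Rows.Amb P →ₗ[P.K] Rows.Amb P →ₗ[P.K] P.K :=
    LinearMap.mk₂ P.K (fun u v => r.form y₀ u v)
      (fun u u' v => by
        show y₀ (r.quad (u + u') v) = y₀ (r.quad u v) + y₀ (r.quad u' v)
        rw [← map_add]
        exact congrArg y₀ (funext fun j => Subtype.ext (by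
          simp only [Rows.quad, Pi.add_apply, Submodule.coe_add, Rows.dirVal_amb_add,
            (P.d2_bilin _ _ _ _ 1 _).1, map_add])))
      (fun c u v => by
        show y₀ (r.quad (c • u) v) = c • y₀ (r.quad u v)
        rw [← map_smul]
        exact congrArg y₀ (funext fun j => Subtype.ext (by
          simp only [Rows.quad, Pi.smul_apply, SetLike.val_smul, Rows.dirVal_amb_smul,
            (P.d2_bilin _ _ 0 _ c _).2.2.1, map_smul])))
      (fun u v v' => by
        show y₀ (r.quad u (v + v')) = y₀ (r.quad u v) + y₀ (r.quad u v')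
        rw [← map_add]
        exact congrArg y₀ (funext fun j => Subtype.ext (by
          simp only [Rows.quad, Pi.add_apply, Submodule.coe_add, Rows.dirVal_amb_add,
            (P.d2_bilin _ _ _ _ 1 _).2.1, map_add])))
      (fun c u v => by
        show y₀ (r.quad u (c • v)) = c • y₀ (r.quad u v)
        rw [← map_smul]
        exact congrArg y₀ (funext fun j => Subtype.ext (by
          simp only [Rows.quad, Pi.smul_apply, SetLike.val_smul, Rows.dirVal_amb_smul,
            (P.d2_bilin _ _ 0 _ c _).2.2.2, map_smul])))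
  have hBV : ∀ x ∈ S₀, ∀ x' ∈ T₀, B x x' = 0 := by
    rintro _ ⟨u, hu, hui, rfl⟩ _ ⟨v, hv, hvi, rfl⟩
    let p : Rows.Amb T.pt := u
    let p' : Rows.Amb T.pt := v
    have h := hlead (fun j => Poly.d2 T.pt.val (T.pt.dirVal (N := L.b n) (p, 0))
      (T.pt.dirVal (N := L.b n) (p', 0)) (L.eqn j)) (fun j => (T.cf_d2_int (u := p) (u' := p') hui hvi j).1)
      (hform p hu p' hv)
    refine Eq.trans ?_ h
    refine congrArg y₀ (funext fun j => Subtype.ext ?_)
    exact congrArg (r.proj j) (T.cf_d2_int (u := p) (u' := p') hui hvi j).2.symm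
  obtain ⟨S₁, hle, hrad, hdim⟩ := Rows.finrank_radical B hTT hBV
  have hS₀T : S₀ ≤ r.T := fun x hx => by
    obtain ⟨u, hu, hi, rfl⟩ := hx
    exact hTT ⟨u, hS hu, hi, rfl⟩
  have h1 := hR y₀ hyY hy₀ S₁ (hle.trans hS₀T) hrad
  have h2 := r.finrank_T_add
  have h3 := r'.finrank_T_add
  have h4 := r.corank_add_range
  have h5 := r'.corank_add_range
  have h6 : finrank T.pt.K (Rows.Amb T.pt) = finrank P.K (Rows.Amb P) := by
    rw [Module.finrank_pi_fintype, Module.finrank_pi_fintype, T.finrank_pt]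
  have h7 : finrank T.pt.K ((j : Fin n) → r'.W j) = finrank P.K ((j : Fin n) → r.W j) := by
    rw [Module.finrank_pi_fintype, Module.finrank_pi_fintype]
    exact Finset.sum_congr rfl fun j _ => hF.finrank_W j
  have h8 : finrank P.K T₀ ≤ finrank P.K r.T := Submodule.finrank_mono hTT
  have h9 : finrank T.pt.K S ≤ finrank T.pt.K r'.T := Submodule.finrank_mono hS
  omega

include hF in
/-- The rank transfers along an arc. -/
theorem rankTransfer_arc (hc : r'.corank ≤ r.corank) :
    Inv.RankTransfer L ⟨P, r⟩ (⟨T.pt, r'⟩ : Stg L n) := by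
  intro R hR hrank
  refine ⟨R - 2 * (r.corank - r'.corank), ?_,
    hF.rankGE_arc hrank (δ := r.corank - r'.corank) (by omega), ?_⟩
  · show 12 * r'.corank ≤ _
    have h : 12 * r.corank ≤ R := hR
    omega
  · show (R - 12 * r.corank) * finrank T.pt.K T.pt.D ≤ _ * finrank P.K P.D
    rw [T.finrank_pt]
    refine Nat.mul_le_mul_right _ ?_
    have h : 12 * r.corank ≤ R := hR
    show R - 12 * r.corank ≤ _ - 12 * r'.corank
    omega

end Rows.FitOver

end

end Vale.Agent.P199
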