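import Vale.Agent.P199.Lift.Lead

/-!
P199: a pencil of matrices whose nonzero members have rank at least `R` keeps this property over Laurent series.
-/

namespace Vale.Agent.P199

open Matrix

/-- A field map along which lower rank bounds of pencils survive. -/
def RankSpec {K K₁ : Type} [Field K] [Field K₁] (φ : K →+* K₁) : Prop :=
  ∀ (c p q R : ℕ) (M : Fin c → Matrix (Fin p) (Fin q) K),
    (∀ t : Fin c → K, t ≠ 0 → R ≤ (∑ i, t i • M i).rank) →
      ∀ t : Fin c → K₁, t ≠ 0 → R ≤ (∑ i, t i • (M i).map φ).rank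

theorem RankSpec.comp {K K₁ K₂ : Type} [Field K] [Field K₁] [Field K₂] {φ : K →+* K₁}
    {ψ : K₁ →+* K₂} (h : RankSpec φ) (h' : RankSpec ψ) : RankSpec (ψ.comp φ) :=
  fun c p q R M hM t ht => by
    have h2 := h' c p q R (fun i => (M i).map φ) (h c p q R M hM) t ht
    simpa [Matrix.map_map, Function.comp_def] using h2

/-- Laurent series specialise. -/
theorem rankSpec_C (K : Type) [Field K] :
    RankSpec (HahnSeries.C : K →+* LaurentSeries K) := by
  intro c p q R M hM t ht
  obtain ⟨s, hs, hint, hne⟩ := LeadE.exists_normalise t ht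
  let P : Matrix (Fin p) (Fin q) (PowerSeries K) := Matrix.of fun a b =>
    ∑ i, PowerSeries.mk (fun m : ℕ => (s * t i).coeff m) * PowerSeries.C (M i a b)
  have hps : ∀ i, HahnSeries.ofPowerSeries ℤ K (PowerSeries.mk fun m : ℕ => (s * t i).coeff m) =
      s * t i := fun i => HahnSeries.ext (funext fun n => by
    by_cases hn : 0 ≤ n
    · obtain ⟨m, rfl⟩ := Int.eq_ofNat_of_zero_le hn
      rw [HahnSeries.ofPowerSeries_apply_coeff, PowerSeries.coeff_mk]
    · rw [hint i n (by omega), HahnSeries.ofPowerSeries_apply, HahnSeries.embDomain_of_notMem_range]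
      rintro ⟨m, hm⟩
      exact hn (hm ▸ Int.natCast_nonneg m))
  have h0 : Vale.P199.Valued.coeffMap P 0 = (∑ i, (s * t i).coeff 0 • M i).mulVecLin := by
    refine congrArg Matrix.mulVecLin (Matrix.ext fun a b => ?_)
    simp [P, Matrix.sum_apply]
  have h1 : Vale.P199.Valued.bigMap P = (s • ∑ i, t i • (M i).map HahnSeries.C).mulVecLin := by
    refine congrArg Matrix.mulVecLin (Matrix.ext fun a b => ?_)
    simp only [P, Matrix.map_apply, Matrix.of_apply, map_sum, map_mul, hps,
      HahnSeries.ofPowerSeries_C, Matrix.smul_apply, Matrix.sum_apply, smul_eq_mul, Finset.mul_sum,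
      mul_assoc]
  have h2 := Vale.P199.Valued.finrank_range_le P
  rw [h0, h1] at h2
  refine (hM _ hne).trans (le_trans h2 (le_of_eq ?_))
  rw [show (s • ∑ i, t i • (M i).map HahnSeries.C).mulVecLin =
      s • (∑ i, t i • (M i).map HahnSeries.C).mulVecLin from
    LinearMap.ext fun v => by simp [Matrix.smul_mulVec], LinearMap.range_smul _ _ hs]
  rfl

end Vale.Agent.P199
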