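import Vale.Agent.P199.Lift.BaseChange
import Vale.Agent.P199.Lift.RankPencil
import Vale.Agent.P199.Stage.PencilPair

/-!
P199: the second order form of an identity of the base change which survives order one. It is supported at the monomial
`1`, a combination of the old identities there, and has large rank on the monomial multiples of the tangents orthogonal
to the pair of a lift.
-/

namespace Vale.Agent.P199.LiftSeries

open Module Matrix

noncomputable section

variable {P P₁ : Pt} (E : Ext P P₁)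

/-- The monomials are independent. -/
theorem indep_mon : LinearIndependent P₁.K E.mon := by
  have h := (E.indep (fun _ : Unit => (1 : P.D))
    (Fintype.linearIndependent_iff.2 fun g hg _ => by simpa using hg)).comp
    (fun k : Fin E.m => ((), k)) (fun a b e => (Prod.ext_iff.1 e).2)
  simpa [Function.comp_def] using h

theorem exists_tau : ∃ τ : P₁.D →ₗ[P₁.K] P₁.K, ∀ k, τ (E.mon k) = if k = one E then 1 else 0 := by
  obtain ⟨τ, hτ⟩ := LinearMap.exists_extend ((Basis.span (indep_mon E)).coord (one E))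
  refine ⟨τ, fun k => ?_⟩
  have h := LinearMap.congr_fun hτ (Basis.span (indep_mon E) k)
  rw [LinearMap.comp_apply, Submodule.subtype_apply, Basis.coord_apply, Basis.repr_self,
    Finsupp.single_apply, Basis.span_apply] at h
  exact h

/-- The coefficient of the monomial `1`. -/
def tau : P₁.D →ₗ[P₁.K] P₁.K := (exists_tau E).choose

theorem tau_mon (k : Fin E.m) : tau E (E.mon k) = if k = one E then 1 else 0 :=
  (exists_tau E).choose_spec k

/-- The coefficient of `1` of a product pairs the monomials without kernel. -/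
def NonDeg : Prop := ∀ x ∈ monSpan E, (∀ k, tau E (x * E.mon k) = 0) → x = 0

/-- A pencil on the monomial multiples of a family has the rank of the pencil times their number. -/
theorem finrank_ker_le (hnd : NonDeg E) {q : ℕ} (A : Matrix (Fin q) (Fin q) P₁.K)
    (C : (Fin q → monSpan E) →ₗ[P₁.K] Dual P₁.K (Fin q → monSpan E))
    (hC : ∀ x i' k, C x (Pi.single i' ⟨E.mon k, mon_mem E k⟩) =
      ∑ i, A i i' * tau E ((x i : P₁.D) * E.mon k)) :
    finrank P₁.K (LinearMap.ker C) + E.m * A.rank ≤ E.m * q := by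
  let mb : Basis (Fin E.m) P₁.K (monSpan E) := Basis.span (indep_mon E)
  let K₀ := LinearMap.ker Aᵀ.mulVecLin
  have hker : ∀ x : LinearMap.ker C, ∀ k, (fun i => mb.repr (x.1 i) k) ∈ K₀ := by
    intro x k
    refine LinearMap.mem_ker.2 (funext fun i' => ?_)
    have h0 : ∑ i, A i i' • x.1 i = 0 := Subtype.ext (hnd _ (Subtype.prop _) fun k' => by
      rw [Submodule.coe_sum, Finset.sum_mul, map_sum]
      simp only [Submodule.coe_smul, smul_mul_assoc, map_smul, smul_eq_mul]
      rw [← hC, LinearMap.mem_ker.1 x.2]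
      rfl)
    have h1 := congrArg (fun z => mb.repr z k) h0
    simp only [map_sum, map_smul, map_zero, Finsupp.coe_finsetSum, Finset.sum_apply,
      Finsupp.coe_smul, Pi.smul_apply, smul_eq_mul, Finsupp.coe_zero, Pi.zero_apply] at h1
    rw [Matrix.mulVecLin_apply, Matrix.mulVec, dotProduct]
    exact h1
  let Φ : LinearMap.ker C →ₗ[P₁.K] (Fin E.m → K₀) :=
    { toFun := fun x k => ⟨_, hker x k⟩
      map_add' := fun x y => funext fun k => Subtype.ext (funext fun i => by simp)
      map_smul' := fun s x => funext fun k => Subtype.ext (funext fun i => by simp) }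
  have hΦ : Function.Injective Φ := fun x y e => Subtype.ext (funext fun i => mb.ext_elem fun k =>
    congrFun (congrArg Subtype.val (congrFun e k)) i)
  have h2 := LinearMap.finrank_le_finrank_of_injective hΦ
  rw [Module.finrank_pi_fintype, Finset.sum_const, Finset.card_univ, Fintype.card_fin,
    smul_eq_mul] at h2
  have h3 := Aᵀ.mulVecLin.finrank_range_add_finrank_ker
  rw [Module.finrank_pi, Fintype.card_fin] at h3
  have h4 : A.rank + finrank P₁.K K₀ = q := by
    rw [← Matrix.rank_transpose]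
    exact h3
  calc finrank P₁.K (LinearMap.ker C) + E.m * A.rank
      ≤ E.m * finrank P₁.K K₀ + E.m * A.rank := Nat.add_le_add_right h2 _
    _ = E.m * q := by rw [← Nat.mul_add, add_comm _ A.rank, h4]

variable {L : Listing} {n : ℕ} (r : Rows L n P)

/-- The linked part of a new tuple, linearly. -/
def G₁ : (Fin n → P₁.D) →ₗ[P₁.K] ((j : Fin n) → (baseRows E r).W j) :=
  LinearMap.pi fun j => ((PJ E r j).codRestrict (LinearMap.range (PJ E r j)) fun x => ⟨x, rfl⟩) ∘ₗ
    LinearMap.proj j

theorem GW₁_eq (Z : Fin n → P₁.D) : GW₁ E r Z = G₁ E r Z := rfl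

variable {a b : Rows.Amb P} {U V : P₁.D}

/-- A covector killing order zero and every linked value off the monomial `1` is a combination of the old identities
at the monomial `1`. -/
theorem exists_lam (e : Basis (Fin r.corank) P.K r.Y)
    (y₁ : Dual P₁.K ((j : Fin n) → (baseRows E r).W j))
    (hJ : ∀ z ∈ LinearMap.range (baseRows E r).J, y₁ z = 0)
    (hmon : ∀ (d : Fin n → P.D) (k : Fin E.m), k ≠ one E →
      y₁ (GW₁ E r fun j => E.iD (d j) * E.mon k) = 0)
    (hy₁ : y₁ ≠ 0) :
    ∃ lam : Fin r.corank → P₁.K, lam ≠ 0 ∧ ∀ (d : Fin n → P.D), ∀ x ∈ monSpan E,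
      y₁ (GW₁ E r fun j => E.iD (d j) * x) =
        tau E x * ∑ t, lam t * E.iK (yv r (e t : Dual P.K ((j : Fin n) → r.W j)) d) := by
  classical
  let evY : ((j : Fin n) → r.W j) →ₗ[P.K] Dual P.K r.Y :=
    r.Y.subtype.dualMap ∘ₗ Dual.eval P.K _
  have hsurj : Function.Surjective evY := fun f => by
    obtain ⟨g, hg⟩ := LinearMap.exists_extend f
    obtain ⟨v, rfl⟩ := (Module.evalEquiv P.K ((j : Fin n) → r.W j)).surjective g
    exact ⟨v, hg⟩
  choose w hw using fun t => hsurj (e.dualBasis t)
  have hyw : ∀ s t, yv r (e s : Dual P.K ((j : Fin n) → r.W j)) (fun j => (w t j : P.D)) =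
      if s = t then 1 else 0 := fun s t => by
    have hG' : GW r (fun j => (w t j : P.D)) = w t :=
      funext fun j => Subtype.ext (r.proj_self j _ (w t j).2)
    show (e s : Dual P.K ((j : Fin n) → r.W j)) (GW r fun j => (w t j : P.D)) = _
    rw [hG']
    exact (LinearMap.congr_fun (hw t) (e s)).trans (e.dualBasis_apply_self t s)
  let lam : Fin r.corank → P₁.K := fun t => y₁ (GW₁ E r fun j => E.iD (w t j : P.D) * E.mon (one E))
  have key : ∀ (d : Fin n → P.D) (k : Fin E.m), y₁ (GW₁ E r fun j => E.iD (d j) * E.mon k) =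
      tau E (E.mon k) * ∑ t, lam t * E.iK (yv r (e t : Dual P.K ((j : Fin n) → r.W j)) d) := by
    intro d k
    rw [tau_mon]
    by_cases hk : k = one E
    · rw [if_pos hk, one_mul, hk]
      let d' : Fin n → P.D := d - ∑ t, yv r (e t : Dual P.K ((j : Fin n) → r.W j)) d • fun j => (w t j : P.D)
      have hd' : ∀ y ∈ r.Y, yv r y d' = 0 := by
        have hb : ∀ s, yv r (e s : Dual P.K ((j : Fin n) → r.W j)) d' = 0 := fun s => by
          simp only [d', map_sub, map_sum, map_smul, hyw, smul_eq_mul, mul_ite, mul_one, mul_zero,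
            Finset.sum_ite_eq, Finset.mem_univ, if_true, sub_self]
        let ev : r.Y →ₗ[P.K] P.K := (Dual.eval P.K _ (GW r d')).comp r.Y.subtype
        have hev : ev = 0 := e.ext fun s => hb s
        exact fun y hy => LinearMap.congr_fun hev ⟨y, hy⟩
      have hsplit : (fun j => E.iD (d j) * E.mon (one E)) =
          (fun j => E.iD (d' j) * E.mon (one E)) + ∑ t,
            E.iK (yv r (e t : Dual P.K ((j : Fin n) → r.W j)) d) •
              fun j => E.iD (w t j : P.D) * E.mon (one E) := funext fun j => by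
        simp only [d', Pi.sub_apply, Pi.add_apply, Finset.sum_apply, Pi.smul_apply, map_sub,
          map_sum, iD_smul, sub_mul, Finset.sum_mul, smul_mul_assoc, sub_add_cancel]
      have h0 : y₁ (GW₁ E r fun j => E.iD (d' j) * E.mon (one E)) = 0 :=
        hJ _ (GW₁_mem_range E r hd' (mon_mem E _))
      rw [GW₁_eq] at h0
      rw [GW₁_eq, hsplit, map_add, map_sum, map_add, map_sum, h0, zero_add]
      refine Finset.sum_congr rfl fun t _ => ?_
      rw [map_smul, map_smul, smul_eq_mul, mul_comm]
      rfl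
    · rw [if_neg hk, zero_mul]
      exact hmon d k hk
  have hall : ∀ (d : Fin n → P.D), ∀ x ∈ monSpan E, y₁ (GW₁ E r fun j => E.iD (d j) * x) =
      tau E x * ∑ t, lam t * E.iK (yv r (e t : Dual P.K ((j : Fin n) → r.W j)) d) := by
    intro d x hx
    simp only [GW₁_eq]
    induction hx using Submodule.span_induction with
    | mem x hx => obtain ⟨k, rfl⟩ := hx; exact key d k
    | zero =>
      rw [show (fun j => E.iD (d j) * (0 : P₁.D)) = 0 from funext fun j => mul_zero _,
        map_zero (G₁ E r), map_zero y₁, map_zero (tau E), zero_mul]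
    | add x z _ _ hx hz =>
      rw [show (fun j => E.iD (d j) * (x + z)) = (fun j => E.iD (d j) * x) + fun j => E.iD (d j) * z
        from funext fun j => mul_add _ _ _, map_add, map_add, hx, hz, map_add, add_mul]
    | smul c x _ hx =>
      rw [show (fun j => E.iD (d j) * (c • x)) = c • fun j => E.iD (d j) * x
        from funext fun j => mul_smul_comm _ _ _, map_smul, map_smul, hx, map_smul, smul_eq_mul,
        smul_eq_mul, mul_assoc]
  refine ⟨lam, fun hlam => hy₁ ?_, hall⟩
  have hzero : y₁.comp (G₁ E r) = 0 := LinearMap.pi_ext' fun i => (basis E).ext fun z => by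
    have hz : (Pi.single i (basis E z) : Fin n → P₁.D) =
        fun j => E.iD ((Pi.single i (oldBasis P z.1) : Fin n → P.D) j) * E.mon z.2 := by
      funext j
      rcases eq_or_ne j i with rfl | hj
      · simp [basis_apply]
      · simp [Pi.single_eq_of_ne hj]
    simp only [LinearMap.comp_apply, LinearMap.single_apply, LinearMap.zero_apply]
    rw [hz, ← GW₁_eq, hall _ _ (mon_mem E _), hlam]
    simp
  refine LinearMap.ext fun u => ?_
  have hu : G₁ E r (fun j => (u j : P₁.D)) = u :=
    funext fun j => Subtype.ext ((baseRows E r).proj_self j _ (u j).2)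
  rw [← hu]
  exact LinearMap.congr_fun hzero _

/-- The tangents of order zero whose first order stays in the range. -/
def Tp (a b : Rows.Amb P) (U V : P₁.D) : Submodule P₁.K (Rows.Amb P₁) :=
  (baseRows E r).T ⊓ (LinearMap.range (baseRows E r).J).comap (LinA E r a b U V)

theorem finrank_Tp_add (a b : Rows.Amb P) (U V : P₁.D) :
    finrank P₁.K (Tp E r a b U V) +
      finrank P₁.K ↥(LinearMap.range (baseRows E r).J ⊔ (baseRows E r).T.map (LinA E r a b U V)) ≤
        finrank P₁.K (Rows.Amb P₁) := by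
  let L₁ := (LinA E r a b U V) ∘ₗ (baseRows E r).T.subtype
  let L₂ := (LinA E r a b U V) ∘ₗ (Tp E r a b U V).subtype
  have h1 := Submodule.finrank_sup_add_finrank_inf_eq (LinearMap.range (baseRows E r).J)
    ((baseRows E r).T.map (LinA E r a b U V))
  have h2 := L₁.finrank_range_add_finrank_ker
  have h3 := L₂.finrank_range_add_finrank_ker
  have h4 := (baseRows E r).J.finrank_range_add_finrank_ker
  have h5 : finrank P₁.K (LinearMap.range L₁) = finrank P₁.K ↥((baseRows E r).T.map (LinA E r a b U V)) := by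
    rw [LinearMap.range_comp, Submodule.range_subtype]
  have h6 : finrank P₁.K (LinearMap.range L₂) ≤
      finrank P₁.K ↥(LinearMap.range (baseRows E r).J ⊓ (baseRows E r).T.map (LinA E r a b U V)) := by
    refine Submodule.finrank_mono ?_
    rintro _ ⟨⟨v, hv, hv'⟩, rfl⟩
    exact ⟨hv', v, hv, rfl⟩
  have h7 : finrank P₁.K (LinearMap.ker L₂) ≤ finrank P₁.K (LinearMap.ker L₁) := by
    rw [← Submodule.finrank_map_subtype_eq (Tp E r a b U V) (LinearMap.ker L₂),
      ← Submodule.finrank_map_subtype_eq (baseRows E r).T (LinearMap.ker L₁)]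
    refine Submodule.finrank_mono ?_
    rintro _ ⟨⟨v, hv⟩, hvk, rfl⟩
    exact ⟨⟨v, hv.1⟩, hvk, rfl⟩
  have h8 : finrank P₁.K (LinearMap.ker (baseRows E r).J) = finrank P₁.K (baseRows E r).T := rfl
  omega

/-- The matrices of a pencil of forms combine. -/
theorem sum_gram {K Y V ι : Type*} [Field K] [AddCommGroup Y] [Module K Y] [AddCommGroup V]
    [Module K V] {c : ℕ} (B : Y →ₗ[K] V →ₗ[K] Dual K V) (y : Fin c → Y) (μ : Fin c → K) (v : ι → V) :
    ∑ t, μ t • (Matrix.of fun i i' => B (y t) (v i) (v i')) =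
      Matrix.of fun i i' => B (∑ t, μ t • y t) (v i) (v i') :=
  Matrix.ext fun i i' => by simp [Matrix.sum_apply]

/-- The matrix of a form has its rank. -/
theorem rank_gram {K V : Type*} [Field K] [AddCommGroup V] [Module K V] [FiniteDimensional K V]
    {q : ℕ} (bs : Basis (Fin q) K V) (B : V →ₗ[K] Dual K V) :
    (Matrix.of fun i i' => B (bs i) (bs i')).rank = finrank K (LinearMap.range B) := by
  have h : (Matrix.of fun i i' => B (bs i) (bs i'))ᵀ.mulVecLin =
      (bs.dualBasis.equivFun.toLinearMap ∘ₗ B) ∘ₗ bs.equivFun.symm.toLinearMap := by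
    refine LinearMap.ext fun c => funext fun i' => ?_
    simp [Matrix.vecMul, dotProduct, Basis.equivFun_symm_apply, map_sum, mul_comm]
  rw [← Matrix.rank_transpose, Matrix.rank, h,
    LinearMap.range_comp_of_range_eq_top _ (LinearEquiv.range _), LinearMap.range_comp,
    LinearEquiv.finrank_map_eq]

/-- A pencil of forms keeps its rank over a field to which it specialises. -/
theorem rank_pencil {K K₁ : Type} {Y V : Type*} [Field K] [Field K₁] [AddCommGroup Y] [Module K Y]
    [AddCommGroup V] [Module K V] [FiniteDimensional K V] {φ : K →+* K₁} (hspec : RankSpec φ)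
    {c q R : ℕ} (B : Y →ₗ[K] V →ₗ[K] Dual K V) (e : Basis (Fin c) K Y)
    (hR : ∀ y, y ≠ 0 → R ≤ finrank K (LinearMap.range (B y))) (bs : Basis (Fin q) K V)
    {lam : Fin c → K₁} (hlam : lam ≠ 0) :
    R ≤ (Matrix.of fun i i' => ∑ t, lam t * φ (B (e t) (bs i) (bs i'))).rank := by
  let M : Fin c → Matrix (Fin q) (Fin q) K := fun t => Matrix.of fun i i' => B (e t) (bs i) (bs i')
  refine (hspec c q q R M (fun μ hμ => ?_) lam hlam).trans (le_of_eq (congrArg Matrix.rank ?_))
  · rw [show ∑ t, μ t • M t = _ from sum_gram B (fun t => e t) μ fun i => bs i, rank_gram bs]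
    exact hR _ fun h =>
      hμ (funext fun t => Fintype.linearIndependent_iff.1 e.linearIndependent μ h t)
  · exact Matrix.ext fun i i' => by simp [M, Matrix.sum_apply]

/-- The same on a subspace, losing twice the codimension. -/
theorem rank_pencil_restrict {K K₁ : Type} {Y V : Type} [Field K] [Field K₁] [AddCommGroup Y]
    [Module K Y] [AddCommGroup V] [Module K V] [FiniteDimensional K V] [FiniteDimensional K Y]
    {φ : K →+* K₁} (hspec : RankSpec φ)
    {c R k : ℕ} (B : Y →ₗ[K] V →ₗ[K] Dual K V) (e : Basis (Fin c) K Y)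
    (hR : ∀ y, y ≠ 0 → R ≤ finrank K (LinearMap.range (B y))) (S : Submodule K V)
    (hS : finrank K V ≤ finrank K S + k) {lam : Fin c → K₁} (hlam : lam ≠ 0) :
    ∃ (q : ℕ) (s : Fin q → V), (∀ i, s i ∈ S) ∧
      R - 2 * k ≤ (Matrix.of fun i i' => ∑ t, lam t * φ (B (e t) (s i) (s i'))).rank := by
  have : Module.Free K S := Module.Free.of_divisionRing K S
  let bs : Basis (Fin (finrank K S)) K S := Module.finBasis K S
  let B' : Y →ₗ[K] S →ₗ[K] Dual K S :=
    { toFun := fun y => S.subtype.dualMap ∘ₗ B y ∘ₗ S.subtype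
      map_add' := fun y z => by ext; simp
      map_smul' := fun t y => by ext; simp }
  refine ⟨_, fun i => (bs i : V), fun i => (bs i).2,
    rank_pencil hspec B' e (fun y hy => ?_) bs hlam⟩
  have h1 := Vale.P199.Pencil.finrank_range_restrict (B y) S
  have h2 := hR y hy
  show R - 2 * k ≤ finrank K (LinearMap.range (S.subtype.dualMap ∘ₗ B y ∘ₗ S.subtype))
  omega

/-- The same on subspaces. -/
theorem rank_pencil_sub {K K₁ Z W : Type} [Field K] [Field K₁] [AddCommGroup Z] [Module K Z]
    [FiniteDimensional K Z] [AddCommGroup W] [Module K W] [FiniteDimensional K W] {φ : K →+* K₁}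
    (hspec : RankSpec φ) {Y : Submodule K Z} {T : Submodule K W} {c R : ℕ}
    (B : Y →ₗ[K] T →ₗ[K] Dual K T) (e : Basis (Fin c) K Y)
    (hR : ∀ y, y ≠ 0 → R ≤ finrank K (LinearMap.range (B y))) {lam : Fin c → K₁} (hlam : lam ≠ 0) :
    (∀ (S : Submodule K T) (k : ℕ), finrank K T ≤ finrank K S + k →
      ∃ (q : ℕ) (s : Fin q → T), (∀ i, s i ∈ S) ∧
        R - 2 * k ≤ (Matrix.of fun i i' => ∑ t, lam t * φ (B (e t) (s i) (s i'))).rank) ∧
      ∃ (q : ℕ) (s : Fin q → T),
        R ≤ (Matrix.of fun i i' => ∑ t, lam t * φ (B (e t) (s i) (s i'))).rank := by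
  refine ⟨fun S k hS => rank_pencil_restrict hspec B e hR S hS hlam, ?_⟩
  have : Module.Free K T := Module.Free.of_divisionRing K T
  exact ⟨_, fun i => Module.finBasis K T i, rank_pencil hspec B e hR _ hlam⟩

/-- The radical against a subspace. -/
theorem finrank_radical {K V : Type*} [Field K] [AddCommGroup V] [Module K V] [FiniteDimensional K V]
    (B : V →ₗ[K] Dual K V) (S T' : Submodule K V) (h0 : ∀ u ∈ S, ∀ v ∈ T', B u v = 0) :
    finrank K S + finrank K (LinearMap.range B) + finrank K T' ≤ 2 * finrank K V := by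
  have h2 : finrank K (S.map B) ≤ finrank K T'.dualAnnihilator := by
    refine Submodule.finrank_mono ?_
    rintro _ ⟨u, hu, rfl⟩
    exact (Submodule.mem_dualAnnihilator _).2 fun v hv => h0 _ hu _ hv
  have h3 := Subspace.finrank_add_finrank_dualAnnihilator_eq T'
  have h := (B.domRestrict S).finrank_range_add_finrank_ker
  rw [LinearMap.range_domRestrict] at h
  have h' : finrank K (LinearMap.ker (B.domRestrict S)) ≤ finrank K (LinearMap.ker B) := by
    rw [← Submodule.finrank_map_subtype_eq S (LinearMap.ker (B.domRestrict S))]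
    refine Submodule.finrank_mono ?_
    rintro _ ⟨u, hu, rfl⟩
    exact hu
  have h7 := B.finrank_range_add_finrank_ker
  omega

/-- The same on a subspace. -/
theorem finrank_radical_sub {K W : Type*} [Field K] [AddCommGroup W] [Module K W]
    [FiniteDimensional K W] {T : Submodule K W} (B : T →ₗ[K] Dual K T) (S T' : Submodule K W)
    (hS : S ≤ T) (hT' : T' ≤ T) (h0 : ∀ (u v : T), (u : W) ∈ S → (v : W) ∈ T' → B u v = 0) :
    finrank K S + finrank K (LinearMap.range B) + finrank K T' ≤ 2 * finrank K T := by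
  have h := finrank_radical B (S.comap T.subtype) (T'.comap T.subtype)
    fun u hu v hv => h0 u v hu hv
  rwa [(Submodule.comapSubtypeEquivOfLe hS).finrank_eq,
    (Submodule.comapSubtypeEquivOfLe hT').finrank_eq] at h

/-- Monomial multiples of tangents orthogonal to the pair stay in the range at order one. -/
theorem multiples_mem (h : LiftData E r a b U V) {s : Rows.Amb P} (hs : s ∈ r.T)
    (hab : ∀ y ∈ r.Y, r.form y a s = 0 ∧ r.form y b s = 0) {ν : P₁.D} (hν : ν ∈ monSpan E) :
    (fun c => E.iD (s c) * ν) ∈ Tp E r a b U V := by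
  refine ⟨tangent_mul_mem E r h hs hν, ?_⟩
  have h1 := LinA_mul E r h hs hν
  have h2 : GW₁ E r (fun j => E.iD (D2 r a s j) * (U * ν - ν * U)) ∈
      LinearMap.range (baseRows E r).J :=
    GW₁_mem_range E r (fun y hy => (hab y hy).1) (sub_mem (mul_mem_monSpan E h.mul h.memU hν)
      (mul_mem_monSpan E h.mul hν h.memU))
  have h3 : GW₁ E r (fun j => E.iD (D2 r b s j) * (V * ν - ν * V)) ∈
      LinearMap.range (baseRows E r).J :=
    GW₁_mem_range E r (fun y hy => (hab y hy).2) (sub_mem (mul_mem_monSpan E h.mul h.memV hν)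
      (mul_mem_monSpan E h.mul hν h.memV))
  have h4 := add_mem h1 (add_mem h2 h3)
  rw [sub_add_cancel] at h4
  exact h4

/-- A pencil of forms keeps its rank on the tangents orthogonal to the pair, over the new centre. -/
theorem exists_orth {R : ℕ} (h : LiftData E r a b U V) (hR : r.RankGE R) (hspec : RankSpec E.iK)
    (e : Basis (Fin r.corank) P.K r.Y) {lam : Fin r.corank → P₁.K} (hlam : lam ≠ 0) :
    ∃ (q : ℕ) (s : Fin q → Rows.Amb P), (∀ i, s i ∈ r.T) ∧
      (∀ i, ∀ y ∈ r.Y, r.form y a (s i) = 0 ∧ r.form y b (s i) = 0) ∧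
      R - 4 * r.corank ≤ (Matrix.of fun i i' =>
        ∑ t, lam t * E.iK (r.form (e t : Dual P.K ((j : Fin n) → r.W j)) (s i) (s i'))).rank := by
  let a' : r.T := ⟨a, h.memA⟩
  let b' : r.T := ⟨b, h.memB⟩
  let Ψ : r.T →ₗ[P.K] Dual P.K r.Y × Dual P.K r.Y :=
    ((r.B.flip a').flip).prod ((r.B.flip b').flip)
  let T'' : Submodule P.K r.T := LinearMap.ker Ψ
  have : Module.Free P.K r.Y := Module.Free.of_divisionRing P.K r.Y
  have hcod : finrank P.K r.T ≤ finrank P.K T'' + 2 * r.corank := by
    have h1 := Ψ.finrank_range_add_finrank_ker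
    have h2 : finrank P.K (LinearMap.range Ψ) ≤ 2 * r.corank := by
      refine (Submodule.finrank_le _).trans (le_of_eq ?_)
      rw [Module.finrank_prod, finrank_eq_card_basis e.dualBasis, Fintype.card_fin]
      omega
    have h3 : finrank P.K (LinearMap.ker Ψ) = finrank P.K T'' := rfl
    omega
  obtain ⟨q, s, hs, hrank⟩ :=
    (rank_pencil_sub hspec r.B e (fun y hy => r.le_rank_B hR hy) hlam).1 T'' _ hcod
  refine ⟨q, fun i => (s i : Rows.Amb P), fun i => (s i).2, fun i y hy => ?_,
    le_trans (by omega) hrank⟩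
  have hi : Ψ (s i) = 0 := hs i
  exact ⟨LinearMap.congr_fun (congrArg Prod.fst hi) ⟨y, hy⟩,
    LinearMap.congr_fun (congrArg Prod.snd hi) ⟨y, hy⟩⟩

/-- A form of an identity at `1` has rank on the monomial multiples of a family the rank of its matrix there times the
number of monomials. -/
theorem le_rank_multiples (hM : ∀ i k, E.mon i * E.mon k ∈ monSpan E) (hnd : NonDeg E)
    (e : Basis (Fin r.corank) P.K r.Y) (y₁ : Dual P₁.K ((j : Fin n) → (baseRows E r).W j))
    (lam : Fin r.corank → P₁.K)
    (hy : ∀ (d : Fin n → P.D), ∀ x ∈ monSpan E, y₁ (GW₁ E r fun j => E.iD (d j) * x) =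
      tau E x * ∑ t, lam t * E.iK (yv r (e t : Dual P.K ((j : Fin n) → r.W j)) d))
    {q : ℕ} (s : Fin q → Rows.Amb P) (N : Submodule P₁.K (Rows.Amb P₁))
    (hN : ∀ i, ∀ ν ∈ monSpan E, (fun c => E.iD (s i c) * ν) ∈ N)
    (B : N →ₗ[P₁.K] Dual P₁.K N) (hB : ∀ u v, B u v = (baseRows E r).form y₁ u v) :
    E.m * (Matrix.of fun i i' =>
        ∑ t, lam t * E.iK (r.form (e t : Dual P.K ((j : Fin n) → r.W j)) (s i) (s i'))).rank ≤
      finrank P₁.K (LinearMap.range B) := by
  classical
  let μ : Fin q → monSpan E →ₗ[P₁.K] N := fun i =>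
    { toFun := fun ν => ⟨fun c => E.iD (s i c) * (ν : P₁.D), hN i ν ν.2⟩
      map_add' := fun x y => Subtype.ext (funext fun c => mul_add _ (x : P₁.D) (y : P₁.D))
      map_smul' := fun t x => Subtype.ext (funext fun c => mul_smul_comm t _ (x : P₁.D)) }
  let ι : (Fin q → monSpan E) →ₗ[P₁.K] N := ∑ i, μ i ∘ₗ LinearMap.proj i
  let C : (Fin q → monSpan E) →ₗ[P₁.K] Dual P₁.K (Fin q → monSpan E) := ι.dualMap ∘ₗ B ∘ₗ ι
  let A : Matrix (Fin q) (Fin q) P₁.K := Matrix.of fun i i' =>
    ∑ t, lam t * E.iK (r.form (e t : Dual P.K ((j : Fin n) → r.W j)) (s i) (s i'))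
  have hpair : ∀ i i' (ν ν' : monSpan E), B (μ i ν) (μ i' ν') = A i i' * tau E ((ν : P₁.D) * ν') := by
    intro i i' ν ν'
    rw [hB]
    show y₁ (fun j => ⟨PJ E r j (Poly.d2 P₁.val
      (P₁.dirVal (N := L.b n) (fun c => E.iD (s i c) * (ν : P₁.D), 0))
      (P₁.dirVal (N := L.b n) (fun c => E.iD (s i' c) * (ν' : P₁.D), 0)) (L.eqn j)), _⟩) = _
    simp only [dirVal_mul, d2_iD E _ _ ν.2 ν'.2]
    exact (hy (D2 r (s i) (s i')) _ (mul_mem_monSpan E hM ν.2 ν'.2)).trans (mul_comm _ _)
  have hC : ∀ x i' k, C x (Pi.single i' ⟨E.mon k, mon_mem E k⟩) =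
      ∑ i, A i i' * tau E ((x i : P₁.D) * E.mon k) := by
    intro x i' k
    have h1 : ι (Pi.single i' ⟨E.mon k, mon_mem E k⟩) = μ i' ⟨E.mon k, mon_mem E k⟩ := by
      simp only [ι, LinearMap.sum_apply, LinearMap.comp_apply, LinearMap.proj_apply]
      rw [Finset.sum_eq_single i']
      · rw [Pi.single_eq_same]
      · exact fun i _ hi => by rw [Pi.single_eq_of_ne hi, map_zero]
      · exact fun hi => absurd (Finset.mem_univ i') hi
    show B (ι x) (ι (Pi.single i' _)) = _
    rw [h1]
    simp only [ι, LinearMap.sum_apply, LinearMap.comp_apply, LinearMap.proj_apply, map_sum]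
    exact Finset.sum_congr rfl fun i _ => hpair i i' _ _
  have h1 := finrank_ker_le E hnd A C hC
  have h2 := C.finrank_range_add_finrank_ker
  have h3 : finrank P₁.K (Fin q → monSpan E) = E.m * q := by
    rw [Module.finrank_pi_fintype, Finset.sum_const, Finset.card_univ, Fintype.card_fin,
      smul_eq_mul, show finrank P₁.K (monSpan E) = E.m from
        (finrank_span_eq_card (indep_mon E)).trans (Fintype.card_fin _), mul_comm]
  have h4 : finrank P₁.K (LinearMap.range C) ≤ finrank P₁.K (LinearMap.range B) := by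
    rw [show C = ι.dualMap ∘ₗ (B ∘ₗ ι) from rfl, LinearMap.range_comp]
    exact (Submodule.finrank_map_le _ _).trans
      (Submodule.finrank_mono (LinearMap.range_comp_le_range ι B))
  show E.m * A.rank ≤ _
  omega

/-- **The form of a surviving identity has large rank where order one stays in the range.** -/
theorem exists_form {R : ℕ} (h : LiftData E r a b U V) (hR : r.RankGE R) (hspec : RankSpec E.iK)
    (hnd : NonDeg E) (y₁ : Dual P₁.K ((j : Fin n) → (baseRows E r).W j))
    (hG : ∀ z ∈ LinearMap.range (baseRows E r).J ⊔ (baseRows E r).T.map (LinA E r a b U V), y₁ z = 0)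
    (hy₁ : y₁ ≠ 0) :
    ∃ B : Tp E r a b U V →ₗ[P₁.K] Dual P₁.K (Tp E r a b U V),
      (∀ u v, B u v = (baseRows E r).form y₁ u v) ∧
        E.m * (R - 4 * r.corank) ≤ finrank P₁.K (LinearMap.range B) := by
  have : Module.Free P.K r.Y := Module.Free.of_divisionRing P.K r.Y
  let e : Basis (Fin r.corank) P.K r.Y := Module.finBasis P.K r.Y
  obtain ⟨lam, hlam, hy⟩ := exists_lam E r e y₁ (fun z hz => hG z (Submodule.mem_sup_left hz))
    (fun d k hk => hG _ (mon_mem_reach E r h hk d)) hy₁
  obtain ⟨q, s, hs, hab, hrank⟩ := exists_orth E r h hR hspec e hlam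
  have hmem : y₁ ∈ (baseRows E r).Y :=
    (Submodule.mem_dualAnnihilator y₁).2 fun w hw => hG w (Submodule.mem_sup_left hw)
  let incl : Tp E r a b U V →ₗ[P₁.K] (baseRows E r).T := Submodule.inclusion inf_le_left
  let B : Tp E r a b U V →ₗ[P₁.K] Dual P₁.K (Tp E r a b U V) :=
    incl.dualMap ∘ₗ (baseRows E r).B ⟨y₁, hmem⟩ ∘ₗ incl
  refine ⟨B, fun u v => rfl, (Nat.mul_le_mul_left _ hrank).trans
    (le_rank_multiples E r h.mul hnd e y₁ lam hy s _ (fun i ν hν =>
      multiples_mem E r h (hs i) (fun y hy => hab i y hy) hν) B fun u v => rfl)⟩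

/-- **The radical on a part of the tangents of a base change**, for a covector killing order zero and the values off
the monomial `1`. -/
theorem radical_le {R : ℕ} (hT : r.Tight) (hM : ∀ i k, E.mon i * E.mon k ∈ monSpan E)
    (hnd : NonDeg E) (hspec : RankSpec E.iK) (hR : r.RankGE R)
    (eta : Dual P₁.K ((j : Fin n) → (baseRows E r).W j))
    (hJ : ∀ z ∈ LinearMap.range (baseRows E r).J, eta z = 0)
    (hmon : ∀ (d : Fin n → P.D) (k : Fin E.m), k ≠ one E →
      eta (GW₁ E r fun j => E.iD (d j) * E.mon k) = 0)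
    (heta : eta ≠ 0) (S T' : Submodule P₁.K (Rows.Amb P₁)) (hS : S ≤ (baseRows E r).T)
    (hT' : T' ≤ (baseRows E r).T) (h0 : ∀ u ∈ S, ∀ v ∈ T', (baseRows E r).form eta u v = 0) :
    finrank P₁.K S + R * E.m ≤ finrank P₁.K (baseRows E r).T +
      (finrank P₁.K (baseRows E r).T - finrank P₁.K T') := by
  have : Module.Free P.K r.Y := Module.Free.of_divisionRing P.K r.Y
  have : Module.Free P.K r.T := Module.Free.of_divisionRing P.K r.T
  let e : Basis (Fin r.corank) P.K r.Y := Module.finBasis P.K r.Y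
  obtain ⟨lam, hlam, hy⟩ := exists_lam E r e eta hJ hmon heta
  obtain ⟨q, s, hrank⟩ := (rank_pencil_sub hspec r.B e (fun y hy => r.le_rank_B hR hy) hlam).2
  let T₁ := (baseRows E r).T
  let B : T₁ →ₗ[P₁.K] Dual P₁.K T₁ := (baseRows E r).B ⟨eta, (Submodule.mem_dualAnnihilator eta).2 hJ⟩
  have h1 : E.m * R ≤ finrank P₁.K (LinearMap.range B) := (Nat.mul_le_mul_left _ hrank).trans
    (le_rank_multiples E r hM hnd e eta lam hy (fun i => (s i : Rows.Amb P)) T₁ (fun i ν hν =>
      LinearMap.mem_ker.2 (funext fun j => Subtype.ext (by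
        show PJ E r j (P₁.dEq L (L.b n) j (fun c => E.iD ((s i : Rows.Amb P) c) * ν, 0)) = 0
        rw [dEq_tangent_mul E r hT.fixed (s i).2 hν j, map_zero]))) B fun u v => rfl)
  have h2 := finrank_radical_sub B S T' hS hT' fun u v hu hv => h0 _ hu _ hv
  have h3 := Submodule.finrank_mono hT'
  have h8 : finrank P₁.K T₁ = finrank P₁.K (baseRows E r).T := rfl
  rw [mul_comm R]
  omega

end

end Vale.Agent.P199.LiftSeries
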