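import Vale.Agent.P199.Lift.Fit
import Vale.Agent.P199.Inv.Defs

/-!
P199: one more fitting row on a Laurent point. A space of the right dimension whose integral elements reach the linked
motions of the residue, inside the scalars where these are scalars, carries a row fitting the residue row.
-/

namespace Vale.Agent.P199

open Module SkewLaurent LaurentAlg

noncomputable section

theorem Rows.ext_data {L : Listing} {n : ℕ} {P : Pt} {r r' : Rows L n P} (hW : r.W = r'.W)
    (hP : r.Pp = r'.Pp) (hp : r.proj = r'.proj) (hF : r.projF = r'.projF) : r = r' := by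
  cases r; cases r'; cases hW; cases hP; cases hp; cases hF; rfl

/-- One row on top: its data at a point. -/
structure RowData (L : Listing) (j : ℕ) (P : Pt) where
  /-- The linked motions. -/
  W : Submodule P.K P.D
  /-- The partner motions. -/
  Pp : Submodule P.K P.D
  /-- The projection onto `W`. -/
  proj : P.D →ₗ[P.K] P.D
  /-- The projection onto `W ⊔ Pp`. -/
  projF : P.D →ₗ[P.K] P.D
  proj_mem : ∀ a, proj a ∈ W
  proj_self : ∀ a ∈ W, proj a = a
  proj_Pp : ∀ a ∈ Pp, proj a = 0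
  projF_mem : ∀ a, projF a ∈ W ⊔ Pp
  projF_self : ∀ a ∈ W ⊔ Pp, projF a = a
  proj_projF : ∀ a, proj (projF a) = proj a
  Pp_le : Pp ≤ P.scalars L j
  scalars_le : P.scalars L j ≤ W ⊔ Pp

variable {L : Listing} {n : ℕ}

/-- The last row. -/
def Rows.last {P : Pt} (r : Rows L (n + 1) P) : RowData L n P where
  W := r.W (Fin.last n)
  Pp := r.Pp (Fin.last n)
  proj := r.proj (Fin.last n)
  projF := r.projF (Fin.last n)
  proj_mem := r.proj_mem _
  proj_self := r.proj_self _
  proj_Pp := r.proj_Pp _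
  projF_mem := r.projF_mem _
  projF_self := r.projF_self _
  proj_projF := r.proj_projF _
  Pp_le := r.Pp_le (Fin.last n)
  scalars_le := r.scalars_le (Fin.last n)

/-- Rows with one more row. -/
def Rows.addRow {P : Pt} (r : Rows L n P) (x : RowData L n P) : Rows L (n + 1) P where
  W j := if h : (j : ℕ) < n then r.W ⟨j, h⟩ else x.W
  Pp j := if h : (j : ℕ) < n then r.Pp ⟨j, h⟩ else x.Pp
  proj j := if h : (j : ℕ) < n then r.proj ⟨j, h⟩ else x.proj
  projF j := if h : (j : ℕ) < n then r.projF ⟨j, h⟩ else x.projF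
  proj_mem j a := by
    by_cases h : (j : ℕ) < n
    · simp only [dif_pos h]; exact r.proj_mem _ a
    · simp only [dif_neg h]; exact x.proj_mem a
  proj_self j := by
    by_cases h : (j : ℕ) < n
    · simp only [dif_pos h]; exact r.proj_self _
    · simp only [dif_neg h]; exact x.proj_self
  proj_Pp j := by
    by_cases h : (j : ℕ) < n
    · simp only [dif_pos h]; exact r.proj_Pp _
    · simp only [dif_neg h]; exact x.proj_Pp
  projF_mem j a := by
    by_cases h : (j : ℕ) < n
    · simp only [dif_pos h]; exact r.projF_mem _ a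
    · simp only [dif_neg h]; exact x.projF_mem a
  projF_self j := by
    by_cases h : (j : ℕ) < n
    · simp only [dif_pos h]; exact r.projF_self _
    · simp only [dif_neg h]; exact x.projF_self
  proj_projF j a := by
    by_cases h : (j : ℕ) < n
    · simp only [dif_pos h]; exact r.proj_projF _ a
    · simp only [dif_neg h]; exact x.proj_projF a
  Pp_le j := by
    by_cases h : (j : ℕ) < n
    · simp only [dif_pos h]; exact r.Pp_le ⟨j, h⟩
    · rw [dif_neg h, show P.scalars L j = P.scalars L n from congrArg _ (by omega)]; exact x.Pp_le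
  scalars_le j := by
    by_cases h : (j : ℕ) < n
    · simp only [dif_pos h]; exact r.scalars_le ⟨j, h⟩
    · rw [dif_neg h, dif_neg h, show P.scalars L j = P.scalars L n from congrArg _ (by omega)]
      exact x.scalars_le

theorem Rows.addRow_restrict {P : Pt} (r : Rows L n P) (x : RowData L n P) :
    (r.addRow x).restrict n n.le_succ = r :=
  Rows.ext_data (funext fun j => dif_pos j.2) (funext fun j => dif_pos j.2)
    (funext fun j => dif_pos j.2) (funext fun j => dif_pos j.2)

theorem Rows.addRow_W_last {P : Pt} (r : Rows L n P) (x : RowData L n P) :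
    (r.addRow x).W (Fin.last n) = x.W :=
  dif_neg (by simp)

variable {P₁ : Pt} (T : LaurData P₁)

/-- **A fitting row with prescribed linked motions.** -/
theorem RowData.exists_fit (x₁ : RowData L n P₁) (W : Submodule T.pt.K T.pt.D)
    (hdeg : finrank T.pt.K (T.pt.scalars L n) ≤ finrank P₁.K (P₁.scalars L n))
    (hW : finrank T.pt.K W = finrank P₁.K x₁.W)
    (hlift : ∀ u ∈ x₁.W, ∃ w ∈ W, (∀ m < 0, cf (T.toS w) m = 0) ∧ cf (T.toS w) 0 = u)
    (hscal : ∀ u ∈ x₁.W ⊓ P₁.scalars L n,
      ∃ w ∈ W ⊓ T.pt.scalars L n, (∀ m < 0, cf (T.toS w) m = 0) ∧ cf (T.toS w) 0 = u) :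
    ∃ x : RowData L n T.pt, x.W = W ∧
      (∀ a : T.pt.D, (∀ m < 0, cf (T.toS a) m = 0) →
        ((∀ m < 0, cf (T.toS (x.proj a)) m = 0) ∧ cf (T.toS (x.proj a)) 0 = x₁.proj (cf (T.toS a) 0)) ∧
        ((∀ m < 0, cf (T.toS (x.projF a)) m = 0) ∧
          cf (T.toS (x.projF a)) 0 = x₁.projF (cf (T.toS a) 0))) ∧
      finrank T.pt.K ↥(x.W ⊔ x.Pp) = finrank P₁.K ↥(x₁.W ⊔ x₁.Pp) := by
  let _ := T.alg
  have halg : ∀ z, algebraMap (LaurentSeries P₁.K) (SkewLaurent (1 : RingAut P₁.D)) z =
      laurentScalarHom z := fun _ => rfl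
  have : FiniteDimensional (LaurentSeries P₁.K) (SkewLaurent (1 : RingAut P₁.D)) :=
    finiteDimensional_laurent halg
  let W' : Submodule (LaurentSeries P₁.K) (SkewLaurent (1 : RingAut P₁.D)) := W
  let S' : Submodule (LaurentSeries P₁.K) (SkewLaurent (1 : RingAut P₁.D)) := T.pt.scalars L n
  -- linear lifts of `W₁` and of its scalars
  have hser : ∀ w : T.pt.D, (∀ m < 0, cf (T.toS w) m = 0) →
      ∃ p : PowerSeries P₁.D, psE p = T.toS w ∧ PowerSeries.constantCoeff p = cf (T.toS w) 0 := fun w hw => by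
    obtain ⟨p, hp⟩ : ∃ p, psE p = T.toS w := ⟨_, exists_psE_of_neg _ hw⟩
    exact ⟨p, hp, by rw [← hp, show (0 : ℤ) = ((0 : ℕ) : ℤ) from rfl, cf_psE,
      PowerSeries.coeff_zero_eq_constantCoeff_apply]⟩
  let A := x₁.W ⊓ P₁.scalars L n
  have : Module.Free P₁.K x₁.W := Module.Free.of_divisionRing P₁.K x₁.W
  have : Module.Free P₁.K A := Module.Free.of_divisionRing P₁.K A
  have hsA : ∀ i, ∃ p : PowerSeries P₁.D,
      PowerSeries.constantCoeff p = ((Module.finBasis P₁.K A) i : P₁.D) ∧ psE p ∈ W' ⊓ S' := fun i => by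
    obtain ⟨w, hw, hi, h0⟩ := hscal _ ((Module.finBasis P₁.K A) i).2
    obtain ⟨p, hp, hp0⟩ := hser w hi
    exact ⟨p, hp0.trans h0, by rw [hp]; exact ⟨hw.1, hw.2⟩⟩
  have hsW : ∀ i, ∃ p : PowerSeries P₁.D,
      PowerSeries.constantCoeff p = ((Module.finBasis P₁.K x₁.W) i : P₁.D) ∧ psE p ∈ W' := fun i => by
    obtain ⟨w, hw, hi, h0⟩ := hlift _ ((Module.finBasis P₁.K x₁.W) i).2
    obtain ⟨p, hp, hp0⟩ := hser w hi
    exact ⟨p, hp0.trans h0, by rw [hp]; exact hw⟩
  choose pA hpA0 hpA using hsA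
  choose pW hpW0 hpW using hsW
  let gA : A →ₗ[P₁.K] PowerSeries P₁.D := (Module.finBasis P₁.K A).constr P₁.K pA
  let gW : x₁.W →ₗ[P₁.K] PowerSeries P₁.D := (Module.finBasis P₁.K x₁.W).constr P₁.K pW
  have hcc : ∀ (c : P₁.K) (p : PowerSeries P₁.D),
      PowerSeries.constantCoeff (c • p) = c • PowerSeries.constantCoeff p := fun c p => by
    rw [Algebra.smul_def, Algebra.smul_def, PowerSeries.algebraMap_apply, map_mul,
      PowerSeries.constantCoeff_C]
  have hgA0 : ∀ a : A, PowerSeries.constantCoeff (gA a) = (a : P₁.D) := fun a => by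
    conv_rhs => rw [← (Module.finBasis P₁.K A).sum_repr a]
    simp only [gA, Basis.constr_apply_fintype, map_sum, hcc, hpA0, Submodule.coe_sum,
      Submodule.coe_smul, Basis.equivFun_apply]
  have hgW0 : ∀ a : x₁.W, PowerSeries.constantCoeff (gW a) = (a : P₁.D) := fun a => by
    conv_rhs => rw [← (Module.finBasis P₁.K x₁.W).sum_repr a]
    simp only [gW, Basis.constr_apply_fintype, map_sum, hcc, hpW0, Submodule.coe_sum,
      Submodule.coe_smul, Basis.equivFun_apply]
  have hsmul : ∀ (V : Submodule (LaurentSeries P₁.K) (SkewLaurent (1 : RingAut P₁.D))) (c : P₁.K)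
      (p : PowerSeries P₁.D), psE p ∈ V → psE (c • p) ∈ V := fun V c p hp => by
    have h : psE (c • p) = (HahnSeries.ofPowerSeries ℤ P₁.K (PowerSeries.C c)) • psE p := by
      rw [LeadE.smul_psE halg, PowerSeries.map_C, Algebra.smul_def, PowerSeries.algebraMap_apply]
    rw [h]
    exact V.smul_mem _ hp
  have hgA : ∀ a, psE (gA a) ∈ W' ⊓ S' := fun a => by
    simp only [gA, Basis.constr_apply_fintype, map_sum]
    exact sum_mem fun i _ => hsmul _ _ _ (hpA i)
  have hgW : ∀ a, psE (gW a) ∈ W' := fun a => by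
    simp only [gW, Basis.constr_apply_fintype, map_sum]
    exact sum_mem fun i _ => hsmul _ _ _ (hpW i)
  obtain ⟨πA, hπA⟩ := LinearMap.exists_leftInverse_of_injective A.subtype (Submodule.ker_subtype A)
  have hπA' : ∀ a ∈ A, (πA a : P₁.D) = a := fun a ha =>
    congrArg Subtype.val (LinearMap.congr_fun hπA ⟨a, ha⟩)
  let p₁ : P₁.D →ₗ[P₁.K] x₁.W := x₁.proj.codRestrict x₁.W x₁.proj_mem
  let C₁ : P₁.D →ₗ[P₁.K] PowerSeries P₁.D :=
    { toFun := PowerSeries.C
      map_add' := fun a b => map_add _ a b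
      map_smul' := fun c a => by
        rw [RingHom.id_apply, Algebra.smul_def, Algebra.smul_def, map_mul,
          PowerSeries.algebraMap_apply] }
  let g : P₁.D →ₗ[P₁.K] PowerSeries P₁.D :=
    gA.comp (πA.comp x₁.proj) +
    gW.comp (p₁ - (Submodule.inclusion (inf_le_left : A ≤ x₁.W)).comp (πA.comp x₁.proj)) +
    (T.gen L n).comp (x₁.projF - x₁.proj) + C₁.comp (LinearMap.id - x₁.projF)
  have hg : ∀ x, PowerSeries.constantCoeff (g x) = x := fun x => by
    simp only [g, C₁, LinearMap.add_apply, LinearMap.comp_apply, LinearMap.sub_apply, map_add,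
      map_sub, LinearMap.id_apply, hgA0, hgW0, T.gen_const L n, LinearMap.coe_mk, AddHom.coe_mk,
      PowerSeries.constantCoeff_C]
    show ((πA (x₁.proj x) : A) : P₁.D) + (x₁.proj x - ((πA (x₁.proj x) : A) : P₁.D)) + _ + _ = x
    abel
  have hgen : ∀ x ∈ P₁.scalars L n, psE (T.gen L n x) ∈ S' := fun x hx => by
    have h := T.moved_scalars_le L n
    rw [← Conj.move_C halg (T.gen L n) x]
    exact h ⟨_, Submodule.subset_span ⟨x, hx, rfl⟩, rfl⟩
  have hFself : ∀ a ∈ P₁.scalars L n, x₁.projF a = a := fun a ha => x₁.projF_self a (x₁.scalars_le ha)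
  have hprojA : ∀ a ∈ P₁.scalars L n, x₁.proj a ∈ A := fun a ha => by
    refine ⟨x₁.proj_mem a, ?_⟩
    obtain ⟨w, hw, p, hp, rfl⟩ := Submodule.mem_sup.1 (x₁.scalars_le ha)
    have hwS : w ∈ P₁.scalars L n := by
      simpa using Submodule.sub_mem _ ha (x₁.Pp_le hp)
    simpa [map_add, x₁.proj_self w hw, x₁.proj_Pp p hp] using hwS
  have hspanle : ∀ (U : Submodule P₁.K P₁.D)
      (V : Submodule (LaurentSeries P₁.K) (SkewLaurent (1 : RingAut P₁.D))),
      (∀ x ∈ U, psE (g x) ∈ V) → Conj.movedSpan halg g U ≤ V := fun U V h => by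
    unfold Conj.movedSpan Conj.span
    refine Submodule.map_le_iff_le_comap.2 (Submodule.span_le.2 ?_)
    rintro _ ⟨x, hx, rfl⟩
    show Conj.move halg g (C 1 x) ∈ V
    rw [Conj.move_C]
    exact h x hx
  have hmW : Conj.movedSpan halg g x₁.W = W' := by
    refine Submodule.eq_of_le_of_finrank_le (hspanle _ _ fun x hx => ?_)
      (le_of_eq (hW.trans (Conj.finrank_movedSpan halg g hg x₁.W).symm))
    have hp : x₁.proj x = x := x₁.proj_self x hx
    have hF : x₁.projF x = x := x₁.projF_self x (Submodule.mem_sup_left hx)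
    simp only [g, LinearMap.add_apply, LinearMap.comp_apply, LinearMap.sub_apply, hp, hF, sub_self,
      map_zero, add_zero, LinearMap.id_apply]
    rw [(psE (D := P₁.D)).map_add]
    exact W'.add_mem (hgA _).1 (hgW _)
  have hmP : Conj.movedSpan halg g x₁.Pp ≤ S' := hspanle _ _ fun x hx => by
    have hp : x₁.proj x = 0 := x₁.proj_Pp x hx
    have hF : x₁.projF x = x := x₁.projF_self x (Submodule.mem_sup_right hx)
    have hp₁ : p₁ x = 0 := Subtype.ext hp
    simp only [g, LinearMap.add_apply, LinearMap.comp_apply, LinearMap.sub_apply, hp, hp₁, hF, sub_zero,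
      sub_self, map_zero, zero_add, add_zero, LinearMap.id_apply]
    exact hgen x (x₁.Pp_le hx)
  have hmS : Conj.movedSpan halg g (P₁.scalars L n) = S' := by
    refine Submodule.eq_of_le_of_finrank_le (hspanle _ _ fun x hx => ?_)
      (le_trans hdeg (le_of_eq (Conj.finrank_movedSpan halg g hg _).symm))
    have hA := hprojA x hx
    have hF : x₁.projF x = x := hFself x hx
    have hw : p₁ x - (Submodule.inclusion (inf_le_left : A ≤ x₁.W)) (πA (x₁.proj x)) = 0 :=
      Subtype.ext (sub_eq_zero.2 (hπA' _ hA).symm)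
    simp only [g, LinearMap.add_apply, LinearMap.comp_apply, LinearMap.sub_apply, hw, hF, sub_self,
      map_zero, add_zero, LinearMap.id_apply]
    rw [(psE (D := P₁.D)).map_add]
    exact S'.add_mem (hgA _).2 (hgen _ (Submodule.sub_mem _ hx hA.2))
  have hsup : Conj.movedSpan halg g x₁.W ⊔ Conj.movedSpan halg g x₁.Pp =
      Conj.movedSpan halg g (x₁.W ⊔ x₁.Pp) := by
    refine le_antisymm (sup_le (Submodule.map_mono (Conj.span_mono le_sup_left))
      (Submodule.map_mono (Conj.span_mono le_sup_right))) ?_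
    rw [Conj.movedSpan, Conj.movedSpan, Conj.movedSpan, ← Submodule.map_sup]
    exact Submodule.map_mono (Conj.span_sup _ _)
  let x : RowData L n T.pt :=
    { W := Conj.movedSpan halg g x₁.W
      Pp := Conj.movedSpan halg g x₁.Pp
      proj := Conj.conj halg g hg x₁.proj
      projF := Conj.conj halg g hg x₁.projF
      proj_mem := fun a => Conj.conj_mem _ _ _ x₁.proj_mem a
      proj_self := fun a ha =>
        (Conj.conj_eq_of_mem _ _ _ (f' := LinearMap.id) x₁.proj_self ha).trans (Conj.conj_id _ _ _ a)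
      proj_Pp := fun a ha =>
        (Conj.conj_eq_of_mem _ _ _ (f' := 0) x₁.proj_Pp ha).trans (Conj.conj_zero _ _ _ a)
      projF_mem := fun a => hsup.ge (Conj.conj_mem _ _ _ x₁.projF_mem a)
      projF_self := fun a ha =>
        (Conj.conj_eq_of_mem _ _ _ (f' := LinearMap.id) x₁.projF_self (hsup.le ha)).trans
          (Conj.conj_id _ _ _ a)
      proj_projF := fun a => Conj.conj_comp _ _ _ x₁.proj_projF a
      Pp_le := hmP
      scalars_le := by
        show S' ≤ Conj.movedSpan halg g x₁.W ⊔ Conj.movedSpan halg g x₁.Pp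
        rw [hsup, ← hmS]
        exact Submodule.map_mono (Conj.span_mono x₁.scalars_le) }
  refine ⟨x, hmW, fun a ha => ?_, ?_⟩
  · have h1 := Conj.conj_coeffs halg g hg x₁.proj (a := T.toS a) ha
    have h2 := Conj.conj_coeffs halg g hg x₁.projF (a := T.toS a) ha
    exact ⟨⟨h1.1, h1.2.1⟩, h2.1, h2.2.1⟩
  · refine Eq.trans ?_ (Conj.finrank_movedSpan halg g hg (x₁.W ⊔ x₁.Pp))
    rw [← hsup]
    rfl

/-- **One more fitting row.** -/
theorem Rows.exists_fit_snoc (r₁ : Rows L (n + 1) P₁) (r : Rows L n T.pt)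
    (hr : Rows.FitOver T (r₁.restrict n n.le_succ) r)
    (hdeg : finrank T.pt.K (T.pt.scalars L n) ≤ finrank P₁.K (P₁.scalars L n))
    (W : Submodule T.pt.K T.pt.D)
    (hW : finrank T.pt.K W = finrank P₁.K (r₁.W (Fin.last n)))
    (hlift : ∀ u ∈ r₁.W (Fin.last n), ∃ w ∈ W, (∀ m < 0, cf (T.toS w) m = 0) ∧ cf (T.toS w) 0 = u)
    (hscal : ∀ u ∈ r₁.W (Fin.last n) ⊓ P₁.scalars L n,
      ∃ w ∈ W ⊓ T.pt.scalars L n, (∀ m < 0, cf (T.toS w) m = 0) ∧ cf (T.toS w) 0 = u) :
    ∃ r' : Rows L (n + 1) T.pt, r'.restrict n n.le_succ = r ∧ r'.W (Fin.last n) = W ∧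
      Rows.FitOver T r₁ r' := by
  obtain ⟨x, hxW, hx, hxd⟩ := RowData.exists_fit T r₁.last W hdeg hW hlift hscal
  refine ⟨r.addRow x, r.addRow_restrict x, (r.addRow_W_last x).trans hxW, ?_⟩
  have hlast : ∀ j : Fin (n + 1), ¬ (j : ℕ) < n → j = Fin.last n := fun j hj =>
    Fin.ext (by rw [Fin.val_last]; omega)
  refine ⟨fun j a ha => ?_, fun j a ha => ?_, fun j => ?_, fun j => ?_⟩ <;>
    by_cases h : (j : ℕ) < n
  · simp only [Rows.addRow, dif_pos h]; exact hr.proj_int ⟨j, h⟩ a ha
  · obtain rfl := hlast j h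
    simp only [Rows.addRow, dif_neg h]; exact (hx a ha).1
  · simp only [Rows.addRow, dif_pos h]; exact hr.projF_int ⟨j, h⟩ a ha
  · obtain rfl := hlast j h
    simp only [Rows.addRow, dif_neg h]; exact (hx a ha).2
  · exact (congrArg (fun U : Submodule T.pt.K T.pt.D => finrank T.pt.K U) (dif_pos h)).trans
      (hr.finrank_W ⟨j, h⟩)
  · obtain rfl := hlast j h
    exact (congrArg (fun U : Submodule T.pt.K T.pt.D => finrank T.pt.K U)
      ((r.addRow_W_last x).trans hxW)).trans hW
  · exact (congrArg (fun U : Submodule T.pt.K T.pt.D => finrank T.pt.K U)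
      (congrArg₂ (· ⊔ ·) (dif_pos h) (dif_pos h))).trans (hr.finrank_WP ⟨j, h⟩)
  · obtain rfl := hlast j h
    exact (congrArg (fun U : Submodule T.pt.K T.pt.D => finrank T.pt.K U)
      (congrArg₂ (· ⊔ ·) (dif_neg h) (dif_neg h))).trans hxd

end

end Vale.Agent.P199
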