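import Vale.Agent.P199.Lift.BaseChange
import Vale.Agent.P199.Lift.DeformRows

/-!
P199: the deformed rows on a lifted point: coefficients of the differentials and projections along a lift.
-/

namespace Vale.Agent.P199

open Module SkewLaurent LaurentAlg

noncomputable section

namespace LaurData

variable {P₁ : Pt} (T : LaurData P₁) {L : Listing} {n : ℕ}

/-- A constant direction at the Laurent point. -/
def cd {N : ℕ} (d : P₁.Dir N) : T.pt.Dir N :=
  (fun c => T.ofS (C 1 (d.1 c)), fun i => (HahnSeries.C (d.2 i) : LaurentSeries P₁.K))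

theorem dirVal_cd {N : ℕ} (d : P₁.Dir N) (z : Var) :
    T.toS (T.pt.dirVal (T.cd d) z) = C 1 (P₁.dirVal d z) := by
  cases z with
  | inl a => rfl
  | inr i =>
    by_cases hi : i < N
    · simp only [Pt.dirVal, dif_pos hi]
      refine ext_cf fun m => ?_
      show cf (laurentScalarHom (HahnSeries.C (d.2 ⟨i, hi⟩) : LaurentSeries P₁.K)) m = _
      rw [cf_laurentScalarHom, cf_C, HahnSeries.C_apply, HahnSeries.coeff_single]
      split <;> simp
    · simp only [Pt.dirVal, dif_neg hi, map_zero]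
      rfl

/-- The first two coefficients of a differential along an integral direction. -/
theorem dEq_coeffs {N : ℕ} (w : T.pt.Dir N) (w₀ w₁ : P₁.Dir N)
    (h : ∀ z, (∀ m < 0, cf (T.toS (T.pt.dirVal w z)) m = 0) ∧
      cf (T.toS (T.pt.dirVal w z)) 0 = P₁.dirVal w₀ z ∧
      cf (T.toS (T.pt.dirVal w z)) 1 = P₁.dirVal w₁ z) (j : ℕ) :
    (∀ m < 0, cf (T.toS (T.pt.dEq L N j w)) m = 0) ∧
      cf (T.toS (T.pt.dEq L N j w)) 0 = P₁.dEq L N j w₀ ∧
      cf (T.toS (T.pt.dEq L N j w)) 1 = P₁.dEq L N j w₁ +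
        (Poly.d2 P₁.val (Poly.cf 1 T.ser) (P₁.dirVal w₀) (L.eqn j) +
          Poly.d2 P₁.val (P₁.dirVal w₀) (Poly.cf 1 T.ser) (L.eqn j)) := by
  let e : Var → PowerSeries P₁.D := fun z =>
    PowerSeries.mk fun m : ℕ => cf (T.toS (T.pt.dirVal w z)) m
  have he : ∀ z, psE (e z) = T.toS (T.pt.dirVal w z) := fun z => exists_psE_of_neg _ (h z).1
  have hd : T.toS (T.pt.dEq L N j w) = psE (Poly.d1 T.ser e (L.eqn j)) := by
    have h' := Poly.map_d1 T.ser e (psE (D := P₁.D)) 1 (fun a => by rw [mul_one, one_mul]) (L.eqn j)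
    simp only [mul_one] at h'
    rw [h', funext he, funext T.psE_ser]
    rfl
  have h0 : Poly.cf 0 e = P₁.dirVal w₀ := funext fun z => by
    rw [Poly.cf, PowerSeries.coeff_mk]; exact (h z).2.1
  have h1 : Poly.cf 1 e = P₁.dirVal w₁ := funext fun z => by
    rw [Poly.cf, PowerSeries.coeff_mk]; exact (h z).2.2
  refine ⟨fun m hm => ?_, ?_, ?_⟩
  · rw [hd, Conj.cf_psE_neg _ hm]
  · rw [hd, show (0 : ℤ) = ((0 : ℕ) : ℤ) from rfl, cf_psE, Poly.coeff_zero_d1, T.cf_zero_ser, h0]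
    rfl
  · rw [hd, show (1 : ℤ) = ((1 : ℕ) : ℤ) from rfl, cf_psE, Poly.coeff_one_d1, T.cf_zero_ser, h0, h1]
    rfl

variable (r₁ : Rows L n P₁)
  (hdeg : ∀ j < n, finrank T.pt.K (T.pt.scalars L j) ≤ finrank P₁.K (P₁.scalars L j))

/-- The linked projection of an integral value is integral, and is the residue projection on leading terms. -/
theorem deform_proj_coeffs (j : Fin n) (a : T.pt.D) (ha : ∀ m < 0, cf (T.toS a) m = 0) :
    (∀ m < 0, cf (T.toS ((T.deform L r₁ hdeg).proj j a)) m = 0) ∧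
      cf (T.toS ((T.deform L r₁ hdeg).proj j a)) 0 = r₁.proj j (cf (T.toS a) 0) ∧
      (cf (T.toS a) 0 = 0 →
        cf (T.toS ((T.deform L r₁ hdeg).proj j a)) 1 = r₁.proj j (cf (T.toS a) 1)) :=
  letI := T.alg
  Conj.conj_coeffs (fun _ => rfl) (T.gen L j) (T.gen_const L j) (r₁.proj j) ha

/-- The same with symbols. -/
theorem deform_projF_coeffs (j : Fin n) (a : T.pt.D) (ha : ∀ m < 0, cf (T.toS a) m = 0) :
    (∀ m < 0, cf (T.toS ((T.deform L r₁ hdeg).projF j a)) m = 0) ∧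
      cf (T.toS ((T.deform L r₁ hdeg).projF j a)) 0 = r₁.projF j (cf (T.toS a) 0) ∧
      (cf (T.toS a) 0 = 0 →
        cf (T.toS ((T.deform L r₁ hdeg).projF j a)) 1 = r₁.projF j (cf (T.toS a) 1)) :=
  letI := T.alg
  Conj.conj_coeffs (fun _ => rfl) (T.gen L j) (T.gen_const L j) (r₁.projF j) ha

/-- The deformed linked spaces keep their dimensions. -/
theorem finrank_deform_W (j : Fin n) :
    finrank T.pt.K ((T.deform L r₁ hdeg).W j) = finrank P₁.K (r₁.W j) :=
  letI := T.alg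
  Conj.finrank_movedSpan (fun _ => rfl) (T.gen L j) (T.gen_const L j) (r₁.W j)

theorem finrank_deform_WP (j : Fin n) :
    finrank T.pt.K ↥((T.deform L r₁ hdeg).W j ⊔ (T.deform L r₁ hdeg).Pp j) =
      finrank P₁.K ↥(r₁.W j ⊔ r₁.Pp j) := by
  let _ := T.alg
  refine Eq.trans ?_ (Conj.finrank_movedSpan (fun _ => rfl) (T.gen L j) (T.gen_const L j)
    (r₁.W j ⊔ r₁.Pp j))
  rw [← T.moved_sup L r₁ j]
  rfl

end LaurData

namespace LiftSeries

variable {P P₁ : Pt} {E : Ext P P₁} {L : Listing} {n : ℕ} {r : Rows L n P} {a b : Rows.Amb P}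
  {U V : P₁.D} (T : LaurData P₁) (hx1 : ∀ c, cf (T.x c) 1 = X1 E a b U V c)
  (hc1 : ∀ i, (T.c i).coeff 1 = 0)

include hx1 hc1 in
theorem cf_one_ser : Poly.cf 1 T.ser = P₁.dirVal (N := L.b n) (X1 E a b U V, 0) := by
  funext z
  rw [Poly.cf, LaurData.ser, PowerSeries.coeff_mk]
  cases z with
  | inl c => exact hx1 c
  | inr i =>
    show cf (laurentScalarHom (T.c i)) 1 = _
    rw [cf_laurentScalarHom, hc1, map_zero]
    by_cases hi : i < L.b n <;> simp [Pt.dirVal, hi]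

include hx1 hc1 in
/-- The first two coefficients along an integral direction of the lifted point. -/
theorem dEq_lift {w : T.pt.Dir (L.b n)} (w₀ w₁ : P₁.Dir (L.b n))
    (h : ∀ z, (∀ m < 0, cf (T.toS (T.pt.dirVal w z)) m = 0) ∧
      cf (T.toS (T.pt.dirVal w z)) 0 = P₁.dirVal w₀ z ∧
      cf (T.toS (T.pt.dirVal w z)) 1 = P₁.dirVal w₁ z) (j : ℕ) :
    (∀ m < 0, cf (T.toS (T.pt.dEq L (L.b n) j w)) m = 0) ∧
      cf (T.toS (T.pt.dEq L (L.b n) j w)) 0 = P₁.dEq L (L.b n) j w₀ ∧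
      cf (T.toS (T.pt.dEq L (L.b n) j w)) 1 = P₁.dEq L (L.b n) j w₁ +
        Lin (L := L) (n := n) E a b U V j w₀ := by
  have h' := T.dEq_coeffs (L := L) w w₀ w₁ h j
  rw [cf_one_ser (L := L) (n := n) T hx1 hc1] at h'
  exact h'

include hx1 hc1 in
theorem dEq_cd (d : P₁.Dir (L.b n)) (j : ℕ) :
    (∀ m < 0, cf (T.toS (T.pt.dEq L (L.b n) j (T.cd d))) m = 0) ∧
      cf (T.toS (T.pt.dEq L (L.b n) j (T.cd d))) 0 = P₁.dEq L (L.b n) j d ∧
      cf (T.toS (T.pt.dEq L (L.b n) j (T.cd d))) 1 = Lin (L := L) (n := n) E a b U V j d := by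
  have h := dEq_lift T hx1 hc1 (L := L) (n := n) (w := T.cd d) d 0 (fun z => by
    rw [T.dirVal_cd]
    refine ⟨fun m hm => by rw [cf_C, if_neg hm.ne], by rw [cf_C, if_pos rfl], ?_⟩
    rw [cf_C, if_neg one_ne_zero]
    cases z with
    | inl c => rfl
    | inr i => by_cases hi : i < L.b n <;> simp [Pt.dirVal, hi]) j
  rwa [map_zero, zero_add] at h

end LiftSeries

end

end Vale.Agent.P199
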