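import Vale.Agent.P199.Lift.Section
import Vale.Agent.P199.Deletion.Probe

/-!
P199, INHERIT: one more row at a solved Laurent point. From a space `Z` commuting with the element of the row, with
residues inside the linked motions of the residue row, the row over it: it fits, contains `Z` and commutes.
-/

namespace Vale.Agent.P199

open Module SkewLaurent LaurentAlg

noncomputable section

variable {L : Listing} {j : ℕ} {P₁ : Pt} (T : LaurData P₁)

namespace LaurData

/-- The constant coefficient, linearly. -/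
def ccL (P₁ : Pt) : PowerSeries P₁.D →ₗ[P₁.K] P₁.D where
  toFun := PowerSeries.constantCoeff
  map_add' := map_add _
  map_smul' t p := by
    rw [RingHom.id_apply, ← PowerSeries.coeff_zero_eq_constantCoeff_apply, PowerSeries.coeff_smul,
      PowerSeries.coeff_zero_eq_constantCoeff_apply]

def cst (t : P₁.K) : T.pt.K := (HahnSeries.C t : LaurentSeries P₁.K)

theorem psE_smul (t : P₁.K) (p : PowerSeries P₁.D) :
    T.ofS (psE (t • p)) = T.cst t • T.ofS (psE p) := by
  let _ := T.alg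
  have h := LeadE.smul_psE (K := P₁.K) (D := P₁.D) (fun _ => rfl) (PowerSeries.C t) p
  rw [HahnSeries.ofPowerSeries_C, PowerSeries.map_C] at h
  refine Eq.trans (congrArg (fun q => T.ofS (psE q)) (PowerSeries.ext fun m => ?_)) h.symm
  rw [PowerSeries.coeff_smul, PowerSeries.coeff_C_mul, Algebra.smul_def]

/-- The series lying in a space of the Laurent point. -/
def series (Z : Submodule T.pt.K T.pt.D) : Submodule P₁.K (PowerSeries P₁.D) where
  carrier := {p | T.ofS (psE p) ∈ Z}
  add_mem' {p q} hp hq := by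
    show T.ofS (psE (p + q)) ∈ Z
    rw [(psE (D := P₁.D)).map_add]
    exact Z.add_mem hp hq
  zero_mem' := by
    show T.ofS (psE 0) ∈ Z
    rw [(psE (D := P₁.D)).map_zero]
    exact Z.zero_mem
  smul_mem' t p hp := by
    show T.ofS (psE (t • p)) ∈ Z
    rw [T.psE_smul]
    exact Z.smul_mem _ hp

/-- The residues of a space have its dimension. -/
theorem finrank_residue (Z : Submodule T.pt.K T.pt.D) :
    finrank P₁.K ((T.series Z).map (ccL P₁)) = finrank T.pt.K Z := by
  let _ := T.alg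
  have halg : ∀ z, algebraMap (LaurentSeries P₁.K) (SkewLaurent (1 : RingAut P₁.D)) z =
      laurentScalarHom z := fun _ => rfl
  let Z' : Submodule (LaurentSeries P₁.K) (SkewLaurent (1 : RingAut P₁.D)) := Z
  let e := LinearEquiv.funUnique Unit (LaurentSeries P₁.K) (SkewLaurent (1 : RingAut P₁.D))
  let S : Submodule (LaurentSeries P₁.K) (Unit → SkewLaurent (1 : RingAut P₁.D)) := Z'.comap e.toLinearMap
  let e₁ := LinearEquiv.funUnique Unit P₁.K P₁.D
  have h1 := LeadE.finrank_lead halg S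
  have h2 : finrank (LaurentSeries P₁.K) S = finrank (LaurentSeries P₁.K) Z' := by
    rw [← LinearEquiv.finrank_map_eq e, Submodule.map_comap_eq_of_surjective e.surjective]
  have h3 : (LeadE.lead halg S).map e₁.toLinearMap = (T.series Z).map (ccL P₁) := by
    refine le_antisymm ?_ ?_
    · rintro _ ⟨_, ⟨f, hf, hfi, rfl⟩, rfl⟩
      have hp := exists_psE_of_neg (f ()) (hfi ())
      refine ⟨PowerSeries.mk fun m : ℕ => cf (f ()) m, ?_, ?_⟩
      · show T.ofS (psE _) ∈ Z
        rw [hp]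
        exact hf
      · show PowerSeries.constantCoeff (PowerSeries.mk fun m : ℕ => cf (f ()) m) = cf (f ()) 0
        rw [PowerSeries.constantCoeff_mk]
        rfl
    · rintro _ ⟨p, hp, rfl⟩
      refine ⟨_, ⟨fun _ => psE p, hp, fun _ m hm => Conj.cf_psE_neg _ hm, rfl⟩, ?_⟩
      show cf (psE p) ((0 : ℕ) : ℤ) = _
      rw [cf_psE, PowerSeries.coeff_zero_eq_constantCoeff_apply]
      rfl
  rw [← h3, LinearEquiv.finrank_map_eq e₁, h1, h2]
  rfl

variable (g : P₁.D →ₗ[P₁.K] PowerSeries P₁.D)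

/-- The span of moved elements of a space lies where the moved elements lie. -/
theorem movedSpan_le {V : Submodule P₁.K P₁.D} {X : Submodule T.pt.K T.pt.D}
    (h : ∀ v ∈ V, T.ofS (psE (g v)) ∈ X) :
    letI := T.alg
    Conj.movedSpan (fun _ => rfl) g V ≤ X := by
  let _ := T.alg
  unfold Conj.movedSpan Conj.span
  refine Submodule.map_le_iff_le_comap.2 (Submodule.span_le.2 ?_)
  rintro _ ⟨x, hx, rfl⟩
  show Conj.move (fun _ => rfl) g (C 1 x) ∈ X
  rw [Conj.move_C]
  exact h x hx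

/-- **One more row over a space with residues in the linked motions.** -/
theorem exists_W_over (W₁ : Submodule P₁.K P₁.D) (hsol : Poly.ev T.pt.val (L.eqn j) = 0) (he : 0 < L.e j)
    (hd : L.e j ≤ (minpoly P₁.K (P₁.q L j)).natDegree)
    (hdeg : finrank T.pt.K (T.pt.scalars L j) ≤ finrank P₁.K (P₁.scalars L j))
    (hW : ∀ w ∈ W₁, Commute (P₁.q L j) w) (Z : Submodule T.pt.K T.pt.D)
    (hZc : ∀ z ∈ Z, Commute (T.pt.q L j) z)
    (hZ : ∀ z ∈ Z, (∀ m < 0, cf (T.toS z) m = 0) → cf (T.toS z) 0 ∈ W₁)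
    (hZL : ∀ z ∈ Z, (∀ m < 0, cf (T.toS z) m = 0) → cf (T.toS z) 0 ∈ P₁.scalars L j →
      ∃ z' ∈ Z, z' ∈ T.pt.scalars L j ∧ (∀ m < 0, cf (T.toS z') m = 0) ∧
        cf (T.toS z') 0 = cf (T.toS z) 0) :
    ∃ W : Submodule T.pt.K T.pt.D, Z ≤ W ∧ finrank T.pt.K W = finrank P₁.K W₁ ∧
      (∀ u ∈ W₁, ∃ w ∈ W, (∀ m < 0, cf (T.toS w) m = 0) ∧ cf (T.toS w) 0 = u) ∧
      (∀ u ∈ W₁ ⊓ P₁.scalars L j,
        ∃ w ∈ W ⊓ T.pt.scalars L j, (∀ m < 0, cf (T.toS w) m = 0) ∧ cf (T.toS w) 0 = u) ∧
      ∀ w ∈ W, T.pt.q L j * w = w * T.pt.q L j := by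
  let _ := T.alg
  let X := T.series Z
  let Y := T.series (T.pt.scalars L j)
  let Cc : Submodule P₁.K (PowerSeries P₁.D) :=
    { carrier := {p | Commute (T.qS L j) p}
      add_mem' := fun {p q} hp hq => Commute.add_right hp hq
      zero_mem' := Commute.zero_right _
      smul_mem' := fun t p hp => Commute.smul_right hp t }
  have hq : T.ofS (psE (T.qS L j)) = T.pt.q L j := (T.ev_pt (L.p j)).symm
  have hcomm : ∀ p, Commute (T.pt.q L j) (T.ofS (psE p)) → Commute (T.qS L j) p := fun p h => by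
    refine psE_injective ?_
    have h' : Commute (psE (T.qS L j)) (psE p) := by rw [← hq] at h; exact h
    rw [map_mul, map_mul]
    exact h'.eq
  have hint : ∀ p : PowerSeries P₁.D, (∀ m < 0, cf (T.toS (T.ofS (psE p))) m = 0) ∧
      cf (T.toS (T.ofS (psE p))) 0 = PowerSeries.constantCoeff p := fun p => by
    refine ⟨fun m hm => Conj.cf_psE_neg p hm, ?_⟩
    show cf (psE p) ((0 : ℕ) : ℤ) = _
    rw [cf_psE, PowerSeries.coeff_zero_eq_constantCoeff_apply]
  obtain ⟨g, hg', hgX, hgY, hgC⟩ := Sect.exists_adapted (ccL P₁) X Y Cc (P₁.scalars L j) W₁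
    (T.gen L j) (T.centLift L j) (T.gen_const L j) (fun x hx => by
      show T.ofS (psE (T.gen L j x)) ∈ T.pt.scalars L j
      have h := T.moved_scalars_le L j
        (show Conj.move (fun _ => rfl) (T.gen L j) (C 1 x) ∈ Conj.movedSpan (fun _ => rfl) (T.gen L j)
          (P₁.scalars L j) from ⟨_, Submodule.subset_span ⟨x, hx, rfl⟩, rfl⟩)
      rwa [Conj.move_C] at h)
    (fun p hp => hcomm p (hZc _ hp)) (fun p hp => hcomm p (Deletion.commute_scalars hp))
    (fun w hw => ⟨T.commute_centLift L j hsol w,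
      T.constantCoeff_centLift L j (der0_ne_zero P₁ L j he hd) (hW w hw)⟩)
    (fun p hp hpL => by
      obtain ⟨z', hz', hz'L, hi, he'⟩ := hZL _ hp (hint p).1 (by rw [(hint p).2]; exact hpL)
      have hp' := exists_psE_of_neg (T.toS z') hi
      refine ⟨PowerSeries.mk fun m : ℕ => cf (T.toS z') m, ?_, ?_, ?_⟩
      · show T.ofS (psE _) ∈ Z
        rw [hp']
        exact hz'
      · show T.ofS (psE _) ∈ T.pt.scalars L j
        rw [hp']
        exact hz'L
      · show PowerSeries.constantCoeff (PowerSeries.mk fun m : ℕ => cf (T.toS z') m) = PowerSeries.constantCoeff p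
        rw [← (hint p).2, ← he', PowerSeries.constantCoeff_mk]
        rfl)
  have hXW : (X.map (ccL P₁)) ≤ W₁ := by
    rintro _ ⟨p, hp, rfl⟩
    have h := hZ _ hp (hint p).1
    rw [(hint p).2] at h
    exact h
  have hf : FiniteDimensional (LaurentSeries P₁.K) (SkewLaurent (1 : RingAut P₁.D)) :=
    finiteDimensional_laurent fun _ => rfl
  let Z' : Submodule (LaurentSeries P₁.K) (SkewLaurent (1 : RingAut P₁.D)) := Z
  have hmv : Conj.movedSpan (fun _ => rfl) g (X.map (ccL P₁)) = Z' := by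
    refine Submodule.eq_of_le_of_finrank_le (S₂ := Z') (T.movedSpan_le g hgX) ?_
    rw [Conj.finrank_movedSpan (fun _ => rfl) g hg']
    exact (T.finrank_residue Z).ge
  let W : Submodule T.pt.K T.pt.D := Conj.movedSpan (fun _ => rfl) g W₁
  have hmem : ∀ u ∈ W₁, T.ofS (psE (g u)) ∈ W := fun u hu => by
    show psE (g u) ∈ Conj.movedSpan (fun _ => rfl) g W₁
    exact ⟨C 1 u, Submodule.subset_span ⟨u, hu, rfl⟩, Conj.move_C _ _ _⟩
  refine ⟨W, hmv.ge.trans (Submodule.map_mono (Conj.span_mono hXW)),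
    Conj.finrank_movedSpan (fun _ => rfl) g hg' W₁,
    fun u hu => ⟨_, hmem u hu, (hint _).1, (hint _).2.trans (hg' u)⟩,
    fun u hu => ⟨_, ⟨hmem u hu.1, hgY u hu.2⟩, (hint _).1, (hint _).2.trans (hg' u)⟩, ?_⟩
  let Q : Submodule T.pt.K T.pt.D := LinearMap.ker
    (LinearMap.mulLeft T.pt.K (T.pt.q L j) - LinearMap.mulRight T.pt.K (T.pt.q L j))
  have hQ : W ≤ Q := T.movedSpan_le g fun v hv => by
    refine LinearMap.mem_ker.2 (sub_eq_zero.2 ?_)
    show T.pt.q L j * _ = _ * T.pt.q L j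
    rw [← hq]
    exact ((hgC v hv : Commute (T.qS L j) (g v)).map psE).eq
  intro w hw
  exact sub_eq_zero.1 (LinearMap.mem_ker.1 (hQ hw))

end LaurData

end

end Vale.Agent.P199
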