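import Vale.Agent.P199.Lift.FitRank
import Vale.Agent.P199.LiftSym

/-!
P199: the symbol algebra as a base change: the coefficient of `1` pairs the monomials, lower rank bounds of pencils
survive, and the base change keeps the degrees and multiplies the linked dimensions by the number of monomials.
-/

namespace Vale.Agent.P199.LiftSeries

open Module

noncomputable section

variable {P P₁ : Pt} (E : Ext P P₁)

/-- The trace pairing of monomials `U ^ i V ^ j`. -/
theorem nonDeg_of_monomials {l : ℕ} [NeZero l] {ζ u v : P₁.K} {U V : P₁.Dˣ}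
    (hζ : IsPrimitiveRoot ζ l) (hVU : (V : P₁.D) * U = ζ • ((U : P₁.D) * V))
    (hU : (U : P₁.D) ^ l = algebraMap P₁.K P₁.D u) (hV : (V : P₁.D) ^ l = algebraMap P₁.K P₁.D v)
    (e : Fin E.m ≃ Fin l × Fin l) (hmon : ∀ k, E.mon k = pmon U V (e k)) : NonDeg E := by
  have hrange : Set.range (pmon U V (l := l)) = Set.range E.mon := by
    rw [show E.mon = pmon U V ∘ e from funext hmon, EquivLike.range_comp]
  have hone : e (one E) = 0 := by
    have h : E.mon (e.symm 0) = E.mon (one E) := by
      rw [hmon (e.symm 0), Equiv.apply_symm_apply, mon_one_eq]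
      simp [pmon]
    rw [← (indep_mon E).injective h, Equiv.apply_symm_apply]
  have hτ : ∀ p : Fin l × Fin l, tau E (pmon U V p) = if p = 0 then 1 else 0 := fun p => by
    have h := tau_mon E (e.symm p)
    rw [hmon, Equiv.apply_symm_apply] at h
    exact h.trans (if_congr (by rw [Equiv.symm_apply_eq, hone]) rfl rfl)
  intro x hx h
  refine trace_nondegenerate hζ hVU hU hV (tau E) hτ (hrange.symm ▸ hx) fun q => ?_
  have h' := h (e.symm q)
  rwa [hmon, Equiv.apply_symm_apply] at h'

theorem nonDeg_sym (S : SymData P) : NonDeg S.ext := by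
  let _ := S.algebra
  have := P.charZero
  have : NeZero S.l := ⟨S.pos.ne'⟩
  exact nonDeg_of_monomials S.ext (ζ := S.iK S.z)
    (u := HahnSeries.C (HahnSeries.single 1 (1 : P.K)))
    (v := HahnSeries.single 1 (1 : LaurentSeries P.K))
    (U := (symUu S.unit S.unit_central : S.pt.Dˣ))
    (V := (symVu S.unit S.unit_central : S.pt.Dˣ))
    (sym_primitive S.unit S.unit_order S.z rfl)
    (sym_relation S.unit S.unit_central S.pos S.unit_order S.z rfl fun _ => rfl)
    (symU_pow_scalar S.unit S.unit_central S.pos S.unit_order)
    (symV_pow_scalar S.unit S.unit_central S.pos S.unit_order)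
    finProdFinEquiv.symm (fun _ => rfl)

theorem rankSpec_sym (S : SymData P) : RankSpec S.ext.iK :=
  (rankSpec_C P.K).comp (rankSpec_C (LaurentSeries P.K))

/-- Independent old elements stay independent. -/
theorem linearIndependent_iD {ι : Type} [Fintype ι] {v : ι → P.D} (hv : LinearIndependent P.K v) :
    LinearIndependent P₁.K fun i => E.iD (v i) := by
  have h := (E.indep v hv).comp (fun i => (i, one E)) fun a b e => (Prod.ext_iff.1 e).1
  simpa [Function.comp_def, mon_one_eq] using h

include E in
/-- A base change does not lower the degree of a row. -/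
theorem finrank_scalars_le_ext (L : Listing) (j : ℕ) :
    finrank P.K (P.scalars L j) ≤ finrank P₁.K (P₁.scalars L j) := by
  have : Module.Free P.K (P.scalars L j) := Module.Free.of_divisionRing P.K (P.scalars L j)
  let b := Module.finBasis P.K (P.scalars L j)
  have hb : LinearIndependent P.K fun i => (b i : P.D) :=
    b.linearIndependent.map' (P.scalars L j).subtype (Submodule.ker_subtype _)
  have hi : LinearIndependent P₁.K fun i => (⟨E.iD (b i : P.D), iD_scalars E (b i).2⟩ : P₁.scalars L j) :=
    LinearIndependent.of_comp (P₁.scalars L j).subtype (linearIndependent_iD E hb)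
  simpa using hi.fintype_card_le_finrank

include E in
/-- Rows of full degree deform on every solved lift. -/
theorem hdeg_of {L : Listing} {n : ℕ} (T : LaurData P₁) (hsol : T.pt.Solves L n)
    (he : ∀ j < n, L.e j ≤ finrank P.K (P.scalars L j)) :
    ∀ j < n, finrank T.pt.K (T.pt.scalars L j) ≤ finrank P₁.K (P₁.scalars L j) := fun j hj =>
  ((Minimise.finrank_scalars_le T.pt (hsol j hj)).trans (he j hj)).trans (finrank_scalars_le_ext E L j)

variable {L : Listing} {n : ℕ} (r : Rows L n P)

/-- The linked motions of the base change have dimension the old one times the number of monomials. -/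
theorem finrank_baseRows_W (j : Fin n) :
    finrank P₁.K ((baseRows E r).W j) = E.m * finrank P.K (r.W j) := by
  have : Module.Free P.K (r.W j) := Module.Free.of_divisionRing P.K (r.W j)
  let b := Module.finBasis P.K (r.W j)
  have hb : LinearIndependent P.K fun i => (b i : P.D) :=
    b.linearIndependent.map' (r.W j).subtype (Submodule.ker_subtype _)
  have hspan : (baseRows E r).W j = Submodule.span P₁.K
      (Set.range fun z : Fin (finrank P.K (r.W j)) × Fin E.m => E.iD (b z.1 : P.D) * E.mon z.2) := by
    refine le_antisymm ?_ (Submodule.span_le.2 ?_)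
    · rintro _ ⟨x, rfl⟩
      rw [← (basis E).sum_repr x, map_sum]
      refine sum_mem fun z _ => ?_
      rw [map_smul, PJ_basis]
      refine Submodule.smul_mem _ _ ?_
      have hw : r.proj j (oldBasis P z.1) =
          ∑ i, b.repr ⟨r.proj j (oldBasis P z.1), r.proj_mem j _⟩ i • (b i : P.D) := by
        have h := congrArg Subtype.val (b.sum_repr ⟨r.proj j (oldBasis P z.1), r.proj_mem j _⟩)
        simpa only [Submodule.coe_sum, Submodule.coe_smul] using h.symm
      rw [hw, map_sum, Finset.sum_mul]
      refine sum_mem fun i _ => ?_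
      rw [iD_smul, smul_mul_assoc]
      exact Submodule.smul_mem _ _ (Submodule.subset_span ⟨(i, z.2), rfl⟩)
    · rintro _ ⟨z, rfl⟩
      refine ⟨E.iD (b z.1 : P.D) * E.mon z.2, ?_⟩
      rw [PJ_iD_mon, r.proj_self j _ (b z.1).2]
  rw [hspan, finrank_span_eq_card (E.indep _ hb), Fintype.card_prod, Fintype.card_fin,
    Fintype.card_fin, mul_comm]

end

end Vale.Agent.P199.LiftSeries
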