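import Vale.Agent.P199.Inv.Defs
import Vale.Agent.P199.Stage.PencilPair
import Vale.Agent.P199.Minimise.ArcRows
import Vale.Agent.P199.Lift.LiftRows

/-!
P199, arcs: what deformed rows keep. Surjectivity, the budget and the rank bound pass from the residue rows to the
deformed ones, the rank bound losing twice the drop of the identities.
-/

namespace Vale.Agent.P199

open Module SkewLaurent LaurentAlg

noncomputable section

namespace Rows

variable {L : Listing} {n : ℕ} {P : Pt} (r : Rows L n P)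

/-- The full row differentials as a map into the powers of `D`. -/
def Jfv : P.Dir (L.b n) →ₗ[P.K] (Fin n → P.D) :=
  LinearMap.pi fun j => (r.projF j).comp (P.dEq L (L.b n) j)

/-- The values of the full row differentials, inside the powers of `D`. -/
def inclF : ((j : Fin n) → ↥(r.W j ⊔ r.Pp j)) →ₗ[P.K] (Fin n → P.D) :=
  LinearMap.pi fun j => (r.W j ⊔ r.Pp j).subtype.comp (LinearMap.proj j)

theorem inclF_injective : Function.Injective r.inclF := fun _ _ h =>
  funext fun j => Subtype.ext (congrFun h j)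

theorem range_Jfv : LinearMap.range r.Jfv = (LinearMap.range r.Jf).map r.inclF := by
  rw [← LinearMap.range_comp]
  rfl

theorem finrank_range_Jfv :
    finrank P.K (LinearMap.range r.Jfv) = finrank P.K (LinearMap.range r.Jf) := by
  rw [range_Jfv]
  exact (Submodule.equivMapOfInjective r.inclF r.inclF_injective _).finrank_eq.symm

theorem finrank_T_add : finrank P.K r.T + finrank P.K (LinearMap.range r.J) = finrank P.K (Amb P) := by
  rw [add_comm]
  exact r.J.finrank_range_add_finrank_ker

/-- An amount of tangents is spanned by the radical against a smaller space and a complement of that space. -/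
theorem finrank_radical (B : Amb P →ₗ[P.K] Amb P →ₗ[P.K] P.K) {S V T : Submodule P.K (Amb P)}
    (hVT : V ≤ T) (hBV : ∀ u ∈ S, ∀ v ∈ V, B u v = 0) :
    ∃ S₁ ≤ S, (∀ u ∈ S₁, ∀ v ∈ T, B u v = 0) ∧
      finrank P.K S + finrank P.K V ≤ finrank P.K S₁ + finrank P.K T := by
  let f : S →ₗ[P.K] Dual P.K T := LinearMap.mk₂ P.K (fun (u : S) (v : T) => B u v)
    (fun u u' v => by simp) (fun c u v => by simp) (fun u v v' => by simp) (fun c u v => by simp)
  refine ⟨(LinearMap.ker f).map S.subtype, Submodule.map_subtype_le _ _, ?_, ?_⟩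
  · rintro _ ⟨u, hu, rfl⟩ v hv
    exact LinearMap.congr_fun (LinearMap.mem_ker.1 hu) ⟨v, hv⟩
  · rw [Submodule.finrank_map_subtype_eq]
    have h1 := f.finrank_range_add_finrank_ker
    have h2 : LinearMap.range f ≤ (V.comap T.subtype).dualAnnihilator := by
      rintro _ ⟨u, rfl⟩
      exact (Submodule.mem_dualAnnihilator _).2 fun v hv => hBV u u.2 v hv
    have h3 := Submodule.finrank_mono h2
    have h4 := Subspace.finrank_add_finrank_dualAnnihilator_eq (V.comap T.subtype)
    have h5 : finrank P.K (V.comap T.subtype) = finrank P.K V :=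
      (Submodule.comapSubtypeEquivOfLe hVT).finrank_eq
    omega

end Rows

namespace LaurData

variable {P : Pt} (T : LaurData P) {L : Listing} {n : ℕ} (r : Rows L n P)
  (hdeg : ∀ j < n, finrank T.pt.K (T.pt.scalars L j) ≤ finrank P.K (P.scalars L j))

theorem budget_deform (hb : ∑ j, finrank P.K (r.W j) < finrank P.K P.D) :
    ∑ j, finrank T.pt.K ((T.deform L r hdeg).W j) < finrank T.pt.K T.pt.D := by
  simp only [T.finrank_deform_W r hdeg, T.finrank_pt]
  exact hb

/-- The differential in the direction of series is the differential along the series point. -/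
theorem toS_d1 {u : Var → T.pt.D} {v : Var → PowerSeries P.D} (hu : ∀ z, u z = T.ofS (psE (v z)))
    (p : Poly) : T.toS (Poly.d1 T.pt.val u p) = psE (Poly.d1 T.ser v p) := by
  have h := Poly.map_d1 T.ser v (psE (D := P.D)) 1 (fun a => by rw [mul_one, one_mul]) p
  simp only [mul_one] at h
  rw [h, funext hu, funext T.psE_ser]
  rfl

/-- The second differential in directions of series. -/
theorem toS_d2 {u u' : Var → T.pt.D} {v v' : Var → PowerSeries P.D}
    (hu : ∀ z, u z = T.ofS (psE (v z))) (hu' : ∀ z, u' z = T.ofS (psE (v' z))) (p : Poly) :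
    T.toS (Poly.d2 T.pt.val u u' p) = psE (Poly.d2 T.ser v v' p) := by
  have h := Poly.map_d2 T.ser v v' (psE (D := P.D)) 1 1 (fun a => by rw [mul_one, one_mul])
    (fun a => by rw [mul_one, one_mul]) p
  simp only [mul_one] at h
  rw [h, funext hu, funext hu', funext T.psE_ser]
  rfl

theorem cf_dEq_const {N : ℕ} (w : P.Dir N) (j : ℕ) :
    (∀ m < 0, cf (T.toS (T.pt.dEq L N j (T.cd w))) m = 0) ∧
      cf (T.toS (T.pt.dEq L N j (T.cd w))) 0 = P.dEq L N j w := by
  have h := T.dEq_coeffs (L := L) (T.cd w) w 0 (fun z => by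
    rw [T.dirVal_cd]
    refine ⟨fun m hm => by rw [cf_C, if_neg hm.ne], by rw [cf_C, if_pos rfl], ?_⟩
    rw [cf_C, if_neg one_ne_zero]
    cases z with
    | inl c => rfl
    | inr i => by_cases hi : i < N <;> simp [Pt.dirVal, hi]) j
  exact ⟨h.1, h.2.1⟩

/-- Deformed rows keep surjectivity. -/
theorem deform_surj_arc (hs : Function.Surjective r.Jf) :
    Function.Surjective (T.deform L r hdeg).Jf := by
  let _ := T.alg
  have halg : ∀ z, algebraMap (LaurentSeries P.K) (SkewLaurent (1 : RingAut P.D)) z =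
      laurentScalarHom z := fun _ => rfl
  have : FiniteDimensional (LaurentSeries P.K) (SkewLaurent (1 : RingAut P.D)) :=
    finiteDimensional_laurent halg
  set r' := T.deform L r hdeg with hr'
  let f : (Bool → SkewLaurent (1 : RingAut P.D)) × (Fin (L.b n) → LaurentSeries P.K) →ₗ[LaurentSeries P.K]
      (Fin n → SkewLaurent (1 : RingAut P.D)) := r'.Jfv
  let S : Submodule (LaurentSeries P.K) (Fin n → SkewLaurent (1 : RingAut P.D)) := LinearMap.range f
  have hle : LinearMap.range r.Jfv ≤ LeadE.lead halg S := by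
    rintro _ ⟨w, rfl⟩
    have hc := fun j : Fin n => Conj.conj_coeffs halg (T.gen L j) (T.gen_const L j) (r.projF j)
      (a := T.toS (T.pt.dEq L (L.b n) j (T.cd w))) (T.cf_dEq_const w j).1
    exact ⟨fun j => T.toS (r'.Jfv (T.cd w) j), LinearMap.mem_range.2 ⟨T.cd w, rfl⟩,
      fun j m hm => (hc j).1 m hm, funext fun j => (hc j).2.1.trans
        (congrArg (r.projF j) (T.cf_dEq_const w j).2)⟩
  have h1 := Submodule.finrank_mono hle
  rw [LeadE.finrank_lead halg S, r.finrank_range_Jfv, LinearMap.range_eq_top.2 hs, finrank_top,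
    Module.finrank_pi_fintype] at h1
  have h2 : finrank (LaurentSeries P.K) S = finrank T.pt.K (LinearMap.range r'.Jf) :=
    Eq.trans (by rfl) r'.finrank_range_Jfv
  rw [h2] at h1
  refine LinearMap.range_eq_top.1 (Submodule.eq_top_of_finrank_eq (le_antisymm (Submodule.finrank_le _) ?_))
  rw [Module.finrank_pi_fintype]
  exact le_trans (le_of_eq (Finset.sum_congr rfl fun j _ => T.finrank_deform_WP r hdeg j)) h1

/-- An integral direction, as series. -/
def intDir (u : Bool → SkewLaurent (1 : RingAut P.D)) : Var → PowerSeries P.D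
  | Sum.inl a => PowerSeries.mk fun k : ℕ => cf (u a) k
  | Sum.inr _ => 0

theorem dirVal_intDir {u : Rows.Amb T.pt} (hu : LeadE.IntV fun a => T.toS (u a)) (z : Var) :
    T.pt.dirVal (N := L.b n) (u, 0) z = T.ofS (psE (intDir (fun a => T.toS (u a)) z)) := by
  cases z with
  | inl a => exact (exists_psE_of_neg (T.toS (u a)) (hu a)).symm
  | inr i =>
    have h1 : T.pt.dirVal (N := L.b n) (u, 0) (Sum.inr i) = 0 := by
      by_cases hi : i < L.b n <;> simp [Pt.dirVal, hi]
    rw [h1]
    exact (map_zero (psE (D := P.D))).symm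

theorem cf_intDir (u : Bool → SkewLaurent (1 : RingAut P.D)) :
    Poly.cf 0 (intDir u) = P.dirVal (N := L.b n) (LeadE.res 0 u, 0) := by
  funext z
  cases z with
  | inl a => simp only [Poly.cf, intDir, PowerSeries.coeff_mk]; rfl
  | inr i => by_cases hi : i < L.b n <;> simp [Poly.cf, intDir, Pt.dirVal, hi]

theorem cf_dEq_int {u : Rows.Amb T.pt} (hu : LeadE.IntV fun a => T.toS (u a)) (j : ℕ) :
    (∀ m < 0, cf (T.toS (T.pt.dEq L (L.b n) j (u, 0))) m = 0) ∧
      cf (T.toS (T.pt.dEq L (L.b n) j (u, 0))) 0 =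
        P.dEq L (L.b n) j (LeadE.res 0 (fun a => T.toS (u a)), 0) := by
  have e : T.toS (T.pt.dEq L (L.b n) j (u, 0)) =
      psE (Poly.d1 T.ser (intDir fun a => T.toS (u a)) (L.eqn j)) :=
    T.toS_d1 (T.dirVal_intDir hu) _
  refine ⟨fun m hm => by rw [e]; exact Conj.cf_psE_neg _ hm, ?_⟩
  rw [e, show (0 : ℤ) = ((0 : ℕ) : ℤ) from rfl, cf_psE, Poly.coeff_zero_d1, T.cf_zero_ser,
    cf_intDir (L := L) (n := n)]
  rfl

theorem cf_d2_int {u u' : Rows.Amb T.pt} (hu : LeadE.IntV fun a => T.toS (u a))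
    (hu' : LeadE.IntV fun a => T.toS (u' a)) (j : ℕ) :
    (∀ m < 0, cf (T.toS (Poly.d2 T.pt.val (T.pt.dirVal (N := L.b n) (u, 0))
      (T.pt.dirVal (N := L.b n) (u', 0)) (L.eqn j))) m = 0) ∧
      cf (T.toS (Poly.d2 T.pt.val (T.pt.dirVal (N := L.b n) (u, 0))
      (T.pt.dirVal (N := L.b n) (u', 0)) (L.eqn j))) 0 =
        Poly.d2 P.val (P.dirVal (N := L.b n) (LeadE.res 0 (fun a => T.toS (u a)), 0))
          (P.dirVal (N := L.b n) (LeadE.res 0 (fun a => T.toS (u' a)), 0)) (L.eqn j) := by
  have e := T.toS_d2 (T.dirVal_intDir (L := L) (n := n) hu) (T.dirVal_intDir (L := L) (n := n) hu')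
    (L.eqn j)
  refine ⟨fun m hm => by rw [e]; exact Conj.cf_psE_neg _ hm, ?_⟩
  rw [e, show (0 : ℤ) = ((0 : ℕ) : ℤ) from rfl, cf_psE, Poly.coeff_zero_d2, T.cf_zero_ser,
    cf_intDir (L := L) (n := n), cf_intDir (L := L) (n := n)]
  rfl

/-- A covector of the deformed rows has a leading covector. -/
theorem exists_lead_covector {y : Dual T.pt.K ((j : Fin n) → (T.deform L r hdeg).W j)} (hy : y ≠ 0) :
    ∃ y₀ : Dual P.K ((j : Fin n) → r.W j), y₀ ≠ 0 ∧
      ∀ a : Fin n → T.pt.D, (∀ j, ∀ m < 0, cf (T.toS (a j)) m = 0) →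
        y (fun j => ⟨(T.deform L r hdeg).proj j (a j), (T.deform L r hdeg).proj_mem j _⟩) = 0 →
          y₀ (fun j => ⟨r.proj j (cf (T.toS (a j)) 0), r.proj_mem j _⟩) = 0 := by
  classical
  let _ := T.alg
  have halg : ∀ z, algebraMap (LaurentSeries P.K) (SkewLaurent (1 : RingAut P.D)) z =
      laurentScalarHom z := fun _ => rfl
  let r' := T.deform L r hdeg
  let Ψ₀ : (Fin n → T.pt.D) →ₗ[T.pt.K] T.pt.K :=
    y.comp (LinearMap.pi fun j =>
      ((r'.proj j).codRestrict (r'.W j) (r'.proj_mem j)).comp (LinearMap.proj j))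
  let Ψ : (Fin n → SkewLaurent (1 : RingAut P.D)) →ₗ[LaurentSeries P.K] LaurentSeries P.K := Ψ₀
  have hΨy : ∀ a : Fin n → T.pt.D, Ψ (fun j => T.toS (a j)) =
      y (fun j => ⟨r'.proj j (a j), r'.proj_mem j _⟩) := fun _ => rfl
  have hΨP : ∀ f, Ψ (fun j => T.toS (r'.proj j (T.ofS (f j)))) = Ψ f := fun f => by
    rw [hΨy]
    exact congrArg y (funext fun j => Subtype.ext (r'.proj_self j _ (r'.proj_mem j _)))
  let b := Module.finBasis P.K P.D
  let Φ := LeadE.vComb (ι := Fin n) halg b
  let z : Fin n × Fin (finrank P.K P.D) → LaurentSeries P.K := fun q => Ψ (Φ (Pi.single q 1))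
  have hlin : ∀ x, Ψ (Φ x) = ∑ q, x q * z q := fun x => by
    show Ψ.comp Φ.toLinearMap x = _
    conv_lhs => rw [← Finset.univ_sum_single x]
    rw [map_sum]
    refine Finset.sum_congr rfl fun q _ => ?_
    rw [show (Pi.single q (x q) : Fin n × Fin (finrank P.K P.D) → LaurentSeries P.K) =
      x q • Pi.single q 1 by rw [← Pi.single_smul, smul_eq_mul, mul_one]]
    rw [map_smul, smul_eq_mul]
    rfl
  have hz : z ≠ 0 := fun h => hy (LinearMap.ext fun v => by
    have h1 : Ψ (fun j => T.toS (v j : T.pt.D)) = 0 := by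
      obtain ⟨x, hx⟩ := Φ.surjective fun j => T.toS (v j : T.pt.D)
      rw [← hx, hlin, h]
      simp
    rw [hΨy] at h1
    rw [show v = fun j => (⟨r'.proj j (v j), r'.proj_mem j _⟩ : r'.W j) from
      funext fun j => Subtype.ext (r'.proj_self j _ (v j).2).symm]
    exact h1)
  obtain ⟨t, ht, hint, h0⟩ := LeadE.exists_normalise z hz
  let φ : (Fin n → P.D) →ₗ[P.K] P.K :=
    { toFun := fun x => ∑ q : Fin n × Fin (finrank P.K P.D), b.repr (x q.1) q.2 * (t * z q).coeff 0
      map_add' := fun x x' => by simp [add_mul, Finset.sum_add_distrib]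
      map_smul' := fun c x => by simp [Finset.mul_sum, mul_assoc] }
  have hres : ∀ f, LeadE.IntV f → (t * Ψ f).coeff 0 = φ (LeadE.res 0 f) := by
    intro f hf
    obtain ⟨p, rfl⟩ := LeadE.exists_up_of_intV halg b hf
    have hp : ∀ q, b.repr (LeadE.res 0 (Φ (Vale.P199.Valued.up p)) q.1) q.2 =
        PowerSeries.constantCoeff (p q) := fun q => by
      rw [(LeadE.intV_vComb_up halg b p).2]
      exact congrFun (b.repr_sum_self _) q.2
    rw [hlin, Finset.mul_sum, HahnSeries.coeff_sum]
    refine Finset.sum_congr rfl fun q _ => ?_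
    rw [hp, mul_left_comm]
    obtain ⟨s, hs⟩ : ∃ s : PowerSeries P.K, HahnSeries.ofPowerSeries ℤ P.K s = t * z q :=
      ⟨PowerSeries.mk fun k : ℕ => (t * z q).coeff k, HahnSeries.ext (funext fun m => by
        by_cases hm : 0 ≤ m
        · obtain ⟨k, rfl⟩ := Int.eq_ofNat_of_zero_le hm
          rw [HahnSeries.ofPowerSeries_apply_coeff, PowerSeries.coeff_mk]
        · rw [hint q m (by omega), HahnSeries.ofPowerSeries_apply,
            HahnSeries.embDomain_of_notMem_range]
          rintro ⟨k, hk⟩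
          exact hm (hk ▸ Int.natCast_nonneg k))⟩
    rw [Vale.P199.Valued.up_apply, ← hs, ← map_mul, show (0 : ℤ) = ((0 : ℕ) : ℤ) from rfl,
      HahnSeries.ofPowerSeries_apply_coeff, HahnSeries.ofPowerSeries_apply_coeff,
      PowerSeries.coeff_zero_eq_constantCoeff_apply, PowerSeries.coeff_zero_eq_constantCoeff_apply,
      map_mul]
  have hproj : ∀ x, φ (fun j => r.proj j (x j)) = φ x := by
    intro x
    have hc := fun j : Fin n => Conj.conj_coeffs halg (T.gen L j) (T.gen_const L j) (r.proj j)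
      (a := C 1 (x j)) fun m hm => by rw [cf_C, if_neg hm.ne]
    have e2 := hres _ (LeadE.intV_cVec x)
    rw [LeadE.res_cVec] at e2
    rw [← e2, ← hΨP (LeadE.cVec x), hres (fun j => T.toS (r'.proj j (T.ofS (LeadE.cVec x j))))
      fun j => (hc j).1]
    refine congrArg φ (funext fun j => ?_)
    exact ((hc j).2.1.trans (congrArg (r.proj j) (congrFun (LeadE.res_cVec x) j))).symm
  let incl : ((j : Fin n) → r.W j) →ₗ[P.K] (Fin n → P.D) :=
    LinearMap.pi fun j => (r.W j).subtype.comp (LinearMap.proj j)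
  refine ⟨φ.comp incl, fun e => h0 (funext fun q => ?_), fun a hint' h => ?_⟩
  · have h1 : φ (fun j => r.proj j ((Pi.single q.1 (b q.2) : Fin n → P.D) j)) = 0 :=
      LinearMap.congr_fun e fun j => ⟨_, r.proj_mem j ((Pi.single q.1 (b q.2) : Fin n → P.D) j)⟩
    rw [hproj] at h1
    have h2 : φ (Pi.single q.1 (b q.2)) = (t * z q).coeff 0 := by
      show ∑ q' : Fin n × Fin (finrank P.K P.D), _ = _
      rw [Finset.sum_eq_single q]
      · simp
      · intro q' _ hne
        by_cases h3 : q'.1 = q.1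
        · have h4 : q.2 ≠ q'.2 := fun h4 => hne (Prod.ext h3 h4.symm)
          simp [h3, Finsupp.single_eq_of_ne h4.symm]
        · simp [Pi.single_eq_of_ne h3]
      · simp
    exact h2.symm.trans h1
  · show φ (fun j => r.proj j (cf (T.toS (a j)) 0)) = 0
    rw [hproj]
    refine Eq.trans (hres (fun j => T.toS (a j)) hint').symm ?_
    rw [hΨy, h]
    exact (congrArg (fun s : LaurentSeries P.K => s.coeff 0) (mul_zero t)).trans HahnSeries.coeff_zero

/-- The rank bound passes to deformed rows, losing twice the drop of the identities. -/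
theorem rankGE_deform {R : ℕ} (hR : r.RankGE R) {δ : ℕ}
    (hδ : r.corank = (T.deform L r hdeg).corank + δ) :
    (T.deform L r hdeg).RankGE (R - 2 * δ) := by
  let _ := T.alg
  have halg : ∀ z, algebraMap (LaurentSeries P.K) (SkewLaurent (1 : RingAut P.D)) z =
      laurentScalarHom z := fun _ => rfl
  have : FiniteDimensional (LaurentSeries P.K) (SkewLaurent (1 : RingAut P.D)) :=
    finiteDimensional_laurent halg
  intro y hy hy0 S hS hform
  set r' := T.deform L r hdeg with hr'
  obtain ⟨y₀, hy₀, hlead⟩ := T.exists_lead_covector r hdeg hy0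
  let S' : Submodule (LaurentSeries P.K) (Bool → SkewLaurent (1 : RingAut P.D)) := S
  let T' : Submodule (LaurentSeries P.K) (Bool → SkewLaurent (1 : RingAut P.D)) := r'.T
  let S₀ : Submodule P.K (Rows.Amb P) := LeadE.lead halg S'
  let T₀ : Submodule P.K (Rows.Amb P) := LeadE.lead halg T'
  have hS₀ : finrank P.K S₀ = finrank T.pt.K S := LeadE.finrank_lead halg S'
  have hT₀ : finrank P.K T₀ = finrank T.pt.K r'.T := LeadE.finrank_lead halg T'
  have hyY : y₀ ∈ r.Y := by
    refine (Submodule.mem_dualAnnihilator _).2 ?_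
    rintro _ ⟨b, rfl⟩
    have hb : LeadE.IntV fun a => T.toS (T.ofS (C 1 (b a))) := fun a m hm => by
      show cf (C 1 (b a)) m = 0
      rw [cf_C, if_neg hm.ne]
    have h := hlead (fun j => T.pt.dEq L (L.b n) j (fun a => T.ofS (C 1 (b a)), 0))
      (fun j => (T.cf_dEq_int hb j).1) ((Submodule.mem_dualAnnihilator _).1 hy _ ⟨_, rfl⟩)
    refine Eq.trans (congrArg y₀ (funext fun j => Subtype.ext ?_)) h
    show r.proj j _ = r.proj j _
    rw [(T.cf_dEq_int hb j).2, show LeadE.res 0 (fun a => T.toS (T.ofS (C 1 (b a)))) = b from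
      funext fun a => (cf_C _ _ _).trans (if_pos rfl)]
    rfl
  have hTT : T₀ ≤ r.T := by
    rintro x ⟨u, hu, hint, rfl⟩
    let w : Rows.Amb T.pt := u
    refine LinearMap.mem_ker.2 (funext fun j => Subtype.ext ?_)
    have hc := Conj.conj_coeffs halg (T.gen L j) (T.gen_const L j) (r.proj j)
      (a := T.toS (T.pt.dEq L (L.b n) j (w, 0))) (T.cf_dEq_int (u := w) hint j).1
    have h0 : r'.proj j (T.pt.dEq L (L.b n) j (w, 0)) = 0 :=
      congrArg Subtype.val (congrFun (LinearMap.mem_ker.1 (show w ∈ r'.T from hu)) j)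
    show r.proj j (P.dEq L (L.b n) j (LeadE.res 0 (fun a => T.toS (w a)), 0)) = 0
    rw [← (T.cf_dEq_int (u := w) hint j).2, ← hc.2.1]
    show cf (T.toS (r'.proj j (T.pt.dEq L (L.b n) j (w, 0)))) 0 = 0
    rw [h0]
    exact map_zero evalOne
  let B : Rows.Amb P →ₗ[P.K] Rows.Amb P →ₗ[P.K] P.K :=
    LinearMap.mk₂ P.K (fun u v => r.form y₀ u v)
      (fun u u' v => by
        show y₀ (r.quad (u + u') v) = y₀ (r.quad u v) + y₀ (r.quad u' v)
        rw [← map_add]
        exact congrArg y₀ (funext fun j => Subtype.ext (by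
          simp only [Rows.quad, Pi.add_apply, Submodule.coe_add, Rows.dirVal_amb_add,
            (P.d2_bilin _ _ _ _ 1 _).1, map_add])))
      (fun c u v => by
        show y₀ (r.quad (c • u) v) = c • y₀ (r.quad u v)
        rw [← map_smul]
        exact congrArg y₀ (funext fun j => Subtype.ext (by
          simp only [Rows.quad, Pi.smul_apply, SetLike.val_smul, Rows.dirVal_amb_smul,
            (P.d2_bilin _ _ 0 _ c _).2.2.1, map_smul])))
      (fun u v v' => by
        show y₀ (r.quad u (v + v')) = y₀ (r.quad u v) + y₀ (r.quad u v')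
        rw [← map_add]
        exact congrArg y₀ (funext fun j => Subtype.ext (by
          simp only [Rows.quad, Pi.add_apply, Submodule.coe_add, Rows.dirVal_amb_add,
            (P.d2_bilin _ _ _ _ 1 _).2.1, map_add])))
      (fun c u v => by
        show y₀ (r.quad u (c • v)) = c • y₀ (r.quad u v)
        rw [← map_smul]
        exact congrArg y₀ (funext fun j => Subtype.ext (by
          simp only [Rows.quad, Pi.smul_apply, SetLike.val_smul, Rows.dirVal_amb_smul,
            (P.d2_bilin _ _ 0 _ c _).2.2.2, map_smul])))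
  have hBV : ∀ x ∈ S₀, ∀ x' ∈ T₀, B x x' = 0 := by
    rintro _ ⟨u, hu, hui, rfl⟩ _ ⟨v, hv, hvi, rfl⟩
    let p : Rows.Amb T.pt := u
    let p' : Rows.Amb T.pt := v
    have h := hlead (fun j => Poly.d2 T.pt.val (T.pt.dirVal (N := L.b n) (p, 0))
      (T.pt.dirVal (N := L.b n) (p', 0)) (L.eqn j)) (fun j => (T.cf_d2_int (u := p) (u' := p') hui hvi j).1)
      (hform p hu p' hv)
    refine Eq.trans ?_ h
    refine congrArg y₀ (funext fun j => Subtype.ext ?_)
    exact congrArg (r.proj j) (T.cf_d2_int (u := p) (u' := p') hui hvi j).2.symm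
  obtain ⟨S₁, hle, hrad, hdim⟩ := Rows.finrank_radical B hTT hBV
  have hS₀T : S₀ ≤ r.T := fun x hx => by
    obtain ⟨u, hu, hi, rfl⟩ := hx
    exact hTT ⟨u, hS hu, hi, rfl⟩
  have h1 := hR y₀ hyY hy₀ S₁ (hle.trans hS₀T) hrad
  have h2 := r.finrank_T_add
  have h3 := r'.finrank_T_add
  have h4 := r.corank_add_range
  have h5 := r'.corank_add_range
  have h6 : finrank T.pt.K (Rows.Amb T.pt) = finrank P.K (Rows.Amb P) := by
    rw [Module.finrank_pi_fintype, Module.finrank_pi_fintype, T.finrank_pt]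
  have h7 : finrank T.pt.K ((j : Fin n) → r'.W j) = finrank P.K ((j : Fin n) → r.W j) := by
    rw [Module.finrank_pi_fintype, Module.finrank_pi_fintype]
    exact Finset.sum_congr rfl fun j _ => T.finrank_deform_W r hdeg j
  have h8 : finrank P.K T₀ ≤ finrank P.K r.T := Submodule.finrank_mono hTT
  have h9 : finrank T.pt.K S ≤ finrank T.pt.K r'.T := Submodule.finrank_mono hS
  omega

/-- The rank transfers along an arc. -/
theorem rankTransfer_deform (hc : (T.deform L r hdeg).corank ≤ r.corank) :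
    Inv.RankTransfer L ⟨P, r⟩ (⟨T.pt, T.deform L r hdeg⟩ : Stg L n) := by
  intro R hR hrank
  refine ⟨R - 2 * (r.corank - (T.deform L r hdeg).corank), ?_,
    T.rankGE_deform r hdeg hrank (δ := r.corank - (T.deform L r hdeg).corank) (by omega), ?_⟩
  · show 12 * (T.deform L r hdeg).corank ≤ _
    have h : 12 * r.corank ≤ R := hR
    omega
  · show (R - 12 * r.corank) * finrank T.pt.K T.pt.D ≤ _ * finrank P.K P.D
    rw [T.finrank_pt]
    refine Nat.mul_le_mul_right _ ?_
    have h : 12 * r.corank ≤ R := hR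
    show R - 12 * r.corank ≤ _ - 12 * (T.deform L r hdeg).corank
    omega

end LaurData

end

end Vale.Agent.P199
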