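import Vale.Agent.P199.Lift.Fit
import Vale.Agent.P199.Lift.LiftForms
import Vale.Agent.P199.Lift.ArcRank

/-!
P199: rows fitting over a base change, on the first order of a lift: the full differential is onto, the number of
identities does not grow, and the forms of the surviving identities keep a rank proportional to the degree.
-/

namespace Vale.Agent.P199

open Module SkewLaurent LaurentAlg

noncomputable section

/-- A covector of fitting rows has a leading covector. -/
theorem Rows.FitOver.exists_lead_covector {L : Listing} {n : ℕ} {P : Pt} {T : LaurData P} {r : Rows L n P}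
    {r' : Rows L n T.pt} (hF : Rows.FitOver T r r') {y : Dual T.pt.K ((j : Fin n) → r'.W j)} (hy : y ≠ 0) :
    ∃ y₀ : Dual P.K ((j : Fin n) → r.W j), y₀ ≠ 0 ∧
      ∀ a : Fin n → T.pt.D, (∀ j, ∀ m < 0, cf (T.toS (a j)) m = 0) →
        y (fun j => ⟨r'.proj j (a j), r'.proj_mem j _⟩) = 0 →
          y₀ (fun j => ⟨r.proj j (cf (T.toS (a j)) 0), r.proj_mem j _⟩) = 0 := by
  classical
  let _ := T.alg
  have halg : ∀ z, algebraMap (LaurentSeries P.K) (SkewLaurent (1 : RingAut P.D)) z =
      laurentScalarHom z := fun _ => rfl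
  let Ψ₀ : (Fin n → T.pt.D) →ₗ[T.pt.K] T.pt.K :=
    y.comp (LinearMap.pi fun j =>
      ((r'.proj j).codRestrict (r'.W j) (r'.proj_mem j)).comp (LinearMap.proj j))
  let Ψ : (Fin n → SkewLaurent (1 : RingAut P.D)) →ₗ[LaurentSeries P.K] LaurentSeries P.K := Ψ₀
  have hΨy : ∀ a : Fin n → T.pt.D, Ψ (fun j => T.toS (a j)) =
      y (fun j => ⟨r'.proj j (a j), r'.proj_mem j _⟩) := fun _ => rfl
  have hΨP : ∀ f, Ψ (fun j => T.toS (r'.proj j (T.ofS (f j)))) = Ψ f := fun f => by
    rw [hΨy]
    exact congrArg y (funext fun j => Subtype.ext (r'.proj_self j _ (r'.proj_mem j _)))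
  let b := Module.finBasis P.K P.D
  let Φ := LeadE.vComb (ι := Fin n) halg b
  let z : Fin n × Fin (finrank P.K P.D) → LaurentSeries P.K := fun q => Ψ (Φ (Pi.single q 1))
  have hlin : ∀ x, Ψ (Φ x) = ∑ q, x q * z q := fun x => by
    show Ψ.comp Φ.toLinearMap x = _
    conv_lhs => rw [← Finset.univ_sum_single x]
    rw [map_sum]
    refine Finset.sum_congr rfl fun q _ => ?_
    rw [show (Pi.single q (x q) : Fin n × Fin (finrank P.K P.D) → LaurentSeries P.K) =
      x q • Pi.single q 1 by rw [← Pi.single_smul, smul_eq_mul, mul_one]]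
    rw [map_smul, smul_eq_mul]
    rfl
  have hz : z ≠ 0 := fun h => hy (LinearMap.ext fun v => by
    have h1 : Ψ (fun j => T.toS (v j : T.pt.D)) = 0 := by
      obtain ⟨x, hx⟩ := Φ.surjective fun j => T.toS (v j : T.pt.D)
      rw [← hx, hlin, h]
      simp
    rw [hΨy] at h1
    rw [show v = fun j => (⟨r'.proj j (v j), r'.proj_mem j _⟩ : r'.W j) from
      funext fun j => Subtype.ext (r'.proj_self j _ (v j).2).symm]
    exact h1)
  obtain ⟨t, ht, hint, h0⟩ := LeadE.exists_normalise z hz
  let φ : (Fin n → P.D) →ₗ[P.K] P.K :=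
    { toFun := fun x => ∑ q : Fin n × Fin (finrank P.K P.D), b.repr (x q.1) q.2 * (t * z q).coeff 0
      map_add' := fun x x' => by simp [add_mul, Finset.sum_add_distrib]
      map_smul' := fun c x => by simp [Finset.mul_sum, mul_assoc] }
  have hres : ∀ f, LeadE.IntV f → (t * Ψ f).coeff 0 = φ (LeadE.res 0 f) := by
    intro f hf
    obtain ⟨p, rfl⟩ := LeadE.exists_up_of_intV halg b hf
    have hp : ∀ q, b.repr (LeadE.res 0 (Φ (Vale.P199.Valued.up p)) q.1) q.2 =
        PowerSeries.constantCoeff (p q) := fun q => by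
      rw [(LeadE.intV_vComb_up halg b p).2]
      exact congrFun (b.repr_sum_self _) q.2
    rw [hlin, Finset.mul_sum, HahnSeries.coeff_sum]
    refine Finset.sum_congr rfl fun q _ => ?_
    rw [hp, mul_left_comm]
    obtain ⟨s, hs⟩ : ∃ s : PowerSeries P.K, HahnSeries.ofPowerSeries ℤ P.K s = t * z q :=
      ⟨PowerSeries.mk fun k : ℕ => (t * z q).coeff k, HahnSeries.ext (funext fun m => by
        by_cases hm : 0 ≤ m
        · obtain ⟨k, rfl⟩ := Int.eq_ofNat_of_zero_le hm
          rw [HahnSeries.ofPowerSeries_apply_coeff, PowerSeries.coeff_mk]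
        · rw [hint q m (by omega), HahnSeries.ofPowerSeries_apply,
            HahnSeries.embDomain_of_notMem_range]
          rintro ⟨k, hk⟩
          exact hm (hk ▸ Int.natCast_nonneg k))⟩
    rw [Vale.P199.Valued.up_apply, ← hs, ← map_mul, show (0 : ℤ) = ((0 : ℕ) : ℤ) from rfl,
      HahnSeries.ofPowerSeries_apply_coeff, HahnSeries.ofPowerSeries_apply_coeff,
      PowerSeries.coeff_zero_eq_constantCoeff_apply, PowerSeries.coeff_zero_eq_constantCoeff_apply,
      map_mul]
  have hproj : ∀ x, φ (fun j => r.proj j (x j)) = φ x := by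
    intro x
    have hc := fun j : Fin n => hF.proj_int j (T.ofS (C 1 (x j))) fun m hm => by
      show cf (C 1 (x j)) m = 0
      rw [cf_C, if_neg hm.ne]
    have e2 := hres _ (LeadE.intV_cVec x)
    rw [LeadE.res_cVec] at e2
    rw [← e2, ← hΨP (LeadE.cVec x), hres (fun j => T.toS (r'.proj j (T.ofS (LeadE.cVec x j))))
      fun j => (hc j).1]
    refine congrArg φ (funext fun j => ?_)
    exact ((hc j).2.trans (congrArg (r.proj j) (congrFun (LeadE.res_cVec x) j))).symm
  let incl : ((j : Fin n) → r.W j) →ₗ[P.K] (Fin n → P.D) :=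
    LinearMap.pi fun j => (r.W j).subtype.comp (LinearMap.proj j)
  refine ⟨φ.comp incl, fun e => h0 (funext fun q => ?_), fun a hint' h => ?_⟩
  · have h1 : φ (fun j => r.proj j ((Pi.single q.1 (b q.2) : Fin n → P.D) j)) = 0 :=
      LinearMap.congr_fun e fun j => ⟨_, r.proj_mem j ((Pi.single q.1 (b q.2) : Fin n → P.D) j)⟩
    rw [hproj] at h1
    have h2 : φ (Pi.single q.1 (b q.2)) = (t * z q).coeff 0 := by
      show ∑ q' : Fin n × Fin (finrank P.K P.D), _ = _
      rw [Finset.sum_eq_single q]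
      · simp
      · intro q' _ hne
        by_cases h3 : q'.1 = q.1
        · have h4 : q.2 ≠ q'.2 := fun h4 => hne (Prod.ext h3 h4.symm)
          simp [h3, Finsupp.single_eq_of_ne h4.symm]
        · simp [Pi.single_eq_of_ne h3]
      · simp
    exact h2.symm.trans h1
  · show φ (fun j => r.proj j (cf (T.toS (a j)) 0)) = 0
    rw [hproj]
    refine Eq.trans (hres (fun j => T.toS (a j)) hint').symm ?_
    rw [hΨy, h]
    exact (congrArg (fun s : LaurentSeries P.K => s.coeff 0) (mul_zero t)).trans HahnSeries.coeff_zero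

namespace LiftSeries

variable {P P₁ : Pt} {E : Ext P P₁} {L : Listing} {n : ℕ} {r : Rows L n P} {a b : Rows.Amb P}
  {U V : P₁.D} (T : LaurData P₁) (hx1 : ∀ c, cf (T.x c) 1 = X1 E a b U V c)
  (hc1 : ∀ i, (T.c i).coeff 1 = 0)

variable {r' : Rows L n T.pt}

include hx1 hc1 in
/-- **The full differential of the lifted rows is onto.** -/
theorem surj_of_fit (h : LiftData E r a b U V) (hF : Rows.FitOver T (baseRows E r) r') :
    Function.Surjective r'.Jf := by
  let _ := T.alg
  have halg : ∀ z, algebraMap (LaurentSeries P₁.K) (SkewLaurent (1 : RingAut P₁.D)) z =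
      laurentScalarHom z := fun _ => rfl
  let ι : ((j : Fin n) → ↥(r'.W j ⊔ r'.Pp j)) →ₗ[T.pt.K] (Fin n → T.pt.D) :=
    LinearMap.pi fun j => (r'.W j ⊔ r'.Pp j).subtype.comp (LinearMap.proj j)
  have hι : Function.Injective ι := fun x y e => funext fun j => Subtype.ext (congrFun e j)
  let S₀ : Submodule T.pt.K (Fin n → T.pt.D) := (LinearMap.range r'.Jf).map ι
  let S : Submodule (LaurentSeries P₁.K) (Fin n → SkewLaurent (1 : RingAut P₁.D)) := S₀
  have hS : finrank (LaurentSeries P₁.K) S = finrank T.pt.K (LinearMap.range r'.Jf) := by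
    show finrank T.pt.K S₀ = _
    exact (Submodule.equivMapOfInjective ι hι _).finrank_eq.symm
  let ι₁ : ((j : Fin n) → ↥((baseRows E r).W j ⊔ (baseRows E r).Pp j)) →ₗ[P₁.K] (Fin n → P₁.D) :=
    LinearMap.pi fun j => ((baseRows E r).W j ⊔ (baseRows E r).Pp j).subtype.comp (LinearMap.proj j)
  have hι₁ : Function.Injective ι₁ := fun x y e => funext fun j => Subtype.ext (congrFun e j)
  have hmem : ∀ d : P₁.Dir (L.b n),
      (fun j : Fin n => T.toS (r'.projF j (T.pt.dEq L (L.b n) j (T.cd d)))) ∈ S := fun d => by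
    show (fun j : Fin n => r'.projF j (T.pt.dEq L (L.b n) j (T.cd d))) ∈ S₀
    exact ⟨r'.Jf (T.cd d), ⟨T.cd d, rfl⟩, rfl⟩
  have hcoef : ∀ (d : P₁.Dir (L.b n)) (j : Fin n), _ := fun d j =>
    And.intro (hF.projF_int j _ (dEq_cd (L := L) (n := n) T hx1 hc1 d j).1).1
      (And.intro (hF.projF_int j _ (dEq_cd (L := L) (n := n) T hx1 hc1 d j).1).2
        (hF.projF_one j (dEq_cd (L := L) (n := n) T hx1 hc1 d j).1))
  have hle : LinearMap.range ι₁ ≤ LeadE.lead halg S := by
    rintro _ ⟨Z, rfl⟩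
    obtain ⟨x, u, hu, rfl⟩ := reachF E r h Z
    rw [map_add]
    refine add_mem ?_ ?_
    · have hx := LeadE.mem_lead_of halg (hmem x) fun j m hm => (hcoef x j).1 m hm
      convert hx using 1
      funext j
      refine Eq.symm ((hcoef x j).2.1.trans ?_)
      rw [(dEq_cd (L := L) (n := n) T hx1 hc1 x j).2.1]
      rfl
    · have h0 : ∀ j : Fin n, cf (T.toS (T.pt.dEq L (L.b n) j (T.cd u))) 0 = 0 := fun j => by
        rw [(dEq_cd (L := L) (n := n) T hx1 hc1 u j).2.1, hu j]
      have hx := LeadE.res_one_mem_lead halg (hmem u) (fun j m hm => (hcoef u j).1 m hm)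
        (funext fun j => (hcoef u j).2.1.trans (by rw [h0 j, map_zero]; rfl))
      convert hx using 1
      funext j
      refine Eq.symm (((hcoef u j).2.2 (h0 j)).trans ?_)
      rw [(dEq_cd (L := L) (n := n) T hx1 hc1 u j).2.2]
      rfl
  have h3 := Submodule.finrank_mono hle
  rw [LinearMap.finrank_range_of_inj hι₁, LeadE.finrank_lead halg S, hS] at h3
  have h4 := hF.finrank_piF
  rw [← LinearMap.range_eq_top]
  exact Submodule.eq_top_of_finrank_eq (le_antisymm (Submodule.finrank_le _) (by omega))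

include hx1 hc1 in
/-- Order zero and order one stay in the range. -/
theorem reach_le_finrank (h : LiftData E r a b U V) (hF : Rows.FitOver T (baseRows E r) r') :
    finrank P₁.K ↥(LinearMap.range (baseRows E r).J ⊔ (baseRows E r).T.map (LinA E r a b U V)) ≤
      finrank T.pt.K (LinearMap.range r'.J) := by
  let _ := T.alg
  have halg : ∀ z, algebraMap (LaurentSeries P₁.K) (SkewLaurent (1 : RingAut P₁.D)) z =
      laurentScalarHom z := fun _ => rfl
  let ι : ((j : Fin n) → r'.W j) →ₗ[T.pt.K] (Fin n → T.pt.D) :=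
    LinearMap.pi fun j => (r'.W j).subtype.comp (LinearMap.proj j)
  have hι : Function.Injective ι := fun x y e => funext fun j => Subtype.ext (congrFun e j)
  let S₀ : Submodule T.pt.K (Fin n → T.pt.D) := (LinearMap.range r'.J).map ι
  let S : Submodule (LaurentSeries P₁.K) (Fin n → SkewLaurent (1 : RingAut P₁.D)) := S₀
  have hS : finrank (LaurentSeries P₁.K) S = finrank T.pt.K (LinearMap.range r'.J) := by
    show finrank T.pt.K S₀ = _
    exact (Submodule.equivMapOfInjective ι hι _).finrank_eq.symm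
  let ι₁ : ((j : Fin n) → (baseRows E r).W j) →ₗ[P₁.K] (Fin n → P₁.D) :=
    LinearMap.pi fun j => ((baseRows E r).W j).subtype.comp (LinearMap.proj j)
  have hι₁ : Function.Injective ι₁ := fun x y e => funext fun j => Subtype.ext (congrFun e j)
  have hmem : ∀ v : Rows.Amb P₁,
      (fun j : Fin n => T.toS (r'.proj j (T.pt.dEq L (L.b n) j (T.cd (v, 0))))) ∈ S := fun v => by
    show (fun j : Fin n => r'.proj j (T.pt.dEq L (L.b n) j (T.cd (v, 0)))) ∈ S₀
    refine ⟨r'.J fun c => T.ofS (C 1 (v c)), ⟨_, rfl⟩, ?_⟩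
    funext j
    show r'.proj j (T.pt.dEq L (L.b n) j (_, 0)) = r'.proj j _
    congr 3
    funext i
    exact (map_zero (HahnSeries.C (R := P₁.K) (Γ := ℤ))).symm
  have hcoef : ∀ (v : Rows.Amb P₁) (j : Fin n), _ := fun v j =>
    And.intro (hF.proj_int j _ (dEq_cd (L := L) (n := n) T hx1 hc1 (v, 0) j).1).1
      (And.intro (hF.proj_int j _ (dEq_cd (L := L) (n := n) T hx1 hc1 (v, 0) j).1).2
        (hF.proj_one j (dEq_cd (L := L) (n := n) T hx1 hc1 (v, 0) j).1))
  have hle : (LinearMap.range (baseRows E r).J ⊔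
      (baseRows E r).T.map (LinA E r a b U V)).map ι₁ ≤ LeadE.lead halg S := by
    rw [Submodule.map_sup, sup_le_iff]
    constructor
    · rintro _ ⟨_, ⟨v, rfl⟩, rfl⟩
      have hx := LeadE.mem_lead_of halg (hmem v) fun j m hm => (hcoef v j).1 m hm
      convert hx using 1
      funext j
      refine Eq.symm ((hcoef v j).2.1.trans ?_)
      rw [(dEq_cd (L := L) (n := n) T hx1 hc1 (v, 0) j).2.1]
      rfl
    · rintro _ ⟨_, ⟨v, hv, rfl⟩, rfl⟩
      have h0 : ∀ j : Fin n, cf (T.toS (T.pt.dEq L (L.b n) j (T.cd (v, 0)))) 0 = 0 := fun j => by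
        rw [(dEq_cd (L := L) (n := n) T hx1 hc1 (v, 0) j).2.1, baseRows_fixed E r h.tight.fixed v hv j]
      have hx := LeadE.res_one_mem_lead halg (hmem v) (fun j m hm => (hcoef v j).1 m hm)
        (funext fun j => (hcoef v j).2.1.trans (by rw [h0 j, map_zero]; rfl))
      convert hx using 1
      funext j
      refine Eq.symm (((hcoef v j).2.2 (h0 j)).trans ?_)
      rw [(dEq_cd (L := L) (n := n) T hx1 hc1 (v, 0) j).2.2]
      rfl
  have h3 := Submodule.finrank_mono hle
  rw [(Submodule.equivMapOfInjective ι₁ hι₁ _).finrank_eq.symm, LeadE.finrank_lead halg S, hS] at h3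
  exact h3

include hx1 hc1 in
/-- **The number of identities does not grow.** -/
theorem corank_le_of_fit (h : LiftData E r a b U V) (hF : Rows.FitOver T (baseRows E r) r') :
    r'.corank ≤ r.corank := by
  have h1 := r'.corank_add_range
  have h2 := reach_le_finrank T hx1 hc1 h hF
  have h3 := finrank_le_reach E r h
  have h4 := hF.finrank_pi
  omega


include hx1 hc1 in
/-- The first two coefficients along an integral ambient direction. -/
theorem dEq_int {p : Rows.Amb T.pt} (hp : LeadE.IntV fun c => T.toS (p c)) (j : ℕ) :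
    (∀ m < 0, cf (T.toS (T.pt.dEq L (L.b n) j (p, 0))) m = 0) ∧
      cf (T.toS (T.pt.dEq L (L.b n) j (p, 0))) 0 =
        P₁.dEq L (L.b n) j (LeadE.res 0 (fun c => T.toS (p c)), 0) ∧
      cf (T.toS (T.pt.dEq L (L.b n) j (p, 0))) 1 =
        P₁.dEq L (L.b n) j (LeadE.res 1 (fun c => T.toS (p c)), 0) +
          Lin (L := L) (n := n) E a b U V j (LeadE.res 0 (fun c => T.toS (p c)), 0) := by
  refine dEq_lift T hx1 hc1 (L := L) (n := n) (w := (p, 0))
    (LeadE.res 0 (fun c => T.toS (p c)), 0) (LeadE.res 1 (fun c => T.toS (p c)), 0) (fun z => ?_) j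
  cases z with
  | inl c => exact ⟨hp c, rfl, rfl⟩
  | inr i =>
    have h1 : T.pt.dirVal (N := L.b n) (p, 0) (Sum.inr i) = 0 := by
      by_cases hi : i < L.b n <;> simp [Pt.dirVal, hi]
    have h2 : ∀ v : Rows.Amb P₁, P₁.dirVal (N := L.b n) (v, 0) (Sum.inr i) = 0 := fun v => by
      by_cases hi : i < L.b n <;> simp [Pt.dirVal, hi]
    rw [h1, h2, h2]
    exact ⟨fun m _ => cf_zero m, cf_zero 0, cf_zero 1⟩

include hx1 hc1 in
/-- Leading tangents stay in the range at order one. -/
theorem lead_T_le (h : LiftData E r a b U V) (hF : Rows.FitOver T (baseRows E r) r')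
    {p : Rows.Amb T.pt} (hp : p ∈ r'.T) (hi : LeadE.IntV fun c => T.toS (p c)) :
    LeadE.res 0 (fun c => T.toS (p c)) ∈ Tp E r a b U V := by
  have hz : ∀ j : Fin n, r'.proj j (T.pt.dEq L (L.b n) j (p, 0)) = 0 := fun j =>
    congrArg Subtype.val (congrFun (LinearMap.mem_ker.1 hp) j)
  have hd := fun j : Fin n => dEq_int (L := L) (n := n) T hx1 hc1 hi j
  have h0 : LeadE.res 0 (fun c => T.toS (p c)) ∈ (baseRows E r).T :=
    LinearMap.mem_ker.2 (funext fun j => Subtype.ext (by
      have h1 := (hF.proj_int j _ (hd j).1).2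
      rw [hz j, (hd j).2.1] at h1
      exact h1.symm.trans (cf_zero 0)))
  refine ⟨h0, -LeadE.res 1 (fun c => T.toS (p c)), funext fun j => Subtype.ext ?_⟩
  have h1 := hF.proj_one j (hd j).1
    ((hd j).2.1.trans (baseRows_fixed E r h.tight.fixed _ h0 j))
  rw [hz j, (hd j).2.2, map_add] at h1
  show ((baseRows E r).J (-LeadE.res 1 (fun c => T.toS (p c))) j : P₁.D) = _
  rw [map_neg, Pi.neg_apply, Submodule.coe_neg]
  exact neg_eq_of_add_eq_zero_right (h1.symm.trans (cf_zero 1))

include hx1 hc1 in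
/-- The tangents lose at most the identities. -/
theorem finrank_Tp_le (h : LiftData E r a b U V) (hF : Rows.FitOver T (baseRows E r) r') :
    finrank P₁.K (Tp E r a b U V) ≤ finrank T.pt.K r'.T + r.corank ∧
      finrank P₁.K (Tp E r a b U V) + r'.corank ≤ finrank T.pt.K r'.T + r.corank := by
  have h1 := reach_le_finrank T hx1 hc1 h hF
  have h2 := finrank_Tp_add E r a b U V
  have h3 := finrank_le_reach E r h
  have h4 := hF.finrank_pi
  have h5 := r'.finrank_T_add
  have h6 := r'.corank_add_range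
  have h7 : finrank T.pt.K (Rows.Amb T.pt) = finrank P₁.K (Rows.Amb P₁) := by
    rw [Module.finrank_pi_fintype, Module.finrank_pi_fintype, T.finrank_pt]
  constructor <;> omega

include hx1 hc1 in
/-- **At equal corank every monomial multiple of a tangent orthogonal to the pair is a leading tangent.** -/
theorem exists_tangent_over (h : LiftData E r a b U V) (hF : Rows.FitOver T (baseRows E r) r')
    (hc : r'.corank = r.corank) {v : Rows.Amb P₁} (hv : v ∈ Tp E r a b U V) :
    ∃ p ∈ r'.T, LeadE.IntV (fun c => T.toS (p c)) ∧ LeadE.res 0 (fun c => T.toS (p c)) = v := by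
  let _ := T.alg
  have halg : ∀ z, algebraMap (LaurentSeries P₁.K) (SkewLaurent (1 : RingAut P₁.D)) z =
      laurentScalarHom z := fun _ => rfl
  let T' : Submodule (LaurentSeries P₁.K) (Bool → SkewLaurent (1 : RingAut P₁.D)) := r'.T
  have h1 : finrank P₁.K (LeadE.lead halg T') = finrank T.pt.K r'.T := LeadE.finrank_lead halg T'
  have h2 : LeadE.lead halg T' ≤ Tp E r a b U V := by
    rintro _ ⟨p, hp, hi, rfl⟩
    exact lead_T_le T hx1 hc1 h hF (p := (p : Rows.Amb T.pt)) hp hi
  have h4 : finrank P₁.K (Tp E r a b U V) ≤ finrank T.pt.K r'.T := by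
    have := (finrank_Tp_le T hx1 hc1 h hF).2
    omega
  have h3 := Submodule.eq_of_le_of_finrank_le h2 (le_trans h4 h1.ge)
  rw [← h3] at hv
  obtain ⟨p, hp, hi, rfl⟩ := hv
  exact ⟨p, hp, hi, rfl⟩

include hx1 hc1 in
/-- **The forms of the surviving identities have large rank.** -/
theorem rankGE_of_fit {R : ℕ} (h : LiftData E r a b U V) (hF : Rows.FitOver T (baseRows E r) r')
    (hspec : RankSpec E.iK) (hnd : NonDeg E) (hR : r.RankGE R) :
    r'.RankGE (E.m * (R - 4 * r.corank) - 2 * r.corank) := by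
  let _ := T.alg
  have halg : ∀ z, algebraMap (LaurentSeries P₁.K) (SkewLaurent (1 : RingAut P₁.D)) z =
      laurentScalarHom z := fun _ => rfl
  intro y hy hy0 S hS hform
  obtain ⟨y₁, hy₁, hlead⟩ := hF.exists_lead_covector hy0
  have hkill : ∀ v : Rows.Amb P₁, y (r'.J fun c => T.ofS (C 1 (v c))) = 0 := fun v =>
    (Submodule.mem_dualAnnihilator _).1 hy _ ⟨_, rfl⟩
  have hcd : ∀ (v : Rows.Amb P₁) (j : Fin n),
      r'.proj j (T.pt.dEq L (L.b n) j (T.cd (v, 0))) =
        (r'.J (fun c => T.ofS (C 1 (v c))) j : T.pt.D) := fun v j => by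
    show r'.proj j _ = r'.proj j (T.pt.dEq L (L.b n) j (_, 0))
    congr 3
    exact Prod.ext rfl (funext fun i => map_zero (HahnSeries.C (R := P₁.K) (Γ := ℤ)))
  have hG : ∀ z ∈ LinearMap.range (baseRows E r).J ⊔ (baseRows E r).T.map (LinA E r a b U V),
      y₁ z = 0 := by
    have hd := fun (v : Rows.Amb P₁) (j : Fin n) => dEq_cd (L := L) (n := n) T hx1 hc1 (v, 0) j
    intro z hz
    obtain ⟨_, ⟨v, rfl⟩, _, ⟨v', hv', rfl⟩, rfl⟩ := Submodule.mem_sup.1 hz
    have hA : y₁ ((baseRows E r).J v) = 0 := by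
      refine Eq.trans (congrArg y₁ (funext fun j => Subtype.ext ?_)) (hlead
        (fun j => T.pt.dEq L (L.b n) j (T.cd (v, 0))) (fun j => (hd v j).1)
        (Eq.trans (congrArg y (funext fun j => Subtype.ext (hcd v j))) (hkill v)))
      show (baseRows E r).proj j _ = (baseRows E r).proj j _
      rw [(hd v j).2.1]
      rfl
    have hB : y₁ (LinA E r a b U V v') = 0 := by
      have h0 : ∀ j : Fin n, cf (T.toS (T.pt.dEq L (L.b n) j (T.cd (v', 0)))) 0 = 0 := fun j =>
        (hd v' j).2.1.trans (baseRows_fixed E r h.tight.fixed v' hv' j)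
      refine Eq.trans (congrArg y₁ (funext fun j => Subtype.ext ?_)) (hlead
        (fun j => T.epsInv • T.pt.dEq L (L.b n) j (T.cd (v', 0))) (fun j m hm => ?_) ?_)
      · show PJ E r j _ = (baseRows E r).proj j _
        rw [T.cf_epsInv_smul, zero_add, (hd v' j).2.2]
        rfl
      · rw [T.cf_epsInv_smul]
        rcases eq_or_lt_of_le (show m + 1 ≤ 0 by omega) with h' | h'
        · rw [h', h0]
        · exact (hd v' j).1 _ h'
      · refine Eq.trans (congrArg y ?_) (show y (T.epsInv • r'.J fun c => T.ofS (C 1 (v' c))) = 0 by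
          rw [map_smul, hkill, smul_zero])
        funext j
        refine Subtype.ext ?_
        show r'.proj j _ = T.epsInv • (r'.J (fun c => T.ofS (C 1 (v' c))) j : T.pt.D)
        rw [map_smul, hcd]
    rw [map_add, hA, hB, add_zero]
  obtain ⟨B, hB, hrank⟩ := exists_form E r h hR hspec hnd y₁ hG hy₁
  let S' : Submodule (LaurentSeries P₁.K) (Bool → SkewLaurent (1 : RingAut P₁.D)) := S
  let T' : Submodule (LaurentSeries P₁.K) (Bool → SkewLaurent (1 : RingAut P₁.D)) := r'.T
  have hT₀ : LeadE.lead halg T' ≤ Tp E r a b U V := by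
    rintro _ ⟨p, hp, hi, rfl⟩
    exact lead_T_le T hx1 hc1 h hF (p := (p : Rows.Amb T.pt)) hp hi
  have hS₀ : LeadE.lead halg S' ≤ Tp E r a b U V := by
    rintro _ ⟨p, hp, hi, rfl⟩
    exact lead_T_le T hx1 hc1 h hF (p := (p : Rows.Amb T.pt)) (hS hp) hi
  have hrad := finrank_radical_sub B (LeadE.lead halg S') (LeadE.lead halg T') hS₀ hT₀ (by
    rintro u v ⟨p, hp, hpi, hpe⟩ ⟨p', hp', hpi', hpe'⟩
    let q : Rows.Amb T.pt := p
    let q' : Rows.Amb T.pt := p'
    have hc := fun j : Fin n =>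
      T.cf_d2_int (L := L) (n := n) (u := q) (u' := q') hpi hpi' j
    have h' := hlead (fun j => Poly.d2 T.pt.val (T.pt.dirVal (N := L.b n) (q, 0))
      (T.pt.dirVal (N := L.b n) (q', 0)) (L.eqn j)) (fun j => (hc j).1) (hform q hp q' hp')
    rw [hB, ← hpe, ← hpe']
    refine Eq.trans (congrArg y₁ (funext fun j => Subtype.ext ?_)) h'
    exact congrArg ((baseRows E r).proj j) (hc j).2.symm)
  have h1 : finrank P₁.K (LeadE.lead halg S') = finrank T.pt.K S := LeadE.finrank_lead halg S'
  have h2 : finrank P₁.K (LeadE.lead halg T') = finrank T.pt.K r'.T := LeadE.finrank_lead halg T'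
  have h3 := (finrank_Tp_le T hx1 hc1 h hF).1
  have h4 : finrank T.pt.K S ≤ finrank T.pt.K r'.T := Submodule.finrank_mono hS
  have hrad' : finrank T.pt.K S + finrank P₁.K (LinearMap.range B) + finrank T.pt.K r'.T ≤
      2 * finrank P₁.K (Tp E r a b U V) := by
    rw [← h1, ← h2]
    exact hrad
  omega

include hx1 hc1 in
/-- **The rank transfers along a lift.** -/
theorem rankTransfer_of_fit (h : LiftData E r a b U V) (hF : Rows.FitOver T (baseRows E r) r')
    (hspec : RankSpec E.iK) (hnd : NonDeg E) (hm : 2 ≤ E.m) :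
    Inv.RankTransfer L ⟨P, r⟩ (⟨T.pt, r'⟩ : Stg L n) := by
  intro R hR hrank
  have hR' : 12 * r.corank ≤ R := hR
  have hle := corank_le_of_fit T hx1 hc1 h hF
  obtain ⟨k, rfl⟩ := Nat.exists_eq_add_of_le hR'
  have h1 : 2 * r.corank + 12 * r'.corank ≤ E.m * (8 * r.corank) := by
    have h2 := Nat.mul_le_mul_right (8 * r.corank) hm
    omega
  have h3 : E.m * (12 * r.corank + k - 4 * r.corank) = E.m * (8 * r.corank) + E.m * k := by
    rw [← mul_add]
    congr 1
    omega
  refine ⟨_, ?_, rankGE_of_fit T hx1 hc1 h hF hspec hnd hrank, ?_⟩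
  · show 12 * r'.corank ≤ _
    omega
  · show (12 * r.corank + k - 12 * r.corank) * finrank T.pt.K T.pt.D ≤
      (_ - 12 * r'.corank) * finrank P.K P.D
    rw [T.finrank_pt, E.finrank_eq, Nat.add_sub_cancel_left, mul_comm (finrank P.K P.D), ← mul_assoc,
      mul_comm k]
    exact Nat.mul_le_mul_right _ (by omega)

end LiftSeries

end

end Vale.Agent.P199
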