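import Vale.Agent.P199.Lift.Lead

/-!
P199: deformed rows on a Laurent point. The constant extensions of the residue projections are conjugated by an
integral automorphism with residue one that carries the residue scalars of each row to the scalars of the row.
-/

namespace Vale.Agent.P199

open Module SkewLaurent LaurentAlg

noncomputable section

namespace Conj

theorem cf_psE_neg {D : Type} [DivisionRing D] (p : PowerSeries D) {n : ℤ} (hn : n < 0) :
    cf (psE p) n = 0 := by
  rw [show psE p = toE (HahnSeries.ofPowerSeries ℤ D p) from rfl, cf_toE,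
    HahnSeries.ofPowerSeries_apply, HahnSeries.embDomain_of_notMem_range]
  rintro ⟨m, hm⟩
  exact absurd (hm ▸ Int.natCast_nonneg m : (0 : ℤ) ≤ n) (by omega)

variable {K D : Type} [Field K] [DivisionRing D] [Algebra K D] [FiniteDimensional K D]
  [Algebra (LaurentSeries K) (SkewLaurent (1 : RingAut D))]
  (halg : ∀ z, algebraMap (LaurentSeries K) (SkewLaurent (1 : RingAut D)) z = laurentScalarHom z)

/-- The constant extension of a linear map. -/
def ext (f : D →ₗ[K] D) : SkewLaurent (1 : RingAut D) →ₗ[LaurentSeries K] SkewLaurent (1 : RingAut D) :=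
  (laurentBasis halg (Module.finBasis K D)).constr (LaurentSeries K)
    fun i => C 1 (f (Module.finBasis K D i))

theorem cf_ext (f : D →ₗ[K] D) (a : SkewLaurent (1 : RingAut D)) (n : ℤ) :
    cf (ext halg f a) n = f (cf a n) := by
  obtain ⟨x, rfl⟩ := (comb halg (Module.finBasis K D)).surjective a
  have hx : comb halg (Module.finBasis K D) x = ∑ i, x i • C 1 (Module.finBasis K D i) := by
    rw [comb, Basis.equivFun_symm_apply]
    exact Finset.sum_congr rfl fun i _ => by rw [laurentBasis, Basis.mk_apply]
  have he : ∀ i, ext halg f (C 1 (Module.finBasis K D i)) = C 1 (f (Module.finBasis K D i)) := fun i => by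
    have h : laurentBasis halg (Module.finBasis K D) i = C 1 (Module.finBasis K D i) := by
      rw [laurentBasis, Basis.mk_apply]
    rw [← h, ext, Basis.constr_basis]
  rw [cf_comb halg, map_sum, hx, map_sum, cf_finsetSum]
  refine Finset.sum_congr rfl fun i _ => ?_
  rw [map_smul, map_smul, he, Algebra.smul_def, halg, cf_mul_C, cf_laurentScalarHom, one_zpow_apply,
    Algebra.smul_def]

theorem ext_C (f : D →ₗ[K] D) (x : D) : ext halg f (C 1 x) = C 1 (f x) :=
  ext_cf fun n => by rw [cf_ext, cf_C, cf_C]; split <;> simp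

/-- The constant extension of a subspace. -/
def span (W : Submodule K D) : Submodule (LaurentSeries K) (SkewLaurent (1 : RingAut D)) :=
  Submodule.span (LaurentSeries K) (C 1 '' (W : Set D))

theorem ext_mem_span {f : D →ₗ[K] D} {W : Submodule K D} (h : ∀ a, f a ∈ W)
    (a : SkewLaurent (1 : RingAut D)) : ext halg f a ∈ span W := by
  rw [← (laurentBasis halg (Module.finBasis K D)).sum_repr a, map_sum]
  refine Submodule.sum_mem _ fun i _ => ?_
  rw [map_smul, ext, Basis.constr_basis]
  exact Submodule.smul_mem _ _ (Submodule.subset_span ⟨_, h _, rfl⟩)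

theorem ext_eq_of_mem {f : D →ₗ[K] D} {W : Submodule K D} (g : D →ₗ[K] D) (h : ∀ a ∈ W, f a = g a)
    {a : SkewLaurent (1 : RingAut D)} (ha : a ∈ span W) : ext halg f a = ext halg g a := by
  induction ha using Submodule.span_induction with
  | mem x hx =>
    obtain ⟨w, hw, rfl⟩ := hx
    rw [ext_C, ext_C, h w hw]
  | zero => rw [map_zero, map_zero]
  | add x y _ _ hx hy => rw [map_add, map_add, hx, hy]
  | smul c x _ hx => rw [map_smul, map_smul, hx]

theorem ext_id (a : SkewLaurent (1 : RingAut D)) : ext halg LinearMap.id a = a :=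
  ext_cf fun n => cf_ext halg _ _ n

theorem ext_zero (a : SkewLaurent (1 : RingAut D)) : ext halg 0 a = 0 :=
  ext_cf fun n => by rw [cf_ext]; rfl

omit [FiniteDimensional K D] in
theorem span_sup (W W' : Submodule K D) :
    (span (W ⊔ W') : Submodule (LaurentSeries K) (SkewLaurent (1 : RingAut D))) ≤
      span W ⊔ span W' := by
  refine Submodule.span_le.2 ?_
  rintro _ ⟨x, hx, rfl⟩
  obtain ⟨y, hy, z, hz, rfl⟩ := Submodule.mem_sup.1 hx
  rw [SetLike.mem_coe, (C (1 : RingAut D)).map_add]
  exact add_mem (Submodule.mem_sup_left (Submodule.subset_span ⟨y, hy, rfl⟩))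
    (Submodule.mem_sup_right (Submodule.subset_span ⟨z, hz, rfl⟩))

omit [FiniteDimensional K D] in
theorem span_mono {W W' : Submodule K D} (h : W ≤ W') :
    (span W : Submodule (LaurentSeries K) (SkewLaurent (1 : RingAut D))) ≤ span W' :=
  Submodule.span_mono (Set.image_mono h)

include halg in
theorem finrank_span (W : Submodule K D) :
    finrank (LaurentSeries K) (span W : Submodule (LaurentSeries K) _) = finrank K W := by
  have hi := linearIndependent_laurent halg
    ((Module.finBasis K W).linearIndependent.map' W.subtype (Submodule.ker_subtype W))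
  have h : (span W : Submodule (LaurentSeries K) (SkewLaurent (1 : RingAut D))) =
      Submodule.span (LaurentSeries K) (Set.range fun i => C (1 : RingAut D) (W.subtype (Module.finBasis K W i))) := by
    refine le_antisymm (Submodule.span_le.2 ?_) (Submodule.span_le.2 ?_)
    · rintro _ ⟨w, hw, rfl⟩
      rw [SetLike.mem_coe, show w = W.subtype ⟨w, hw⟩ from rfl,
        ← (Module.finBasis K W).sum_repr ⟨w, hw⟩, map_sum, map_sum]
      refine Submodule.sum_mem _ fun i _ => ?_
      rw [map_smul]
      have hC : C (1 : RingAut D) ((Module.finBasis K W).repr ⟨w, hw⟩ i • W.subtype (Module.finBasis K W i)) =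
          (HahnSeries.C ((Module.finBasis K W).repr ⟨w, hw⟩ i) : LaurentSeries K) •
            C (1 : RingAut D) (W.subtype (Module.finBasis K W i)) := ext_cf fun n => by
        rw [cf_C, Algebra.smul_def, Algebra.smul_def, halg, cf_mul_C, cf_laurentScalarHom,
          one_zpow_apply, HahnSeries.C_apply, HahnSeries.coeff_single]
        split <;> simp
      rw [hC]
      exact Submodule.smul_mem _ _ (Submodule.subset_span ⟨i, rfl⟩)
    · rintro _ ⟨i, rfl⟩
      exact Submodule.subset_span ⟨_, (Module.finBasis K W i).2, rfl⟩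
  rw [h]
  exact (finrank_span_eq_card hi).trans (Fintype.card_fin _)

variable (g : D →ₗ[K] PowerSeries D) (hg : ∀ x, PowerSeries.constantCoeff (g x) = x)

/-- The automorphism with `C x ↦ g x`. -/
def move : SkewLaurent (1 : RingAut D) →ₗ[LaurentSeries K] SkewLaurent (1 : RingAut D) :=
  (laurentBasis halg (Module.finBasis K D)).constr (LaurentSeries K)
    fun i => psE (g (Module.finBasis K D i))

theorem move_C (x : D) : move halg g (C 1 x) = psE (g x) := by
  have hx : C (1 : RingAut D) x = ∑ i, (HahnSeries.C ((Module.finBasis K D).repr x i) : LaurentSeries K) •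
      laurentBasis halg (Module.finBasis K D) i := ext_cf fun n => by
    rw [cf_C, cf_finsetSum]
    conv_lhs => rw [← (Module.finBasis K D).sum_repr x]
    split
    · subst_vars
      refine Finset.sum_congr rfl fun i _ => ?_
      rw [laurentBasis, Basis.mk_apply, Algebra.smul_def, Algebra.smul_def, halg, cf_mul_C,
        cf_laurentScalarHom, one_zpow_apply, HahnSeries.C_apply, HahnSeries.coeff_single_same]
    · rename_i hn
      refine (Finset.sum_eq_zero fun i _ => ?_).symm
      rw [laurentBasis, Basis.mk_apply, Algebra.smul_def, halg, cf_mul_C,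
        cf_laurentScalarHom, one_zpow_apply, HahnSeries.C_apply, HahnSeries.coeff_single,
        if_neg hn, map_zero, zero_mul]
  rw [hx, map_sum]
  conv_rhs => rw [← (Module.finBasis K D).sum_repr x, map_sum, map_sum]
  refine Finset.sum_congr rfl fun i _ => ?_
  rw [map_smul, move, Basis.constr_basis, map_smul, ← HahnSeries.ofPowerSeries_C,
    LeadE.smul_psE halg, PowerSeries.map_C]
  congr 1
  refine PowerSeries.ext fun m => ?_
  rw [PowerSeries.coeff_C_mul, Algebra.smul_def, PowerSeries.algebraMap_apply,
    PowerSeries.coeff_C_mul]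

include hg in
theorem move_coeffs {a : SkewLaurent (1 : RingAut D)} (ha : ∀ n < 0, cf a n = 0) :
    (∀ n < 0, cf (move halg g a) n = 0) ∧ cf (move halg g a) 0 = cf a 0 ∧
      cf (move halg g a) 1 = cf a 1 + PowerSeries.coeff 1 (g (cf a 0)) := by
  obtain ⟨x, rfl⟩ := (comb halg (Module.finBasis K D)).surjective a
  set b := Module.finBasis K D with hb
  have hx0 : ∀ i, ∀ n < 0, (x i).coeff n = 0 := fun i n hn => by
    have h := ha n hn
    rw [cf_comb halg] at h
    exact Fintype.linearIndependent_iff.1 b.linearIndependent _ h i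
  have hval : move halg g (comb halg b x) = ∑ i, x i • psE (g (b i)) := by
    rw [comb, Basis.equivFun_symm_apply, map_sum]
    exact Finset.sum_congr rfl fun i _ => by rw [map_smul, move, hb, Basis.constr_basis]
  have hs := fun i => LeadE.smul_coeffs halg (x i) (hx0 i) (psE (g (b i)))
    (fun n hn => cf_psE_neg (g (b i)) hn)
  have h0 : ∀ i, cf (psE (g (b i))) 0 = b i := fun i => by
    rw [show (0 : ℤ) = ((0 : ℕ) : ℤ) from rfl, cf_psE, PowerSeries.coeff_zero_eq_constantCoeff_apply, hg]
  refine ⟨fun n hn => ?_, ?_, ?_⟩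
  · rw [hval, cf_finsetSum]
    exact Finset.sum_eq_zero fun i _ => (hs i).1 n hn
  · rw [hval, cf_finsetSum, cf_comb halg]
    exact Finset.sum_congr rfl fun i _ => by rw [(hs i).2.1, h0]
  · rw [hval, cf_finsetSum, cf_comb halg, cf_comb halg, map_sum, map_sum, ← Finset.sum_add_distrib]
    refine Finset.sum_congr rfl fun i _ => ?_
    rw [(hs i).2.2, h0, map_smul, show (1 : ℤ) = ((1 : ℕ) : ℤ) from rfl, cf_psE, add_comm]
    congr 1

include hg in
theorem move_injective : Function.Injective (move halg g) := by
  rw [← LinearMap.ker_eq_bot]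
  refine (Submodule.eq_bot_iff _).2 fun a ha => ?_
  by_contra h0
  have := finiteDimensional_laurent halg
  have h1 : (fun _ : Unit => a) ∈ (LinearMap.ker (move halg g)).comap
      (LinearMap.proj (R := LaurentSeries K) (φ := fun _ : Unit => SkewLaurent (1 : RingAut D)) ()) := ha
  set S := (LinearMap.ker (move halg g)).comap
    (LinearMap.proj (R := LaurentSeries K) (φ := fun _ : Unit => SkewLaurent (1 : RingAut D)) ())
  have hne : S ≠ ⊥ := fun h => h0 (congrFun ((Submodule.eq_bot_iff _).1 h _ h1) ())
  have hlead : LeadE.lead halg S = ⊥ := by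
    refine (Submodule.eq_bot_iff _).2 ?_
    rintro x ⟨f, hf, hfi, rfl⟩
    funext u
    have h2 := (move_coeffs halg g hg (hfi u)).2.1
    have h3 : move halg g (f u) = 0 := hf
    rw [h3, cf_zero] at h2
    exact h2.symm
  have := LeadE.finrank_lead halg S
  rw [hlead, finrank_bot, eq_comm, Submodule.finrank_eq_zero] at this
  exact hne this

/-- `move` as an equivalence. -/
def moveEquiv : SkewLaurent (1 : RingAut D) ≃ₗ[LaurentSeries K] SkewLaurent (1 : RingAut D) :=
  haveI := finiteDimensional_laurent halg
  LinearEquiv.ofInjectiveEndo (move halg g) (move_injective halg g hg)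

theorem moveEquiv_apply (a : SkewLaurent (1 : RingAut D)) :
    moveEquiv halg g hg a = move halg g a := rfl

theorem moveEquiv_symm_coeffs {a : SkewLaurent (1 : RingAut D)} (ha : ∀ n < 0, cf a n = 0) :
    (∀ n < 0, cf ((moveEquiv halg g hg).symm a) n = 0) ∧
      cf ((moveEquiv halg g hg).symm a) 0 = cf a 0 ∧
      cf ((moveEquiv halg g hg).symm a) 1 = cf a 1 - PowerSeries.coeff 1 (g (cf a 0)) := by
  set b := (moveEquiv halg g hg).symm a with hb
  have hba : move halg g b = a := (moveEquiv halg g hg).apply_symm_apply a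
  have hneg : ∀ n < 0, cf b n = 0 := by
    by_contra hcon
    push Not at hcon
    obtain ⟨n, hn, hne⟩ := hcon
    -- shift the least bad coefficient to order zero
    obtain ⟨m, hm, hmin⟩ : ∃ m : ℤ, cf b m ≠ 0 ∧ ∀ k < m, cf b k = 0 := by
      obtain ⟨p, k, hk⟩ := exists_psE (D := D) b
      refine ⟨b.1.order, fun h => ?_, fun k hk => ?_⟩
      · have hb0 : b.1 ≠ 0 := fun h' => hne (by rw [show b = 0 from Subtype.ext h', cf_zero])
        exact hb0 (HahnSeries.coeff_order_eq_zero.1 (by rw [coeff_eq, h, wShift_zero]))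
      · exact (congrArg evalOne (HahnSeries.coeff_eq_zero_of_lt_order hk)).trans (map_zero _)
    have hm0 : m < 0 := lt_of_le_of_lt (not_lt.1 fun h => hne (hmin n h)) hn
    set t : LaurentSeries K := HahnSeries.single (-m) 1
    have ht : ∀ (e : SkewLaurent (1 : RingAut D)) (k : ℤ), cf (t • e) k = cf e (k + m) := fun e k => by
      have h : laurentScalarHom (D := D) t = T (1 : RingAut D) (-m) := ext_cf fun j => by
        rw [cf_laurentScalarHom, cf_T, HahnSeries.coeff_single]
        split_ifs <;> simp
      rw [Algebra.smul_def, halg, h, cf_T_mul, one_zpow_apply, sub_neg_eq_add]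
    have h1 := (move_coeffs halg g hg (a := t • b) fun k hk => by
      rw [ht]; exact hmin _ (by omega)).2.1
    rw [map_smul, hba, ht, ht, zero_add, ha m hm0] at h1
    exact hm h1.symm
  obtain ⟨-, h0, h1⟩ := move_coeffs halg g hg hneg
  rw [hba] at h0 h1
  exact ⟨hneg, h0.symm, by rw [h1, h0, add_sub_cancel_right]⟩

/-- The conjugated constant extension. -/
def conj (f : D →ₗ[K] D) : SkewLaurent (1 : RingAut D) →ₗ[LaurentSeries K] SkewLaurent (1 : RingAut D) :=
  move halg g ∘ₗ ext halg f ∘ₗ (moveEquiv halg g hg).symm.toLinearMap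

theorem conj_coeffs (f : D →ₗ[K] D) {a : SkewLaurent (1 : RingAut D)} (ha : ∀ n < 0, cf a n = 0) :
    (∀ n < 0, cf (conj halg g hg f a) n = 0) ∧ cf (conj halg g hg f a) 0 = f (cf a 0) ∧
      (cf a 0 = 0 → cf (conj halg g hg f a) 1 = f (cf a 1)) := by
  obtain ⟨hn, h0, h1⟩ := moveEquiv_symm_coeffs halg g hg ha
  obtain ⟨kn, k0, k1⟩ := move_coeffs halg g hg
    (a := ext halg f ((moveEquiv halg g hg).symm a)) fun n hn' => by
      rw [cf_ext, hn n hn', map_zero]
  refine ⟨kn, ?_, fun ha0 => ?_⟩
  · exact k0.trans (by rw [cf_ext, h0])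
  · refine k1.trans ?_
    rw [cf_ext, cf_ext, h0, h1, ha0]
    simp

/-- The moved extension of a subspace. -/
def movedSpan (W : Submodule K D) : Submodule (LaurentSeries K) (SkewLaurent (1 : RingAut D)) :=
  (span W).map (move halg g)

include hg in
theorem finrank_movedSpan (W : Submodule K D) :
    finrank (LaurentSeries K) (movedSpan halg g W) = finrank K W := by
  rw [movedSpan, ← finrank_span halg W]
  exact (Submodule.equivMapOfInjective _ (move_injective halg g hg) _).finrank_eq.symm

theorem conj_mem {f : D →ₗ[K] D} {W : Submodule K D} (h : ∀ a, f a ∈ W)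
    (a : SkewLaurent (1 : RingAut D)) : conj halg g hg f a ∈ movedSpan halg g W :=
  ⟨_, ext_mem_span halg h _, rfl⟩

theorem conj_eq_of_mem {f f' : D →ₗ[K] D} {W : Submodule K D} (h : ∀ a ∈ W, f a = f' a)
    {a : SkewLaurent (1 : RingAut D)} (ha : a ∈ movedSpan halg g W) :
    conj halg g hg f a = conj halg g hg f' a := by
  obtain ⟨b, hb, rfl⟩ := ha
  show move halg g (ext halg f ((moveEquiv halg g hg).symm (moveEquiv halg g hg b))) =
    move halg g (ext halg f' ((moveEquiv halg g hg).symm (moveEquiv halg g hg b)))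
  rw [(moveEquiv halg g hg).symm_apply_apply, ext_eq_of_mem halg f' h hb]

theorem conj_id (a : SkewLaurent (1 : RingAut D)) : conj halg g hg LinearMap.id a = a := by
  show move halg g (ext halg LinearMap.id _) = a
  rw [ext_id]
  exact (moveEquiv halg g hg).apply_symm_apply a

theorem conj_zero (a : SkewLaurent (1 : RingAut D)) : conj halg g hg 0 a = 0 := by
  show move halg g (ext halg 0 _) = 0
  rw [ext_zero, map_zero]

theorem conj_comp {f f' h : D →ₗ[K] D} (hcomp : ∀ a, f (f' a) = h a)
    (a : SkewLaurent (1 : RingAut D)) :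
    conj halg g hg f (conj halg g hg f' a) = conj halg g hg h a := by
  show move halg g (ext halg f ((moveEquiv halg g hg).symm (moveEquiv halg g hg _))) = _
  rw [(moveEquiv halg g hg).symm_apply_apply]
  refine congrArg (move halg g) (ext_cf fun n => ?_)
  simp only [LinearMap.comp_apply, LinearEquiv.coe_coe, cf_ext]
  exact hcomp _

end Conj

end

end Vale.Agent.P199
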