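import Vale.Agent.P199.Lift.LiftRows

/-!
P199: rows on a Laurent point which fit over rows of its residue: integral values have integral projections, whose
constant terms are the residue projections, and the dimensions agree.
-/

namespace Vale.Agent.P199

open Module SkewLaurent LaurentAlg

noncomputable section

variable {L : Listing} {n : ℕ} {P₁ : Pt}

/-- **Fit**: the rows `r'` on the Laurent point reduce to the rows `r₁` of its residue. -/
structure Rows.FitOver (T : LaurData P₁) (r₁ : Rows L n P₁) (r' : Rows L n T.pt) : Prop where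
  proj_int : ∀ (j : Fin n) (a : T.pt.D), (∀ m < 0, cf (T.toS a) m = 0) →
    (∀ m < 0, cf (T.toS (r'.proj j a)) m = 0) ∧
      cf (T.toS (r'.proj j a)) 0 = r₁.proj j (cf (T.toS a) 0)
  projF_int : ∀ (j : Fin n) (a : T.pt.D), (∀ m < 0, cf (T.toS a) m = 0) →
    (∀ m < 0, cf (T.toS (r'.projF j a)) m = 0) ∧
      cf (T.toS (r'.projF j a)) 0 = r₁.projF j (cf (T.toS a) 0)
  finrank_W : ∀ j : Fin n, finrank T.pt.K (r'.W j) = finrank P₁.K (r₁.W j)
  finrank_WP : ∀ j : Fin n,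
    finrank T.pt.K ↥(r'.W j ⊔ r'.Pp j) = finrank P₁.K ↥(r₁.W j ⊔ r₁.Pp j)

namespace LaurData

variable (T : LaurData P₁)

/-- The uniformiser to the power `-1`, as a scalar. -/
def epsInv : T.pt.K := (HahnSeries.single (-1 : ℤ) (1 : P₁.K) : LaurentSeries P₁.K)

theorem cf_epsInv_smul (a : T.pt.D) (m : ℤ) :
    cf (T.toS (T.epsInv • a)) m = cf (T.toS a) (m + 1) := by
  let _ := T.alg
  exact LeadE.cf_shift (K := P₁.K) (fun _ => rfl) (T.toS a) m

/-- A map which is integral with a given residue acts on order one by that residue, where order zero vanishes. -/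
theorem map_one_of_int (f : T.pt.D →ₗ[T.pt.K] T.pt.D) (f₁ : P₁.D → P₁.D)
    (hf : ∀ a : T.pt.D, (∀ m < 0, cf (T.toS a) m = 0) →
      cf (T.toS (f a)) 0 = f₁ (cf (T.toS a) 0))
    {a : T.pt.D} (ha : ∀ m < 0, cf (T.toS a) m = 0) (h0 : cf (T.toS a) 0 = 0) :
    cf (T.toS (f a)) 1 = f₁ (cf (T.toS a) 1) := by
  have hint : ∀ m < 0, cf (T.toS (T.epsInv • a)) m = 0 := fun m hm => by
    rw [T.cf_epsInv_smul]
    rcases eq_or_lt_of_le (show m + 1 ≤ 0 by omega) with h | h
    · rw [h, h0]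
    · exact ha _ h
  have h := hf _ hint
  rwa [map_smul, T.cf_epsInv_smul, T.cf_epsInv_smul, zero_add] at h

variable {T} {r₁ : Rows L n P₁}

theorem deform_fitOver (T : LaurData P₁) (r₁ : Rows L n P₁)
    (hdeg : ∀ j < n, finrank T.pt.K (T.pt.scalars L j) ≤ finrank P₁.K (P₁.scalars L j)) :
    Rows.FitOver T r₁ (T.deform L r₁ hdeg) where
  proj_int j a ha := ⟨(T.deform_proj_coeffs r₁ hdeg j a ha).1, (T.deform_proj_coeffs r₁ hdeg j a ha).2.1⟩
  projF_int j a ha :=
    ⟨(T.deform_projF_coeffs r₁ hdeg j a ha).1, (T.deform_projF_coeffs r₁ hdeg j a ha).2.1⟩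
  finrank_W := T.finrank_deform_W r₁ hdeg
  finrank_WP := T.finrank_deform_WP r₁ hdeg

end LaurData

namespace Rows.FitOver

variable {T : LaurData P₁} {r₁ : Rows L n P₁} {r' : Rows L n T.pt}

theorem proj_one (h : Rows.FitOver T r₁ r') (j : Fin n) {a : T.pt.D}
    (ha : ∀ m < 0, cf (T.toS a) m = 0) (h0 : cf (T.toS a) 0 = 0) :
    cf (T.toS (r'.proj j a)) 1 = r₁.proj j (cf (T.toS a) 1) :=
  T.map_one_of_int (r'.proj j) (r₁.proj j) (fun x hx => (h.proj_int j x hx).2) ha h0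

theorem projF_one (h : Rows.FitOver T r₁ r') (j : Fin n) {a : T.pt.D}
    (ha : ∀ m < 0, cf (T.toS a) m = 0) (h0 : cf (T.toS a) 0 = 0) :
    cf (T.toS (r'.projF j a)) 1 = r₁.projF j (cf (T.toS a) 1) :=
  T.map_one_of_int (r'.projF j) (r₁.projF j) (fun x hx => (h.projF_int j x hx).2) ha h0

/-- Fitting rows have the same number of linked dimensions. -/
theorem finrank_pi (h : Rows.FitOver T r₁ r') :
    finrank T.pt.K ((j : Fin n) → r'.W j) = finrank P₁.K ((j : Fin n) → r₁.W j) := by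
  rw [Module.finrank_pi_fintype, Module.finrank_pi_fintype]
  exact Finset.sum_congr rfl fun j _ => h.finrank_W j

theorem finrank_piF (h : Rows.FitOver T r₁ r') :
    finrank T.pt.K ((j : Fin n) → ↥(r'.W j ⊔ r'.Pp j)) =
      finrank P₁.K ((j : Fin n) → ↥(r₁.W j ⊔ r₁.Pp j)) := by
  rw [Module.finrank_pi_fintype, Module.finrank_pi_fintype]
  exact Finset.sum_congr rfl fun j _ => h.finrank_WP j

/-- Prefixes of fitting rows fit. -/
theorem restrict (h : Rows.FitOver T r₁ r') (j : ℕ) (hj : j ≤ n)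
    (r₁' : Rows L j P₁) (r'' : Rows L j T.pt)
    (h₁ : ∀ i, r₁'.proj i = r₁.proj (Fin.castLE hj i) ∧ r₁'.projF i = r₁.projF (Fin.castLE hj i) ∧
      r₁'.W i = r₁.W (Fin.castLE hj i) ∧ r₁'.Pp i = r₁.Pp (Fin.castLE hj i))
    (h₂ : ∀ i, r''.proj i = r'.proj (Fin.castLE hj i) ∧ r''.projF i = r'.projF (Fin.castLE hj i) ∧
      r''.W i = r'.W (Fin.castLE hj i) ∧ r''.Pp i = r'.Pp (Fin.castLE hj i)) :
    Rows.FitOver T r₁' r'' where
  proj_int i a ha := by rw [(h₁ i).1, (h₂ i).1]; exact h.proj_int _ a ha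
  projF_int i a ha := by rw [(h₁ i).2.1, (h₂ i).2.1]; exact h.projF_int _ a ha
  finrank_W i := by rw [(h₁ i).2.2.1, (h₂ i).2.2.1]; exact h.finrank_W _
  finrank_WP i := by rw [(h₁ i).2.2.1, (h₂ i).2.2.1, (h₁ i).2.2.2, (h₂ i).2.2.2]; exact h.finrank_WP _

end Rows.FitOver

end

end Vale.Agent.P199
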