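import Vale.Agent.P199.LaurentAlg

/-!
P199: leading spaces of subspaces of `D((ε)) ^ ι`: the constant coefficients of the integral vectors. They keep the
dimension, contain the first coefficient of a vector whose constant coefficient vanishes, and receive normalised
functionals.
-/

namespace Vale.Agent.P199.LeadE

open Module SkewLaurent LaurentAlg

noncomputable section

variable {K D : Type} [Field K] [DivisionRing D] [Algebra K D] {ι : Type}

/-- No negative coefficients. -/
def IntV (f : ι → SkewLaurent (1 : RingAut D)) : Prop := ∀ i, ∀ n < 0, cf (f i) n = 0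

/-- The coefficient of `ε ^ n`. -/
def res (n : ℤ) (f : ι → SkewLaurent (1 : RingAut D)) : ι → D := fun i => cf (f i) n

/-- A constant vector. -/
def cVec (x : ι → D) : ι → SkewLaurent (1 : RingAut D) := fun i => C 1 (x i)

theorem intV_cVec (x : ι → D) : IntV (cVec x) := fun i n hn => by
  rw [cVec, cf_C, if_neg hn.ne]

theorem res_cVec (x : ι → D) : res 0 (cVec x) = x := funext fun i => by simp [res, cVec, cf_C]

theorem res_one_cVec (x : ι → D) : res 1 (cVec x) = 0 := funext fun i => by simp [res, cVec, cf_C]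

theorem IntV.add {f g : ι → SkewLaurent (1 : RingAut D)} (hf : IntV f) (hg : IntV g) :
    IntV (f + g) := fun i n hn => by
  rw [Pi.add_apply, cf_add, hf i n hn, hg i n hn, add_zero]

theorem res_add (n : ℤ) (f g : ι → SkewLaurent (1 : RingAut D)) :
    res n (f + g) = res n f + res n g := funext fun _ => cf_add _ _ _

theorem res_zero (n : ℤ) : res n (0 : ι → SkewLaurent (1 : RingAut D)) = 0 := rfl

theorem intV_zero : IntV (0 : ι → SkewLaurent (1 : RingAut D)) := fun _ _ _ => rfl

variable [Algebra (LaurentSeries K) (SkewLaurent (1 : RingAut D))]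
  (halg : ∀ z, algebraMap (LaurentSeries K) (SkewLaurent (1 : RingAut D)) z = laurentScalarHom z)
include halg

theorem smul_psE (p : PowerSeries K) (q : PowerSeries D) :
    (HahnSeries.ofPowerSeries ℤ K p) • psE q = psE (PowerSeries.map (algebraMap K D) p * q) := by
  have h : algebraMap (LaurentSeries K) (SkewLaurent (1 : RingAut D))
      (HahnSeries.ofPowerSeries ℤ K p) = psE (PowerSeries.map (algebraMap K D) p) := by
    rw [LaurentAlg.algebraMap_eq halg, psE, RingHom.comp_apply]
    refine congrArg toE (HahnSeries.ext (funext fun n => ?_))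
    rw [coeff_base]
    by_cases hn : 0 ≤ n
    · obtain ⟨m, rfl⟩ := Int.eq_ofNat_of_zero_le hn
      rw [HahnSeries.ofPowerSeries_apply_coeff, HahnSeries.ofPowerSeries_apply_coeff,
        PowerSeries.coeff_map]
    · have h0 : ∀ (R : Type) [Semiring R] (q : PowerSeries R),
          (HahnSeries.ofPowerSeries ℤ R q).coeff n = 0 := fun R _ q => by
        rw [HahnSeries.ofPowerSeries_apply, HahnSeries.embDomain_of_notMem_range]
        rintro ⟨m, hm⟩
        exact hn (hm ▸ Int.natCast_nonneg m)
      rw [h0, h0, map_zero]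
  rw [Algebra.smul_def, h, ← map_mul]

/-- Coefficients of a product with an integral scalar. -/
theorem smul_coeffs (z : LaurentSeries K) (hz : ∀ n < 0, z.coeff n = 0)
    (e : SkewLaurent (1 : RingAut D)) (he : ∀ n < 0, cf e n = 0) :
    (∀ n < 0, cf (z • e) n = 0) ∧ cf (z • e) 0 = z.coeff 0 • cf e 0 ∧
      cf (z • e) 1 = z.coeff 0 • cf e 1 + z.coeff 1 • cf e 0 := by
  have hp : z = HahnSeries.ofPowerSeries ℤ K (PowerSeries.mk fun n : ℕ => z.coeff n) := by
    refine HahnSeries.ext (funext fun n => ?_)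
    by_cases hn : 0 ≤ n
    · obtain ⟨m, rfl⟩ := Int.eq_ofNat_of_zero_le hn
      rw [HahnSeries.ofPowerSeries_apply_coeff, PowerSeries.coeff_mk]
    · rw [hz n (by omega), HahnSeries.ofPowerSeries_apply, HahnSeries.embDomain_of_notMem_range]
      rintro ⟨m, hm⟩
      exact hn (hm ▸ Int.natCast_nonneg m)
  have hq := exists_psE_of_neg e he
  have key : z • e = psE (PowerSeries.map (algebraMap K D) (PowerSeries.mk fun n : ℕ => z.coeff n) *
      PowerSeries.mk fun n : ℕ => cf e n) := by
    conv_lhs => rw [hp, ← hq]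
    exact smul_psE halg _ _
  refine ⟨fun n hn => ?_, ?_, ?_⟩
  · rw [key, show psE _ = toE (HahnSeries.ofPowerSeries ℤ D _) from rfl, cf_toE,
      HahnSeries.ofPowerSeries_apply, HahnSeries.embDomain_of_notMem_range]
    rintro ⟨m, hm⟩
    exact absurd (hm ▸ Int.natCast_nonneg m : (0 : ℤ) ≤ n) (by omega)
  · rw [key, show (0 : ℤ) = ((0 : ℕ) : ℤ) from rfl, cf_psE, PowerSeries.coeff_mul,
      Finset.Nat.antidiagonal_zero, Finset.sum_singleton]
    simp [Algebra.smul_def]
  · rw [key, show (1 : ℤ) = ((1 : ℕ) : ℤ) from rfl, cf_psE, PowerSeries.coeff_mul,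
      Finset.Nat.sum_antidiagonal_eq_sum_range_succ (fun i j => PowerSeries.coeff i
        (PowerSeries.map (algebraMap K D) (PowerSeries.mk fun n : ℕ => z.coeff n)) *
          PowerSeries.coeff j (PowerSeries.mk fun n : ℕ => cf e n)),
      Finset.sum_range_succ, Finset.sum_range_succ, Finset.sum_range_zero]
    simp [Algebra.smul_def, PowerSeries.coeff_map]

/-- Division by `ε`. -/
theorem cf_shift (e : SkewLaurent (1 : RingAut D)) (n : ℤ) :
    cf ((HahnSeries.single (-1 : ℤ) (1 : K) : LaurentSeries K) • e) n = cf e (n + 1) := by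
  have h : laurentScalarHom (HahnSeries.single (-1 : ℤ) (1 : K) : LaurentSeries K) =
      T (1 : RingAut D) (-1) := ext_cf fun m => by
    rw [cf_laurentScalarHom, cf_T, HahnSeries.coeff_single]
    split_ifs <;> simp
  rw [Algebra.smul_def, halg, h, cf_T_mul, one_zpow_apply, sub_neg_eq_add]

variable [Fintype ι] {κ : Type} [Fintype κ] (b : Basis κ K D)

/-- Coordinates of vectors. -/
def vComb : (ι × κ → LaurentSeries K) ≃ₗ[LaurentSeries K] (ι → SkewLaurent (1 : RingAut D)) :=
  (LinearEquiv.curry (LaurentSeries K) (LaurentSeries K) ι κ).trans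
    (LinearEquiv.piCongrRight fun _ => comb halg b)

omit [Fintype ι] in
theorem vComb_apply (x : ι × κ → LaurentSeries K) (i : ι) :
    vComb halg b x i = comb halg b (fun k => x (i, k)) := rfl

omit [Fintype ι] in
theorem intV_vComb_up (p : ι × κ → PowerSeries K) :
    IntV (vComb halg b (Vale.P199.Valued.up p)) ∧
      res 0 (vComb halg b (Vale.P199.Valued.up p)) =
        fun i => ∑ k, PowerSeries.constantCoeff (p (i, k)) • b k := by
  have h : ∀ i, vComb halg b (Vale.P199.Valued.up p) i =
      psE (PowerSeries.mk fun n => ∑ k, PowerSeries.coeff n (p (i, k)) • b k) :=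
    fun i => comb_up halg b fun k => p (i, k)
  refine ⟨fun i n hn => ?_, funext fun i => ?_⟩
  · rw [h, show psE _ = toE (HahnSeries.ofPowerSeries ℤ D _) from rfl, cf_toE,
      HahnSeries.ofPowerSeries_apply, HahnSeries.embDomain_of_notMem_range]
    rintro ⟨m, hm⟩
    exact absurd (hm ▸ Int.natCast_nonneg m : (0 : ℤ) ≤ n) (by omega)
  · rw [res, h, show (0 : ℤ) = ((0 : ℕ) : ℤ) from rfl, cf_psE, PowerSeries.coeff_mk]
    simp

omit [Fintype ι] in
theorem exists_up_of_intV {f : ι → SkewLaurent (1 : RingAut D)} (hf : IntV f) :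
    ∃ p : ι × κ → PowerSeries K, vComb halg b (Vale.P199.Valued.up p) = f := by
  refine ⟨fun q => PowerSeries.mk fun n : ℕ => b.repr (cf (f q.1) n) q.2, funext fun i => ?_⟩
  rw [vComb_apply]
  refine (comb_up halg b fun k => PowerSeries.mk fun n : ℕ => b.repr (cf (f i) n) k).trans ?_
  simp only [PowerSeries.coeff_mk, b.sum_repr]
  exact exists_psE_of_neg (f i) (hf i)

omit [Fintype ι] [Fintype κ] in
/-- The leading space: constant coefficients of integral vectors. -/
def lead (S : Submodule (LaurentSeries K) (ι → SkewLaurent (1 : RingAut D))) :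
    Submodule K (ι → D) where
  carrier := {x | ∃ f ∈ S, IntV f ∧ res 0 f = x}
  zero_mem' := ⟨0, S.zero_mem, intV_zero, res_zero 0⟩
  add_mem' := by
    rintro x y ⟨f, hf, hfi, rfl⟩ ⟨g, hg, hgi, rfl⟩
    exact ⟨f + g, S.add_mem hf hg, hfi.add hgi, res_add 0 f g⟩
  smul_mem' := by
    rintro a x ⟨f, hf, hfi, rfl⟩
    have h := fun i => smul_coeffs halg (HahnSeries.C a)
      (fun n hn => by rw [HahnSeries.C_apply, HahnSeries.coeff_single, if_neg hn.ne]) (f i) (hfi i)
    refine ⟨HahnSeries.C a • f, S.smul_mem _ hf, fun i n hn => (h i).1 n hn, funext fun i => ?_⟩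
    rw [res, Pi.smul_apply, (h i).2.1, HahnSeries.C_apply, HahnSeries.coeff_single_same]
    rfl

omit [Fintype ι] in
theorem mem_lead {S : Submodule (LaurentSeries K) (ι → SkewLaurent (1 : RingAut D))} {x : ι → D} :
    x ∈ lead halg S ↔ ∃ f ∈ S, IntV f ∧ res 0 f = x := Iff.rfl

/-- The dimension is kept. -/
theorem finrank_lead [FiniteDimensional K D]
    (S : Submodule (LaurentSeries K) (ι → SkewLaurent (1 : RingAut D))) :
    finrank K (lead halg S) = finrank (LaurentSeries K) S := by
  let b := Module.finBasis K D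
  let Φ : (ι × Fin (finrank K D) → LaurentSeries K) ≃ₗ[LaurentSeries K]
      (ι → SkewLaurent (1 : RingAut D)) := vComb halg b
  let Φ₀ : (ι × Fin (finrank K D) → K) ≃ₗ[K] (ι → D) :=
    (LinearEquiv.curry K K ι _).trans (LinearEquiv.piCongrRight fun _ => b.equivFun.symm)
  have hlead : lead halg S =
      (Vale.P199.Valued.lead (S.comap Φ.toLinearMap)).map Φ₀.toLinearMap := by
    have hΦ₀ : ∀ p : ι × Fin (finrank K D) → PowerSeries K,
        Φ₀ (fun q => PowerSeries.constantCoeff (p q)) = res 0 (Φ (Vale.P199.Valued.up p)) := fun p => by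
      rw [(intV_vComb_up halg b p).2]
      funext i
      simp [Φ₀, Basis.equivFun_symm_apply, Function.curry]
    refine le_antisymm ?_ ?_
    · rintro x ⟨f, hf, hfi, rfl⟩
      obtain ⟨p, rfl⟩ := exists_up_of_intV halg b hfi
      exact ⟨fun q => PowerSeries.constantCoeff (p q), ⟨p, hf, fun _ => rfl⟩, hΦ₀ p⟩
    · rintro _ ⟨c, ⟨p, hp, hc⟩, rfl⟩
      obtain rfl : c = fun q => PowerSeries.constantCoeff (p q) := funext fun q => (hc q).symm
      exact ⟨_, hp, (intV_vComb_up halg b p).1, (hΦ₀ p).symm⟩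
  rw [hlead, LinearEquiv.finrank_map_eq, Vale.P199.Valued.finrank_lead,
    ← LinearEquiv.finrank_map_eq Φ, Submodule.map_comap_eq_of_surjective Φ.surjective]

omit [Fintype ι] in
theorem mem_lead_of {S : Submodule (LaurentSeries K) (ι → SkewLaurent (1 : RingAut D))}
    {f : ι → SkewLaurent (1 : RingAut D)} (hf : f ∈ S) (hfi : IntV f) : res 0 f ∈ lead halg S :=
  ⟨f, hf, hfi, rfl⟩

omit [Fintype ι] in
/-- The first coefficient of a vector vanishing at order zero is a leading vector. -/
theorem res_one_mem_lead {S : Submodule (LaurentSeries K) (ι → SkewLaurent (1 : RingAut D))}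
    {f : ι → SkewLaurent (1 : RingAut D)} (hf : f ∈ S) (hfi : IntV f) (h0 : res 0 f = 0) :
    res 1 f ∈ lead halg S := by
  refine ⟨(HahnSeries.single (-1 : ℤ) (1 : K) : LaurentSeries K) • f, S.smul_mem _ hf,
    fun i n hn => ?_, funext fun i => ?_⟩
  · rw [Pi.smul_apply, cf_shift halg]
    rcases eq_or_lt_of_le (show n + 1 ≤ 0 by omega) with h | h
    · rw [h]; exact congrFun h0 i
    · exact hfi i _ h
  · rw [res, Pi.smul_apply, cf_shift halg]
    rfl

end

/-- A nonzero finite family of Laurent series, scaled to be integral with a nonzero constant. -/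
theorem exists_normalise {K : Type} [Field K] {α : Type} [Fintype α] (v : α → LaurentSeries K)
    (hv : v ≠ 0) : ∃ t : LaurentSeries K, t ≠ 0 ∧ (∀ a, ∀ n < 0, (t * v a).coeff n = 0) ∧
      (fun a => (t * v a).coeff 0) ≠ 0 := by
  obtain ⟨p, hp, i, hi⟩ := Vale.P199.Valued.exists_normalised
    (S := Submodule.span (LaurentSeries K) {v}) (by simpa using hv)
  obtain ⟨t, ht⟩ := Submodule.mem_span_singleton.1 hp
  have h : ∀ a, t * v a = HahnSeries.ofPowerSeries ℤ K (p a) := fun a => congrFun ht a
  have h0 : ∀ a, (t * v a).coeff 0 = PowerSeries.constantCoeff (p a) := fun a => by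
    rw [h, show (0 : ℤ) = ((0 : ℕ) : ℤ) from rfl, HahnSeries.ofPowerSeries_apply_coeff,
      PowerSeries.coeff_zero_eq_constantCoeff_apply]
  refine ⟨t, fun h1 => hi ?_, fun a n hn => ?_, fun h1 => hi ?_⟩
  · rw [← h0, h1, zero_mul, HahnSeries.coeff_zero]
  · rw [h, HahnSeries.ofPowerSeries_apply, HahnSeries.embDomain_of_notMem_range]
    rintro ⟨m, hm⟩
    exact absurd (hm ▸ Int.natCast_nonneg m : (0 : ℤ) ≤ n) (by omega)
  · rw [← h0]; exact congrFun h1 i

end Vale.Agent.P199.LeadE
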