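import Vale.Agent.P199.Lift.DeformRows
import Vale.Agent.P199.Inv.Defs

/-!
P199: integral lifts of residue subspaces. Sections of the constant coefficient with prescribed subspaces going to
prescribed spaces of series, and lifts of elements commuting with the element of a row to elements commuting with the
element of the row at a solved Laurent point.
-/

namespace Vale.Agent.P199

open Module SkewLaurent LaurentAlg

noncomputable section

namespace Sect

variable {K V M : Type*} [Field K] [AddCommGroup V] [Module K V] [AddCommGroup M] [Module K M]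
  (ρ : M →ₗ[K] V)

/-- Two sections agreeing on an intersection combine. -/
theorem glue (f f' : V →ₗ[K] M) (hf : ∀ v, ρ (f v) = v) (hf' : ∀ v, ρ (f' v) = v)
    (A B : Submodule K V) (h : ∀ v ∈ A, v ∈ B → f v = f' v) :
    ∃ g : V →ₗ[K] M, (∀ v, ρ (g v) = v) ∧ (∀ v ∈ A, g v = f v) ∧ ∀ v ∈ B, g v = f' v := by
  let d : B →ₗ[K] LinearMap.ker ρ := ((f' - f).comp B.subtype).codRestrict _ fun v => by
    simp [hf, hf']
  obtain ⟨li, hli⟩ := ((LinearMap.ker (A.mkQ ∘ₗ B.subtype)).liftQ (A.mkQ ∘ₗ B.subtype)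
    le_rfl).exists_leftInverse_of_injective (Submodule.ker_liftQ_eq_bot _ _ _ le_rfl)
  have hker : LinearMap.ker (A.mkQ ∘ₗ B.subtype) ≤ LinearMap.ker d := fun v hv => by
    have hv' : (v : V) ∈ A := (Submodule.Quotient.mk_eq_zero _).1 hv
    refine LinearMap.mem_ker.2 (Subtype.ext ?_)
    show f' v - f v = 0
    rw [h v hv' v.2, sub_self]
  let φ : (V ⧸ A) →ₗ[K] LinearMap.ker ρ := ((LinearMap.ker (A.mkQ ∘ₗ B.subtype)).liftQ d hker) ∘ₗ li
  refine ⟨f + (LinearMap.ker ρ).subtype ∘ₗ φ ∘ₗ A.mkQ, fun v => ?_, fun v hv => ?_, fun v hv => ?_⟩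
  · simp [hf]
  · simp [(Submodule.Quotient.mk_eq_zero A).2 hv]
  · have h1 := LinearMap.congr_fun hli (Submodule.Quotient.mk ⟨v, hv⟩)
    simp only [LinearMap.comp_apply, Submodule.liftQ_apply, LinearMap.id_apply] at h1
    show f v + ((φ (A.mkQ v)) : M) = f' v
    show f v + (((LinearMap.ker (A.mkQ ∘ₗ B.subtype)).liftQ d hker (li (A.mkQ v))) : M) = f' v
    rw [show li (A.mkQ v) = Submodule.Quotient.mk ⟨v, hv⟩ from h1, Submodule.liftQ_apply]
    exact add_sub_cancel _ _

/-- A subspace covered by the residues of a space has a section into it. -/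
theorem exists_section (f : V →ₗ[K] M) (hf : ∀ v, ρ (f v) = v) (A : Submodule K V) (X : Submodule K M)
    (h : ∀ v ∈ A, ∃ p ∈ X, ρ p = v) :
    ∃ g : V →ₗ[K] M, (∀ v, ρ (g v) = v) ∧ ∀ v ∈ A, g v ∈ X := by
  let M₀ : Submodule K M := X ⊓ A.comap ρ
  let ρ₀ : M₀ →ₗ[K] A := (ρ.comp M₀.subtype).codRestrict A fun p => p.2.2
  obtain ⟨σ, hσ⟩ := ρ₀.exists_rightInverse_of_surjective (LinearMap.range_eq_top.2 fun v => by
    obtain ⟨p, hp, hpv⟩ := h v v.2
    exact ⟨⟨p, hp, show ρ p ∈ A from hpv ▸ v.2⟩, Subtype.ext hpv⟩)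
  have hσ' : ∀ v : A, ρ (σ v : M) = v := fun v => congrArg Subtype.val (LinearMap.congr_fun hσ v)
  let d : A →ₗ[K] LinearMap.ker ρ :=
    (M₀.subtype.comp σ - f.comp A.subtype).codRestrict _ fun v => by simp [hf, hσ']
  obtain ⟨e, he⟩ := LinearMap.exists_extend d
  refine ⟨f + (LinearMap.ker ρ).subtype ∘ₗ e, fun v => by simp [hf], fun v hv => ?_⟩
  have h1 : (e v : M) = (σ ⟨v, hv⟩ : M) - f v :=
    congrArg Subtype.val (LinearMap.congr_fun he ⟨v, hv⟩)
  simp only [LinearMap.add_apply, LinearMap.comp_apply, Submodule.subtype_apply, h1, add_sub_cancel]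
  exact (σ ⟨v, hv⟩).2.1

/-- A relative complement. -/
theorem exists_compl (A B : Submodule K V) (h : A ≤ B) :
    ∃ A' : Submodule K V, A ⊔ A' = B ∧ A ⊓ A' = ⊥ := by
  obtain ⟨C, hC⟩ := exists_isCompl A
  refine ⟨C ⊓ B, ?_, ?_⟩
  · rw [← sup_inf_assoc_of_le C h, hC.sup_eq_top, top_inf_eq]
  · rw [← inf_assoc, hC.inf_eq_bot, bot_inf_eq]

/-- **Sections adapted to three spaces**: residues of `X` go to `X`, the space `L₁` to `Y`, the space `W` to `C`. -/
theorem exists_adapted (X Y C : Submodule K M) (L₁ W : Submodule K V) (fY fC : V →ₗ[K] M)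
    (hfY : ∀ v, ρ (fY v) = v) (hY : ∀ v ∈ L₁, fY v ∈ Y) (hXC : X ≤ C) (hYC : Y ≤ C)
    (hC : ∀ v ∈ W, fC v ∈ C ∧ ρ (fC v) = v) (hXY : ∀ p ∈ X, ρ p ∈ L₁ → ∃ p' ∈ X, p' ∈ Y ∧ ρ p' = ρ p) :
    ∃ g : V →ₗ[K] M, (∀ v, ρ (g v) = v) ∧ (∀ v ∈ X.map ρ, g v ∈ X) ∧ (∀ v ∈ L₁, g v ∈ Y) ∧
      ∀ v ∈ W, g v ∈ C := by
  set A := X.map ρ
  obtain ⟨f₀, hf₀, h₀⟩ := exists_section ρ fY hfY (A ⊓ L₁) (X ⊓ Y) (by
    rintro v ⟨⟨p, hp, rfl⟩, hv⟩
    obtain ⟨p', hp', hp'Y, he⟩ := hXY p hp hv
    exact ⟨p', ⟨hp', hp'Y⟩, he⟩)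
  obtain ⟨fX, hfX, hX⟩ := exists_section ρ fY hfY A X (by rintro v ⟨p, hp, rfl⟩; exact ⟨p, hp, rfl⟩)
  obtain ⟨A', hA', hA'0⟩ := exists_compl (A ⊓ L₁) A inf_le_left
  obtain ⟨g₁, hg₁, h₁a, h₁b⟩ := glue ρ f₀ fX hf₀ hfX (A ⊓ L₁) A' fun v hv hv' => by
    have : v ∈ (A ⊓ L₁) ⊓ A' := ⟨hv, hv'⟩
    rw [hA'0, Submodule.mem_bot] at this
    simp [this]
  have hg₁A : ∀ v ∈ A, g₁ v ∈ X := by
    intro v hv
    rw [← hA'] at hv
    obtain ⟨x, hx, y, hy, rfl⟩ := Submodule.mem_sup.1 hv
    rw [map_add, h₁a x hx, h₁b y hy]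
    exact add_mem (h₀ x hx).1 (hX y (hA' ▸ Submodule.mem_sup_right hy))
  obtain ⟨L', hL', hL'0⟩ := exists_compl (A ⊓ L₁) L₁ inf_le_right
  obtain ⟨g₂, hg₂, h₂a, h₂b⟩ := glue ρ g₁ fY hg₁ hfY A L' fun v hv hv' => by
    have hvL : v ∈ L₁ := hL' ▸ Submodule.mem_sup_right hv'
    have : v ∈ (A ⊓ L₁) ⊓ L' := ⟨⟨hv, hvL⟩, hv'⟩
    rw [hL'0, Submodule.mem_bot] at this
    simp [this]
  have hg₂L : ∀ v ∈ L₁, g₂ v ∈ Y := by
    intro v hv
    rw [← hL'] at hv
    obtain ⟨x, hx, y, hy, rfl⟩ := Submodule.mem_sup.1 hv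
    rw [map_add, h₂a x hx.1, h₁a x hx, h₂b y hy]
    exact add_mem (h₀ x hx).2 (hY y (hL' ▸ Submodule.mem_sup_right hy))
  obtain ⟨W', hW', hW'0⟩ := exists_compl ((A ⊔ L₁) ⊓ W) W inf_le_right
  obtain ⟨fW, hfW, hW⟩ := exists_section ρ fY hfY W C fun v hv => ⟨fC v, (hC v hv).1, (hC v hv).2⟩
  obtain ⟨g, hg, ha, hb⟩ := glue ρ g₂ fW hg₂ hfW (A ⊔ L₁) W' fun v hv hv' => by
    have hvW : v ∈ W := hW' ▸ Submodule.mem_sup_right hv'
    have : v ∈ ((A ⊔ L₁) ⊓ W) ⊓ W' := ⟨⟨hv, hvW⟩, hv'⟩
    rw [hW'0, Submodule.mem_bot] at this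
    simp [this]
  refine ⟨g, hg, fun v hv => ?_, fun v hv => ?_, fun v hv => ?_⟩
  · rw [ha v (Submodule.mem_sup_left hv), h₂a v hv]
    exact hg₁A v hv
  · rw [ha v (Submodule.mem_sup_right hv)]
    exact hg₂L v hv
  · rw [← hW'] at hv
    obtain ⟨x, hx, y, hy, rfl⟩ := Submodule.mem_sup.1 hv
    rw [map_add, hb y hy]
    refine add_mem ?_ (hW y (hW' ▸ Submodule.mem_sup_right hy))
    obtain ⟨u, hu, w, hw, rfl⟩ := Submodule.mem_sup.1 hx.1
    rw [map_add, ha u (Submodule.mem_sup_left hu), ha w (Submodule.mem_sup_right hw), h₂a u hu]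
    exact add_mem (hXC (hg₁A u hu)) (hYC (hg₂L w hw))

end Sect

/-- The derivative of the monic equation with coefficients `c` at `q`, in the direction `u`. -/
def dsum {R : Type} [Ring R] {e : ℕ} (q : R) (c : Fin e → R) (u : R) : R :=
  Inv.dpow q u e + ∑ i : Fin e, c i * Inv.dpow q u i

theorem map_dsum {R S : Type} [Ring R] [Ring S] (φ : R →+* S) {e : ℕ} (q : R) (c : Fin e → R) (u : R) :
    φ (dsum q c u) = dsum (φ q) (fun i => φ (c i)) (φ u) := by
  simp [dsum, Inv.dpow, map_sum]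

theorem dpow_telescope {R : Type} [Ring R] (q u : R) (k : ℕ) :
    q * Inv.dpow q u k - Inv.dpow q u k * q = q ^ k * u - u * q ^ k := by
  induction k with
  | zero => simp [Inv.dpow]
  | succ k ih =>
    have h : Inv.dpow q u (k + 1) = q ^ k * u + Inv.dpow q u k * q := by
      rw [Inv.dpow, Finset.sum_range_succ, Nat.add_sub_cancel, Nat.sub_self, pow_zero, mul_one,
        add_comm, Inv.dpow, Finset.sum_mul]
      congr 1
      refine Finset.sum_congr rfl fun i hi => ?_
      have := Finset.mem_range.1 hi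
      rw [mul_assoc _ _ q, ← pow_succ, show k - 1 - i + 1 = k - i by omega]
    calc q * Inv.dpow q u (k + 1) - Inv.dpow q u (k + 1) * q
        = q ^ (k + 1) * u + (q * Inv.dpow q u k - Inv.dpow q u k * q - q ^ k * u) * q := by
          rw [h, pow_succ']; noncomm_ring
      _ = _ := by rw [ih, pow_succ]; noncomm_ring

/-- A root commutes with the derivative of its equation, where the coefficients are central. -/
theorem commute_dsum {R : Type} [Ring R] {e : ℕ} {q : R} {c : Fin e → R}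
    (hc : ∀ i x, Commute (c i) x) (hf : q ^ e + ∑ i : Fin e, c i * q ^ (i : ℕ) = 0) (u : R) :
    Commute q (dsum q c u) := by
  refine sub_eq_zero.1 ?_
  have h1 : ∀ i : Fin e, q * (c i * Inv.dpow q u i) - c i * Inv.dpow q u i * q =
      c i * q ^ (i : ℕ) * u - u * (c i * q ^ (i : ℕ)) := fun i => by
    rw [← mul_assoc q, ← (hc i q).eq, mul_assoc, mul_assoc, ← mul_sub, dpow_telescope, mul_sub,
      ← mul_assoc u, ← (hc i u).eq, mul_assoc, mul_assoc]
  calc q * dsum q c u - dsum q c u * q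
      = (q * Inv.dpow q u e - Inv.dpow q u e * q) +
          ∑ i : Fin e, (q * (c i * Inv.dpow q u i) - c i * Inv.dpow q u i * q) := by
        rw [dsum, mul_add, add_mul, Finset.mul_sum, Finset.sum_mul, Finset.sum_sub_distrib]
        abel
    _ = (q ^ e + ∑ i : Fin e, c i * q ^ (i : ℕ)) * u - u * (q ^ e + ∑ i : Fin e, c i * q ^ (i : ℕ)) := by
        simp only [dpow_telescope, h1, Finset.sum_sub_distrib, add_mul, mul_add, Finset.sum_mul,
          Finset.mul_sum]
        abel
    _ = 0 := by rw [hf, zero_mul, mul_zero, sub_zero]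

/-- In a commuting direction the derivative is the direction times the derived polynomial at the root. -/
theorem dsum_of_commute {R : Type} [Ring R] {e : ℕ} {q u : R} (c : Fin e → R) (hqu : Commute q u) :
    dsum q c u = dsum q c 1 * u := by
  have h : ∀ k, Inv.dpow q u k = Inv.dpow q 1 k * u := fun k => by
    rw [Inv.dpow, Inv.dpow, Finset.sum_mul]
    refine Finset.sum_congr rfl fun i _ => ?_
    rw [mul_assoc, mul_one, mul_assoc, ← (hqu.pow_left _).eq]
  simp only [dsum, h, add_mul, Finset.sum_mul, mul_assoc]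

namespace LaurData

variable {P₁ : Pt} (T : LaurData P₁) (L : Listing) (j : ℕ)

/-- The series of the symbols of row `j`. -/
def cS (i : Fin (L.e j)) : PowerSeries P₁.D := T.ser (Sum.inr (L.b j + i))

/-- The derivative of the equation of row `j` along a series. -/
def derS (u : PowerSeries P₁.D) : PowerSeries P₁.D := dsum (T.qS L j) (T.cS L j) u

theorem cS_central (i : Fin (L.e j)) (x : PowerSeries P₁.D) : Commute (T.cS L j i) x := by
  refine PowerSeries.ext fun m => ?_
  rw [PowerSeries.coeff_mul, PowerSeries.coeff_mul,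
    ← Finset.Nat.sum_antidiagonal_swap (f := fun z => PowerSeries.coeff z.1 x *
      PowerSeries.coeff z.2 (T.cS L j i))]
  refine Finset.sum_congr rfl fun z _ => ?_
  have h : ∀ k, PowerSeries.coeff k (T.cS L j i) =
      algebraMap P₁.K P₁.D ((T.c (L.b j + i)).coeff k) := fun k => by
    rw [cS, LaurData.ser, PowerSeries.coeff_mk]
    exact cf_laurentScalarHom _ _
  simp only [h, Prod.fst_swap, Prod.snd_swap]
  exact Algebra.commutes _ _

theorem psE_injective : Function.Injective (psE (D := P₁.D)) := fun a b h => PowerSeries.ext fun m => by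
  have := congrArg (fun z => cf z (m : ℤ)) h
  simpa [cf_psE] using this

theorem commute_derS (hsol : Poly.ev T.pt.val (L.eqn j) = 0) (u : PowerSeries P₁.D) :
    Commute (T.qS L j) (T.derS L j u) := by
  refine commute_dsum (T.cS_central L j) ?_ u
  have h0 : Poly.ev T.ser (L.eqn j) = 0 := psE_injective (by
    rw [← T.ev_pt, map_zero]
    exact congrArg T.toS hsol)
  rw [← h0]
  simp only [Listing.eqn, map_add, map_pow, map_sum, map_mul, Poly.ev_X, qS,
    Finset.sum_range fun i => T.ser (Sum.inr (L.b j + i)) * Poly.ev T.ser (L.p j) ^ i]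
  rfl

/-- The derived polynomial of row `j` at the residue. -/
def der0 : P₁.D := dsum (P₁.q L j) (fun i : Fin (L.e j) => algebraMap P₁.K P₁.D (P₁.c (L.b j + i))) 1

theorem constantCoeff_derS (u : PowerSeries P₁.D) :
    PowerSeries.constantCoeff (T.derS L j u) =
      dsum (P₁.q L j) (fun i : Fin (L.e j) => algebraMap P₁.K P₁.D (P₁.c (L.b j + i)))
        (PowerSeries.constantCoeff u) := by
  rw [derS, map_dsum, T.constantCoeff_qS]
  congr 1
  funext i
  rw [cS, ← PowerSeries.coeff_zero_eq_constantCoeff_apply, LaurData.ser, PowerSeries.coeff_mk]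
  exact (cf_laurentScalarHom _ _).trans (congrArg _ (T.c_zero _))

/-- A lift commuting with the element of the row. -/
def centLift : P₁.D →ₗ[P₁.K] PowerSeries P₁.D where
  toFun v := T.derS L j (PowerSeries.C ((der0 L j)⁻¹ * v))
  map_add' v w := by
    simp only [derS, dsum, Inv.dpow, map_add, mul_add, add_mul, Finset.sum_add_distrib, Finset.mul_sum]
    abel
  map_smul' t v := by
    have h : PowerSeries.C ((der0 L j)⁻¹ * (t • v)) = t • PowerSeries.C ((der0 L j)⁻¹ * v) :=
      PowerSeries.ext fun m => by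
        rw [mul_smul_comm, PowerSeries.coeff_smul, PowerSeries.coeff_C, PowerSeries.coeff_C]
        split <;> simp
    simp only [RingHom.id_apply]
    rw [h]
    simp only [derS, dsum, Inv.dpow, mul_smul_comm, smul_mul_assoc, ← Finset.smul_sum, smul_add]

theorem commute_centLift (hsol : Poly.ev T.pt.val (L.eqn j) = 0) (v : P₁.D) :
    Commute (T.qS L j) (T.centLift L j v) := T.commute_derS L j hsol _

theorem constantCoeff_centLift (hd : der0 (P₁ := P₁) L j ≠ 0) {v : P₁.D} (hv : Commute (P₁.q L j) v) :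
    PowerSeries.constantCoeff (T.centLift L j v) = v := by
  have hcq : Commute (P₁.q L j) (der0 (P₁ := P₁) L j) := by
    rw [der0, dsum]
    refine Commute.add_right (Commute.sum_right _ _ _ fun i _ => ?_)
      (Commute.sum_right _ _ _ fun i _ => (Algebra.commutes _ _).symm.trans rfl |> fun h =>
        Commute.mul_right h (Commute.sum_right _ _ _ fun k _ => ?_))
    · exact ((((Commute.refl _).pow_right _).mul_right (Commute.one_right _)).mul_right
        ((Commute.refl _).pow_right _))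
    · exact ((((Commute.refl _).pow_right _).mul_right (Commute.one_right _)).mul_right
        ((Commute.refl _).pow_right _))
  show PowerSeries.constantCoeff (T.derS L j _) = v
  rw [T.constantCoeff_derS, PowerSeries.constantCoeff_C, dsum_of_commute _ (hcq.inv_right₀.mul_right hv),
    ← mul_assoc, ← der0, mul_inv_cancel₀ hd, one_mul]

end LaurData

/-- The derived polynomial does not vanish at an element of full degree. -/
theorem der0_ne_zero (P₁ : Pt) (L : Listing) (j : ℕ) (he : 0 < L.e j)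
    (hd : L.e j ≤ (minpoly P₁.K (P₁.q L j)).natDegree) : LaurData.der0 (P₁ := P₁) L j ≠ 0 := by
  have := P₁.charZero
  set q := P₁.q L j
  intro h0
  let f : Polynomial P₁.K := Polynomial.monomial (L.e j - 1) ((L.e j : P₁.K)) +
    ∑ i : Fin (L.e j), Polynomial.monomial ((i : ℕ) - 1) (P₁.c (L.b j + i) * ((i : ℕ) : P₁.K))
  have hdp : ∀ k, Inv.dpow q (1 : P₁.D) k = (k : P₁.D) * q ^ (k - 1) := fun k => by
    rw [Inv.dpow, Finset.sum_congr rfl (fun i hi => show q ^ i * (1 : P₁.D) * q ^ (k - 1 - i) = q ^ (k - 1) by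
      rw [mul_one, ← pow_add]; congr 1; have := Finset.mem_range.1 hi; omega)]
    simp
  have hf : Polynomial.aeval q f = 0 := by
    rw [← h0, LaurData.der0, dsum, map_add, map_sum, Polynomial.aeval_monomial, map_natCast, hdp]
    congr 1
    refine Finset.sum_congr rfl fun i _ => ?_
    rw [Polynomial.aeval_monomial, map_mul, map_natCast, hdp, mul_assoc]
  have hcoef : f.coeff (L.e j - 1) = (L.e j : P₁.K) := by
    simp only [f, Polynomial.coeff_add, Polynomial.finsetSum_coeff, Polynomial.coeff_monomial,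
      if_pos]
    rw [Finset.sum_eq_zero fun i _ => ?_, add_zero]
    have := i.2
    by_cases hi : (i : ℕ) = 0
    · simp [hi]
    · rw [if_neg (by omega)]
  have hne : f ≠ 0 := fun e => by
    rw [e, Polynomial.coeff_zero] at hcoef
    exact (Nat.cast_ne_zero.2 he.ne') hcoef.symm
  have hdeg : f.natDegree ≤ L.e j - 1 := by
    refine (Polynomial.natDegree_add_le _ _).trans (max_le (Polynomial.natDegree_monomial_le _) ?_)
    refine Polynomial.natDegree_sum_le_of_forall_le _ _ fun i _ =>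
      (Polynomial.natDegree_monomial_le _).trans ?_
    have := i.2
    omega
  have := Polynomial.natDegree_le_of_dvd (minpoly.dvd P₁.K q hf) hne
  omega

end

end Vale.Agent.P199
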